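import Mathlib

/-!
# R323.Halt

Every r.e. set of tuples is described by a primitive recursive predicate with a unique stage.
-/

set_option autoImplicit false

namespace Crest.Agent.R323.Halt

open Nat.Partrec

/-- the encoding of tuples used by `REPred` -/
def enc {n : ℕ} (a : Fin n → ℕ) : ℕ :=
  @Encodable.encode (Fin n → ℕ) Primcodable.toEncodable a

theorem exists_code {n : ℕ} (S : Set (Fin n → ℕ)) (hS : REPred fun a => a ∈ S) :
    ∃ c : Nat.Partrec.Code, ∀ a : Fin n → ℕ, a ∈ S ↔ ∃ k, (Code.evaln k c (enc a)).isSome := by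
  obtain ⟨c, hc⟩ := Code.exists_code.1 hS
  refine ⟨c, fun a => ?_⟩
  have h1 : a ∈ S ↔ (c.eval (enc a)).Dom := by
    rw [hc]
    simp only [enc, Encodable.encodek]
    simp [Part.assert]
  rw [h1, Part.dom_iff_mem]
  constructor
  · rintro ⟨y, hy⟩
    obtain ⟨k, hk⟩ := Code.evaln_complete.1 hy
    exact ⟨k, by rw [Option.mem_def] at hk; simp [hk]⟩
  · rintro ⟨k, hk⟩
    obtain ⟨y, hy⟩ := Option.isSome_iff_exists.1 hk
    exact ⟨y, Code.evaln_sound (by simpa [Option.mem_def] using hy)⟩

theorem exists_prim_unique {n : ℕ} (S : Set (Fin n → ℕ)) (hS : REPred fun a => a ∈ S) :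
    ∃ g : List.Vector ℕ (n + 1) → ℕ, Nat.Primrec' g ∧
      ∀ a : Fin n → ℕ,
        (a ∈ S → ∃! k, g (k ::ᵥ List.Vector.ofFn a) = 0) ∧
        (a ∉ S → ∀ k, g (k ::ᵥ List.Vector.ofFn a) ≠ 0) := by
  obtain ⟨c, hc⟩ := exists_code S hS
  let T : ℕ → List.Vector ℕ n → Bool := fun k v => (Code.evaln k c (enc v.get)).isSome
  have hT : Primrec₂ T := by
    have h0 : Primrec fun p : ℕ × List.Vector ℕ n => enc p.2.get :=
      Primrec.encode.comp (Primrec.vector_get'.comp Primrec.snd)
    have h1 : Primrec fun p : ℕ × List.Vector ℕ n => Code.evaln p.1 c (enc p.2.get) :=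
      Code.primrec_evaln.comp ((Primrec.fst.pair (Primrec.const c)).pair h0)
    exact Primrec.option_isSome.comp h1
  let g : List.Vector ℕ (n + 1) → ℕ := fun v =>
    bif T v.head v.tail && (bif decide (v.head = 0) then true else !(T (v.head - 1) v.tail)) then 0 else 1
  have hg : Primrec g := by
    have hh : Primrec fun v : List.Vector ℕ (n+1) => v.head := Primrec.vector_head
    have ht : Primrec fun v : List.Vector ℕ (n+1) => v.tail := Primrec.vector_tail
    have h1 : Primrec fun v : List.Vector ℕ (n+1) => T v.head v.tail := hT.comp hh ht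
    have h2 : Primrec fun v : List.Vector ℕ (n+1) => T (v.head - 1) v.tail :=
      hT.comp (Primrec.nat_sub.comp hh (Primrec.const 1)) ht
    have h0 : Primrec fun v : List.Vector ℕ (n+1) => decide (v.head = 0) :=
      Primrec.eq.decide.comp hh (Primrec.const 0)
    exact Primrec.cond (Primrec.and.comp h1 (Primrec.cond h0 (Primrec.const true)
      (Primrec.not.comp h2))) (Primrec.const 0) (Primrec.const 1)
  have hmono : ∀ v k₁ k₂, k₁ ≤ k₂ → T k₁ v = true → T k₂ v = true := by
    intro v k₁ k₂ hk h
    obtain ⟨y, hy⟩ := Option.isSome_iff_exists.1 h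
    have : y ∈ Code.evaln k₂ c (enc v.get) := Code.evaln_mono hk (by simpa [Option.mem_def] using hy)
    rw [Option.mem_def] at this
    simp [T, this]
  have hgz : ∀ v k, g (k ::ᵥ v) = 0 ↔ (T k v = true ∧ (k = 0 ∨ T (k - 1) v = false)) := by
    intro v k
    simp only [g, List.Vector.head_cons, List.Vector.tail_cons]
    by_cases h : T k v = true
    · by_cases hk : k = 0
      · subst hk; simp [h]
      · cases hq : T (k - 1) v <;> simp [h, hk]
    · simp [h]
  refine ⟨g, Nat.Primrec'.of_prim hg, fun a => ⟨fun ha => ?_, fun ha k hk => ?_⟩⟩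
  · have hex : ∃ k, T k (List.Vector.ofFn a) = true := by
      obtain ⟨k, hk⟩ := (hc a).1 ha
      refine ⟨k, ?_⟩
      have : (List.Vector.ofFn a).get = a := by
        funext i; simp
      simpa [T, this] using hk
    classical
    refine ⟨Nat.find hex, ?_, ?_⟩
    · show g (Nat.find hex ::ᵥ List.Vector.ofFn a) = 0
      rw [hgz]
      refine ⟨Nat.find_spec hex, ?_⟩
      by_cases h0 : Nat.find hex = 0
      · exact Or.inl h0
      · right
        have := Nat.find_min hex (m := Nat.find hex - 1) (by omega)
        simpa using this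
    · intro k hk
      change g (k ::ᵥ List.Vector.ofFn a) = 0 at hk
      rw [hgz] at hk
      obtain ⟨h1, h2⟩ := hk
      have hle : Nat.find hex ≤ k := Nat.find_min' hex h1
      rcases Nat.lt_or_ge (Nat.find hex) k with hlt | hge
      · rcases h2 with h2 | h2
        · omega
        · have := hmono _ _ (k - 1) (by omega) (Nat.find_spec hex)
          rw [h2] at this
          simp at this
      · omega
  · rw [hgz] at hk
    apply ha
    rw [hc a]
    refine ⟨k, ?_⟩
    have : (List.Vector.ofFn a).get = a := by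
      funext i; simp
    simpa [T, this] using hk.1

end Crest.Agent.R323.Halt
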