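import Crest.Agent.R323.Prec
import Crest.Agent.R323.Halt

/-!
# Final assembly of S0500 from the primitive recursive closure
-/

set_option autoImplicit false

namespace Crest.Agent.R323

/-- recursively enumerable sets are single-fold Diophantine -/
theorem sfp_of_rePred (hp : PowH) (hB : BallH) {n : ℕ} (S : Set (Fin n → ℕ)) (hS : REPred fun a => a ∈ S) :
    SFP (fun a : Fin n → ℕ => a ∈ S) := by
  obtain ⟨g, hg, h⟩ := Halt.exists_prim_unique S hS
  have hV := sfv_of_primrec' hp hB hg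
  let fs : Fin (n + 1) → ((Option (Fin n) → ℕ) → ℕ) :=
    Fin.cons (fun u => u none) (fun i u => u (some i))
  have hfs : ∀ i, SFF (fs i) := by
    intro i
    refine Fin.cases ?_ (fun i => ?_) i
    · exact SFF.proj _
    · exact SFF.proj _
  have h1 : SFP (fun u : Option (Fin n) → ℕ =>
      g (u none ::ᵥ List.Vector.ofFn (fun i => u (some i))) = 0) :=
    SFP.eq (SFV.comp hV hfs) (SFF.const 0)
  refine (SFP.ex (q := fun v y => g (y ::ᵥ List.Vector.ofFn v) = 0) h1 ?_).congr ?_
  · intro v y y' hy hy'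
    by_cases hv : v ∈ S
    · exact ((h v).1 hv).unique hy hy'
    · exact absurd hy ((h v).2 hv y)
  · intro v
    constructor
    · intro hv
      obtain ⟨k, hk, -⟩ := (h v).1 hv
      exact ⟨k, hk⟩
    · rintro ⟨k, hk⟩
      by_contra hv
      exact (h v).2 hv k hk

theorem final (hp : PowH) (hB : BallH) (n : ℕ) (S : Set (Fin n → ℕ)) (hS : REPred fun a => a ∈ S) :
    ∃ m : ℕ, 1 ≤ m ∧ ∃ P : MvPolynomial (Fin n ⊕ Fin m) ℤ, ∀ a : Fin n → ℕ,
      (a ∈ S → ∃! w : Fin m → ℕ,
        MvPolynomial.eval (Sum.elim (fun i => (a i : ℤ)) (fun j => (w j : ℤ))) P = 0) ∧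
      (a ∉ S → ∀ w : Fin m → ℕ,
        MvPolynomial.eval (Sum.elim (fun i => (a i : ℤ)) (fun j => (w j : ℤ))) P ≠ 0) := by
  have h0 : SFP (fun a : Fin n → ℕ => a ∈ S) := sfp_of_rePred hp hB S hS
  -- add one dummy witness equal to `0`
  obtain ⟨m, f, hf, h1, h2⟩ := h0.elim
  obtain ⟨F, hF⟩ := hf
  have hev : ∀ (k : ℕ) (P : MvPolynomial (Fin n ⊕ Fin k) ℤ) (a : Fin n → ℕ) (w : Fin k → ℕ),
      MvPolynomial.eval (Sum.elim (fun i => (a i : ℤ)) (fun j => (w j : ℤ))) P =
        ev P (Sum.elim a w) := by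
    intro k P a w
    simp only [ev]
    congr 2
    ext i
    rcases i with i | i <;> rfl
  let G : MvPolynomial (Fin n ⊕ Fin (m + 1)) ℤ :=
    (MvPolynomial.rename (Sum.map id Fin.castSucc) F) ^ 2 +
      (MvPolynomial.X (Sum.inr (Fin.last m))) ^ 2
  have hG : ∀ (a : Fin n → ℕ) (w : Fin (m + 1) → ℕ), ev G (Sum.elim a w) = 0 ↔
      f (Sum.elim a (fun i => w i.castSucc)) = 0 ∧ w (Fin.last m) = 0 := by
    intro a w
    have e : ev G (Sum.elim a w) =
        f (Sum.elim a (fun i => w i.castSucc)) ^ 2 + (w (Fin.last m) : ℤ) ^ 2 := by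
      rw [hF]
      simp only [ev, G, map_add, map_pow, MvPolynomial.eval_rename, MvPolynomial.eval_X,
        Sum.elim_inr]
      congr 4
      ext i
      rcases i with i | i <;> rfl
    rw [e]
    constructor
    · intro h
      have a1 : f (Sum.elim a (fun i => w i.castSucc)) = 0 := by
        nlinarith [sq_nonneg (f (Sum.elim a (fun i => w i.castSucc))),
          sq_nonneg (w (Fin.last m) : ℤ)]
      have a2 : (w (Fin.last m) : ℤ) = 0 := by
        nlinarith [sq_nonneg (f (Sum.elim a (fun i => w i.castSucc))),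
          sq_nonneg (w (Fin.last m) : ℤ)]
      exact ⟨a1, by exact_mod_cast a2⟩
    · rintro ⟨a1, a2⟩
      simp [a1, a2]
  refine ⟨m + 1, by omega, G, fun a => ⟨fun ha => ?_, fun ha w hw => ?_⟩⟩
  · obtain ⟨w, hw⟩ := (h1 a).1 ha
    refine ⟨Fin.snoc (α := fun _ => ℕ) w 0, ?_, ?_⟩
    · change MvPolynomial.eval _ G = 0
      rw [hev, hG]
      refine ⟨?_, by simp⟩
      simpa using hw
    · intro w' hw'
      change MvPolynomial.eval _ G = 0 at hw'
      rw [hev, hG] at hw'
      have e := h2 a _ _ hw'.1 hw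
      ext i
      refine Fin.lastCases ?_ (fun i => ?_) i
      · simp [hw'.2]
      · have := congrFun e i
        simpa using this
  · rw [hev, hG] at hw
    exact ha ((h1 a).2 ⟨_, hw.1⟩)

end Crest.Agent.R323
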