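import Mathlib

/-!
# Base-`q` digit sums (pure arithmetic for the bounded quantifier)
-/

set_option autoImplicit false

namespace Crest.Agent.R323

open Finset

/-- base-`q` digit sum `∑_{i<n} f i * q^i` -/
def dsum (q n : ℕ) (f : ℕ → ℕ) : ℕ := ∑ i ∈ range n, f i * q ^ i

/-- geometric sum `∑_{i<n} q^i` -/
def geo (q n : ℕ) : ℕ := ∑ i ∈ range n, q ^ i

@[simp] lemma dsum_zero (q : ℕ) (f : ℕ → ℕ) : dsum q 0 f = 0 := by simp [dsum]

@[simp] lemma geo_zero (q : ℕ) : geo q 0 = 0 := by simp [geo]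

lemma dsum_succ (q n : ℕ) (f : ℕ → ℕ) : dsum q (n + 1) f = dsum q n f + f n * q ^ n := by
  simp [dsum, sum_range_succ]

lemma geo_succ (q n : ℕ) : geo q (n + 1) = geo q n + q ^ n := by
  simp [geo, sum_range_succ]

lemma dsum_succ' (q n : ℕ) (f : ℕ → ℕ) :
    dsum q (n + 1) f = f 0 + q * dsum q n (fun i => f (i + 1)) := by
  simp only [dsum, sum_range_succ', mul_sum, pow_succ]
  rw [add_comm]
  congr 1
  · simp
  · apply sum_congr rfl; intro i _; ring

lemma geo_succ' (q n : ℕ) : geo q (n + 1) = 1 + q * geo q n := by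
  simp only [geo, sum_range_succ', mul_sum, pow_succ]
  rw [add_comm]
  congr 1
  apply sum_congr rfl; intro i _; ring

lemma dsum_const (q n c : ℕ) : dsum q n (fun _ => c) = c * geo q n := by
  simp [dsum, geo, mul_sum]

lemma dsum_congr {q n : ℕ} {f g : ℕ → ℕ} (h : ∀ i < n, f i = g i) : dsum q n f = dsum q n g := by
  unfold dsum
  exact sum_congr rfl fun i hi => by rw [h i (mem_range.1 hi)]

lemma dsum_add (q n : ℕ) (f g : ℕ → ℕ) :
    dsum q n (fun i => f i + g i) = dsum q n f + dsum q n g := by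
  simp [dsum, add_mul, sum_add_distrib]

lemma dsum_smul (q n c : ℕ) (f : ℕ → ℕ) :
    dsum q n (fun i => c * f i) = c * dsum q n f := by
  simp [dsum, mul_sum, mul_assoc]

lemma dsum_sum {ι : Type*} (s : Finset ι) (q n : ℕ) (f : ι → ℕ → ℕ) :
    dsum q n (fun i => ∑ j ∈ s, f j i) = ∑ j ∈ s, dsum q n (f j) := by
  unfold dsum
  rw [sum_comm]
  simp [sum_mul]

/-- `(q-1) * geo q n + 1 = q^n`. -/
lemma geo_mul (q n : ℕ) (hq : 1 ≤ q) : (q - 1) * geo q n + 1 = q ^ n := by
  obtain ⟨r, rfl⟩ : ∃ r, q = r + 1 := ⟨q - 1, by omega⟩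
  simp only [Nat.add_sub_cancel]
  induction n with
  | zero => simp
  | succ n ih => rw [geo_succ, mul_add, pow_succ]; nlinarith [ih]

lemma geo_unique {q n G : ℕ} (hq : 2 ≤ q) (h : (q - 1) * G + 1 = q ^ n) : G = geo q n := by
  have h2 := geo_mul q n (by omega)
  have : (q - 1) * G = (q - 1) * geo q n := by omega
  exact Nat.eq_of_mul_eq_mul_left (by omega) this

lemma dsum_lt {q n : ℕ} {f : ℕ → ℕ} (h : ∀ i < n, f i < q) : dsum q n f < q ^ n := by
  induction n with
  | zero => simp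
  | succ n ih =>
    rw [dsum_succ, pow_succ]
    have h1 := ih fun i hi => h i (by omega)
    have h2 := h n (by omega)
    calc dsum q n f + f n * q ^ n < q ^ n + f n * q ^ n := by omega
      _ = (f n + 1) * q ^ n := by ring
      _ ≤ q * q ^ n := Nat.mul_le_mul_right _ h2
      _ = q ^ n * q := by ring

lemma dsum_mod_div {q n : ℕ} {f : ℕ → ℕ} (hq : 0 < q) (h : ∀ i < n + 1, f i < q) :
    dsum q (n + 1) f % q = f 0 ∧ dsum q (n + 1) f / q = dsum q n (fun i => f (i + 1)) := by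
  rw [dsum_succ']
  have h0 := h 0 (by omega)
  constructor
  · rw [Nat.add_mul_mod_self_left, Nat.mod_eq_of_lt h0]
  · rw [Nat.add_mul_div_left _ _ hq, Nat.div_eq_of_lt h0, zero_add]

lemma dsum_inj {q n : ℕ} {f g : ℕ → ℕ} (hf : ∀ i < n, f i < q) (hg : ∀ i < n, g i < q)
    (h : dsum q n f = dsum q n g) : ∀ i < n, f i = g i := by
  induction n generalizing f g with
  | zero => intro i hi; omega
  | succ n ih =>
    have hq : 0 < q := by have := hf 0 (by omega); omega
    obtain ⟨a1, a2⟩ := dsum_mod_div hq hf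
    obtain ⟨b1, b2⟩ := dsum_mod_div hq hg
    intro i hi
    rcases i with _ | i
    · rw [← a1, ← b1, h]
    · exact ih (f := fun i => f (i + 1)) (g := fun i => g (i + 1))
        (fun i hi => hf _ (by omega)) (fun i hi => hg _ (by omega)) (by rw [← a2, ← b2, h]) i
        (by omega)

lemma exists_dsum {q n s : ℕ} (hq : 0 < q) (h : s < q ^ n) :
    ∃ f : ℕ → ℕ, (∀ i, f i < q) ∧ s = dsum q n f := by
  induction n generalizing s with
  | zero => exact ⟨fun _ => 0, fun _ => hq, by simp at h; simp [h]⟩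
  | succ n ih =>
    obtain ⟨f, hf, hs⟩ := ih (s := s / q) (by
      rw [Nat.div_lt_iff_lt_mul hq]; rwa [pow_succ] at h)
    refine ⟨fun i => Nat.rec (s % q) (fun j _ => f j) i, ?_, ?_⟩
    · intro i
      rcases i with _ | i
      · exact Nat.mod_lt _ hq
      · exact hf i
    · rw [dsum_succ']
      simp only
      rw [← hs]
      exact (Nat.mod_add_div s q).symm

/-- digit function as function of the number -/
lemma dsum_digit {q n : ℕ} {f : ℕ → ℕ} (hf : ∀ i < n, f i < q) {j : ℕ} (hj : j < n) :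
    dsum q n f / q ^ j % q = f j := by
  induction n generalizing f j with
  | zero => omega
  | succ n ih =>
    have hq : 0 < q := by have := hf 0 (by omega); omega
    obtain ⟨a1, a2⟩ := dsum_mod_div hq hf
    rcases j with _ | j
    · simpa using a1
    · rw [pow_succ', ← Nat.div_div_eq_div_mul, a2]
      exact ih (f := fun i => f (i + 1)) (fun i hi => hf _ (by omega)) (by omega)

lemma dsum_digits {q n s : ℕ} (hq : 0 < q) (h : s < q ^ n) :
    dsum q n (fun i => s / q ^ i % q) = s := by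
  obtain ⟨f, hf, hs⟩ := exists_dsum hq h
  conv_rhs => rw [hs]
  apply dsum_congr
  intro i hi
  rw [hs]
  exact dsum_digit (fun i _ => hf i) hi

/-! ### bitwise and -/

lemma land_split {k a b c d : ℕ} (ha : a < 2 ^ k) (hc : c < 2 ^ k) :
    (a + 2 ^ k * b) &&& (c + 2 ^ k * d) = (a &&& c) + 2 ^ k * (b &&& d) := by
  have hac : a &&& c < 2 ^ k := Nat.and_lt_two_pow _ hc
  rw [add_comm a, add_comm c, add_comm (a &&& c)]
  apply Nat.eq_of_testBit_eq
  intro i
  rw [Nat.testBit_and]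
  rcases lt_or_ge i k with hi | hi
  · rw [Nat.testBit_two_pow_mul_add _ ha, Nat.testBit_two_pow_mul_add _ hc,
      Nat.testBit_two_pow_mul_add _ hac]
    simp [hi]
  · rw [Nat.testBit_two_pow_mul_add _ ha, Nat.testBit_two_pow_mul_add _ hc,
      Nat.testBit_two_pow_mul_add _ hac]
    simp [not_lt.2 hi]

lemma dsum_land {k n : ℕ} {f g : ℕ → ℕ} (hf : ∀ i < n, f i < 2 ^ k) (hg : ∀ i < n, g i < 2 ^ k) :
    dsum (2 ^ k) n f &&& dsum (2 ^ k) n g = dsum (2 ^ k) n (fun i => f i &&& g i) := by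
  induction n generalizing f g with
  | zero => simp
  | succ n ih =>
    rw [dsum_succ', dsum_succ', dsum_succ', land_split (hf 0 (by omega)) (hg 0 (by omega)),
      ih (fun i hi => hf _ (by omega)) (fun i hi => hg _ (by omega))]

lemma land_two_pow_sub_one (x k : ℕ) : x &&& (2 ^ k - 1) = x % 2 ^ k :=
  Nat.and_two_pow_sub_one_eq_mod x k

/-- mask lemma: a number whose AND with the mask `(2^K-1)*geo` is itself is a digit sum with digits
`< 2^K`. -/
lemma mask_iff {k K n S : ℕ} (hK : K ≤ k) :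
    S &&& ((2 ^ K - 1) * geo (2 ^ k) n) = S ↔
      ∃ f : ℕ → ℕ, (∀ i, f i < 2 ^ K) ∧ S = dsum (2 ^ k) n f := by
  have hKk : 2 ^ K ≤ 2 ^ k := Nat.pow_le_pow_right (by norm_num) hK
  have hpos : 0 < 2 ^ K := by positivity
  have hposk : 0 < 2 ^ k := by positivity
  have hmask : (2 ^ K - 1) * geo (2 ^ k) n = dsum (2 ^ k) n (fun _ => 2 ^ K - 1) :=
    (dsum_const _ _ _).symm
  constructor
  · intro h
    have hlt : S < (2 ^ k) ^ n := by
      have h1 : S ≤ (2 ^ K - 1) * geo (2 ^ k) n := by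
        conv_lhs => rw [← h]
        exact Nat.and_le_right
      have h2 : dsum (2 ^ k) n (fun _ => 2 ^ K - 1) < (2 ^ k) ^ n :=
        dsum_lt fun i _ => by omega
      omega
    obtain ⟨f, hf, hs⟩ := exists_dsum hposk hlt
    have key : dsum (2 ^ k) n (fun i => f i &&& (2 ^ K - 1)) = dsum (2 ^ k) n f := by
      rw [← dsum_land (fun i _ => hf i) (fun i _ => by omega), ← hmask, ← hs]
      exact h
    have hdig : ∀ i < n, (f i &&& (2 ^ K - 1)) = f i :=
      dsum_inj (fun i _ => by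
        have := hf i
        exact lt_of_le_of_lt Nat.and_le_left this) (fun i _ => hf i) key
    refine ⟨fun i => if i < n then f i else 0, ?_, ?_⟩
    · intro i
      simp only
      split_ifs with hi
      · have := hdig i hi
        rw [land_two_pow_sub_one] at this
        rw [← this]
        exact Nat.mod_lt _ hpos
      · exact hpos
    · rw [hs]
      apply dsum_congr
      intro i hi
      simp [hi]
  · rintro ⟨f, hf, rfl⟩
    rw [hmask, dsum_land (fun i _ => lt_of_lt_of_le (hf i) hKk) (fun i _ => by omega)]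
    apply dsum_congr
    intro i _
    rw [land_two_pow_sub_one]
    exact Nat.mod_eq_of_lt (hf i)

/-! ### sum of digits modulo `q-1` -/

lemma dsum_modEq_of_modEq {q r n : ℕ} {M : ℕ} {f : ℕ → ℕ} (h : q ≡ r [MOD M]) :
    dsum q n f ≡ dsum r n f [MOD M] := by
  unfold dsum
  induction n with
  | zero => simp; rfl
  | succ n ih =>
    rw [sum_range_succ, sum_range_succ]
    exact Nat.ModEq.add ih (Nat.ModEq.mul_left _ (h.pow n))

lemma dsum_one (n : ℕ) (f : ℕ → ℕ) : dsum 1 n f = ∑ i ∈ range n, f i := by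
  simp [dsum]

/-- (D6) -/
lemma dsum_mod_sub_one {q n : ℕ} {f : ℕ → ℕ} (hq : 1 ≤ q) (h : ∑ i ∈ range n, f i < q - 1) :
    dsum q n f % (q - 1) = ∑ i ∈ range n, f i := by
  have h1 : q ≡ 1 [MOD (q - 1)] := by
    have : (q - 1) ∣ (q - 1) := dvd_rfl
    exact ((Nat.modEq_iff_dvd' hq).2 this).symm
  have h2 := dsum_modEq_of_modEq (n := n) (f := f) h1
  rw [dsum_one] at h2
  rw [← Nat.mod_eq_of_lt h]
  exact h2

/-! ### spreading -/

/-- the mask for spread sequences -/
lemma pow_mod_spread {q s : ℕ} (hs : 1 ≤ s) (hq : 1 ≤ q) : q ^ s ≡ q [MOD (q ^ s - q)] := by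
  have h1 : q ≤ q ^ s := by
    calc q = q ^ 1 := (pow_one q).symm
      _ ≤ q ^ s := Nat.pow_le_pow_right hq hs
  exact ((Nat.modEq_iff_dvd' h1).2 dvd_rfl).symm

lemma spread_mod {q s n : ℕ} {f : ℕ → ℕ} (hq : 2 ≤ q) (hs : n + 1 ≤ s)
    (hf : ∀ i < n, f i < q) : dsum (q ^ s) n f % (q ^ s - q) = dsum q n f := by
  have h2 := dsum_modEq_of_modEq (n := n) (f := f) (pow_mod_spread (q := q) (s := s)
    (by omega) (by omega))
  rcases Nat.eq_zero_or_pos n with hn | hn
  · subst hn; simp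
  have h3 : dsum q n f < q ^ n := dsum_lt hf
  have h4 : q ^ n ≤ q ^ s - q := by
    have h5 : q ^ (n + 1) ≤ q ^ s := Nat.pow_le_pow_right (by omega) hs
    have h6 : q ≤ q ^ n := by
      calc q = q ^ 1 := (pow_one q).symm
        _ ≤ q ^ n := Nat.pow_le_pow_right (by omega) hn
    have h7 : 2 * q ^ n ≤ q ^ (n + 1) := by rw [pow_succ']; exact Nat.mul_le_mul_right _ hq
    omega
  have h5 : dsum q n f % (q ^ s - q) = dsum q n f := Nat.mod_eq_of_lt (lt_of_lt_of_le h3 h4)
  rw [← h5]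
  exact h2

/-- (D4) spread: characterisation of `dsum (q^s) n f` from `dsum q n f`. -/
lemma spread_iff {k s n Y : ℕ} {f : ℕ → ℕ} (hk : 1 ≤ k) (hs : n + 1 ≤ s)
    (hf : ∀ i < n, f i < 2 ^ k) :
    (Y &&& ((2 ^ k - 1) * geo ((2 ^ k) ^ s) n) = Y ∧ Y % ((2 ^ k) ^ s - 2 ^ k) = dsum (2 ^ k) n f)
      ↔ Y = dsum ((2 ^ k) ^ s) n f := by
  have h2k : 2 ≤ 2 ^ k := by
    calc 2 = 2 ^ 1 := rfl
      _ ≤ 2 ^ k := Nat.pow_le_pow_right (by norm_num) hk
  have hks : k ≤ k * s := Nat.le_mul_of_pos_right _ (by omega)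
  constructor
  · rintro ⟨h1, h2⟩
    rw [← pow_mul, mask_iff hks] at h1
    obtain ⟨g, hg, rfl⟩ := h1
    rw [← pow_mul] at h2 ⊢
    rw [pow_mul, spread_mod h2k hs (fun i _ => hg i)] at h2
    have := dsum_inj (fun i _ => hg i) hf h2
    exact dsum_congr this
  · rintro rfl
    refine ⟨?_, spread_mod h2k hs hf⟩
    rw [← pow_mul, mask_iff hks]
    refine ⟨fun i => if i < n then f i else 0, ?_, ?_⟩
    · intro i
      simp only
      split_ifs with hi
      · exact hf i hi
      · positivity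
    · apply dsum_congr
      intro i hi
      simp [hi]

/-! ### Hadamard product -/

/-- the product of a digit sum and a spread digit sum is a (long) digit sum -/
lemma dsum_mul_dsum (q n m s : ℕ) (f g : ℕ → ℕ) :
    dsum q n f * dsum (q ^ s) m g = ∑ j ∈ range m, ∑ i ∈ range n, f i * g j * q ^ (i + s * j) := by
  unfold dsum
  rw [sum_mul_sum, sum_comm]
  apply sum_congr rfl; intro j _
  apply sum_congr rfl; intro i _
  rw [pow_add, pow_mul]; ring

lemma dsum_mul_pow (q n s : ℕ) (c : ℕ → ℕ) :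
    dsum (q ^ s) n (fun j => c j * q ^ j) = dsum (q ^ (s + 1)) n c := by
  unfold dsum
  apply sum_congr rfl; intro j _
  rw [← pow_mul, ← pow_mul, mul_assoc, ← pow_add]
  congr 2
  ring

lemma single_digit_mask {k n j : ℕ} {F : ℕ → ℕ} (hF : ∀ i < n, F i < 2 ^ k) (hj : j < n) :
    dsum (2 ^ k) n F &&& ((2 ^ k - 1) * (2 ^ k) ^ j) = F j * (2 ^ k) ^ j := by
  have h1 : ∀ c : ℕ, c * (2 ^ k) ^ j = dsum (2 ^ k) n (fun i => if i = j then c else 0) := by
    intro c
    unfold dsum
    rw [Finset.sum_eq_single j]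
    · simp
    · intro b _ hb; simp [hb]
    · intro h; exact absurd (mem_range.2 hj) h
  have hpos : 0 < 2 ^ k := by positivity
  rw [h1, h1, dsum_land hF]
  · apply dsum_congr
    intro i hi
    split_ifs with h
    · subst h
      rw [land_two_pow_sub_one]
      exact Nat.mod_eq_of_lt (hF i hi)
    · simp
  · intro i _
    split_ifs
    · omega
    · exact hpos

/-- the masked product of a digit sum and a spread digit sum -/
lemma hadamard_mask {k s n : ℕ} {f g : ℕ → ℕ} (hs : n ≤ s)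
    (hfg : ∀ i < n, ∀ j < n, f i * g j < 2 ^ k) :
    (dsum (2 ^ k) n f * dsum ((2 ^ k) ^ s) n g) &&& ((2 ^ k - 1) * geo ((2 ^ k) ^ (s + 1)) n)
      = dsum ((2 ^ k) ^ (s + 1)) n (fun i => f i * g i) := by
  have hpos : 0 < 2 ^ k := by positivity
  have h1 : dsum (2 ^ k) n f * dsum ((2 ^ k) ^ s) n g =
      dsum (2 ^ (k * s)) n (fun j => dsum (2 ^ k) n (fun i => f i * g j)) := by
    rw [pow_mul]
    have : (fun j => dsum (2 ^ k) n (fun i => f i * g j)) = fun j => dsum (2 ^ k) n f * g j := by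
      funext j
      rw [mul_comm, ← dsum_smul]
      apply dsum_congr
      intro i _
      ring
    rw [this, dsum_smul]
  have h2 : (2 ^ k - 1) * geo ((2 ^ k) ^ (s + 1)) n =
      dsum (2 ^ (k * s)) n (fun j => (2 ^ k - 1) * (2 ^ k) ^ j) := by
    rw [pow_mul, dsum_mul_pow, dsum_const]
  have hns : (2 ^ k) ^ n ≤ 2 ^ (k * s) := by
    rw [← pow_mul]
    exact Nat.pow_le_pow_right (by norm_num) (Nat.mul_le_mul_left _ hs)
  rw [h1, h2, dsum_land]
  · rw [← dsum_mul_pow, ← pow_mul]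
    apply dsum_congr
    intro j hj
    exact single_digit_mask (fun i hi => hfg i hi j hj) hj
  · intro j hj
    exact lt_of_lt_of_le (dsum_lt fun i hi => hfg i hi j hj) hns
  · intro j hj
    refine lt_of_lt_of_le ?_ hns
    calc (2 ^ k - 1) * (2 ^ k) ^ j < 2 ^ k * (2 ^ k) ^ j :=
          Nat.mul_lt_mul_of_pos_right (by omega) (by positivity)
      _ = (2 ^ k) ^ (j + 1) := by rw [pow_succ']
      _ ≤ (2 ^ k) ^ n := Nat.pow_le_pow_right hpos (by omega)

/-- (D5) Hadamard product -/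
lemma hadamard {k s n : ℕ} {f g : ℕ → ℕ} (hk : 1 ≤ k) (hs : n ≤ s)
    (hfg : ∀ i < n, ∀ j < n, f i * g j < 2 ^ k) :
    ((dsum (2 ^ k) n f * dsum ((2 ^ k) ^ s) n g) &&&
        ((2 ^ k - 1) * geo ((2 ^ k) ^ (s + 1)) n)) % ((2 ^ k) ^ (s + 1) - 2 ^ k)
      = dsum (2 ^ k) n (fun i => f i * g i) := by
  rw [hadamard_mask hs hfg]
  apply spread_mod
  · calc 2 = 2 ^ 1 := rfl
      _ ≤ 2 ^ k := Nat.pow_le_pow_right (by norm_num) hk
  · omega
  · intro i hi; exact hfg i hi i hi

/-! ### the index sequence -/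

/-- (D7) -/
lemma idx_spec {q n : ℕ} (hq : 1 ≤ q) :
    dsum q n (fun i => i) * (q - 1) + geo q n + q ^ n = n * q ^ n + 1 := by
  obtain ⟨r, rfl⟩ : ∃ r, q = r + 1 := ⟨q - 1, by omega⟩
  simp only [Nat.add_sub_cancel]
  induction n with
  | zero => simp
  | succ n ih =>
    rw [dsum_succ, geo_succ, pow_succ]
    nlinarith [ih]

lemma idx_unique {q n S : ℕ} (hq : 2 ≤ q)
    (h : S * (q - 1) + geo q n + q ^ n = n * q ^ n + 1) : S = dsum q n (fun i => i) := by
  have h1 := idx_spec (q := q) (n := n) (by omega)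
  have h2 : S * (q - 1) = dsum q n (fun i => i) * (q - 1) := by omega
  exact Nat.eq_of_mul_eq_mul_right (by omega) h2

end Crest.Agent.R323
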