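import Mathlib
import Crest.Agent.R323.Digits

/-!
# Natural polynomials evaluated on digit sequences; the pure arithmetic of the bounded quantifier
-/

set_option autoImplicit false

namespace Crest.Agent.R323

open Finset

/-- spreading the base `2^(k+1)` digits of `X` (only the first `n`) to base `(2^(k+1))^(n+1)` -/
def spread (k n X : ℕ) : ℕ :=
  dsum ((2 ^ (k + 1)) ^ (n + 1)) n (fun i => X / (2 ^ (k + 1)) ^ i % 2 ^ (k + 1))

lemma spread_dsum {k n : ℕ} {f : ℕ → ℕ} (hf : ∀ i < n, f i < 2 ^ (k + 1)) :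
    spread k n (dsum (2 ^ (k + 1)) n f) = dsum ((2 ^ (k + 1)) ^ (n + 1)) n f :=
  dsum_congr fun _ hi => dsum_digit hf hi

lemma dsum_trunc (q n X : ℕ) (hq : 0 < q) :
    dsum q n (fun i => X / q ^ i % q) = X % q ^ n := by
  rw [← dsum_digits hq (Nat.mod_lt X (by positivity : 0 < q ^ n))]
  apply dsum_congr
  intro i hi
  have h1 : q ^ n = q ^ i * q ^ (n - i) := by rw [← pow_add]; congr 1; omega
  have h2 : X % q ^ n / q ^ i = X / q ^ i % q ^ (n - i) := by
    rw [h1, Nat.mod_mul_right_div_self]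
  rw [h2]
  have h3 : q ∣ q ^ (n - i) := dvd_pow_self q (by omega)
  rw [Nat.mod_mod_of_dvd _ h3]

/-- graph of `spread`: total, all inputs. -/
lemma spread_graph (k n X Y : ℕ) :
    Y = spread k n X ↔
      (Y &&& ((2 ^ (k + 1) - 1) * geo ((2 ^ (k + 1)) ^ (n + 1)) n) = Y ∧
        Y % ((2 ^ (k + 1)) ^ (n + 1) - 2 ^ (k + 1)) = X % (2 ^ (k + 1)) ^ n) := by
  have hpos : 0 < 2 ^ (k + 1) := by positivity
  have h := spread_iff (k := k + 1) (s := n + 1) (n := n) (Y := Y)
    (f := fun i => X / (2 ^ (k + 1)) ^ i % 2 ^ (k + 1)) (by omega) le_rfl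
    (fun i _ => Nat.mod_lt _ hpos)
  rw [dsum_trunc _ _ _ hpos] at h
  exact h.symm

/-- Hadamard product of encoded sequences -/
def had (k n X Y : ℕ) : ℕ :=
  ((X * spread k n Y) &&& ((2 ^ (k + 1) - 1) * geo ((2 ^ (k + 1)) ^ (n + 2)) n)) %
    ((2 ^ (k + 1)) ^ (n + 2) - 2 ^ (k + 1))

lemma had_eq {k n : ℕ} {f g : ℕ → ℕ} (hg : ∀ i < n, g i < 2 ^ (k + 1))
    (hfg : ∀ i < n, ∀ j < n, f i * g j < 2 ^ (k + 1)) :
    had k n (dsum (2 ^ (k + 1)) n f) (dsum (2 ^ (k + 1)) n g) =
      dsum (2 ^ (k + 1)) n (fun i => f i * g i) := by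
  unfold had
  rw [spread_dsum hg]
  exact hadamard (k := k + 1) (s := n + 1) (by omega) (by omega) hfg

/-- syntax of natural polynomials -/
inductive NP (V : Type) : Type
  | const : ℕ → NP V
  | var : V → NP V
  | add : NP V → NP V → NP V
  | mul : NP V → NP V → NP V

namespace NP

variable {V : Type}

/-- evaluation -/
def eval : NP V → (V → ℕ) → ℕ
  | const c, _ => c
  | var x, e => e x
  | add p r, e => p.eval e + r.eval e
  | mul p r, e => p.eval e * r.eval e

/-- a bound, strictly larger than the values of all subterms -/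
def bnd : NP V → (V → ℕ) → ℕ
  | const c, _ => c + 1
  | var x, M => M x + 1
  | add p r, M => p.bnd M + r.bnd M
  | mul p r, M => p.bnd M * r.bnd M

/-- evaluation on encoded sequences (base `2^(k+1)`, length `n`) -/
def enc (k n : ℕ) : NP V → (V → ℕ) → ℕ
  | const c, _ => c * geo (2 ^ (k + 1)) n
  | var x, E => E x
  | add p r, E => enc k n p E + enc k n r E
  | mul p r, E => had k n (enc k n p E) (enc k n r E)

lemma eval_lt_bnd (p : NP V) {e M : V → ℕ} (h : ∀ x, e x ≤ M x) : p.eval e < p.bnd M := by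
  induction p with
  | const c => simp [eval, bnd]
  | var x => simp only [eval, bnd]; have := h x; omega
  | add p r hp hr => simp only [eval, bnd]; omega
  | mul p r hp hr =>
    simp only [eval, bnd]
    exact Nat.mul_lt_mul'' hp hr

lemma bnd_pos (p : NP V) (M : V → ℕ) : 0 < p.bnd M :=
  lt_of_le_of_lt (Nat.zero_le _) (p.eval_lt_bnd (e := M) (fun _ => le_rfl))

lemma enc_eq {k n : ℕ} (p : NP V) {e : V → ℕ → ℕ} {M : V → ℕ} {E : V → ℕ}
    (hE : ∀ x, E x = dsum (2 ^ (k + 1)) n (e x)) (h : ∀ x, ∀ i < n, e x i ≤ M x)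
    (hb : p.bnd M ≤ 2 ^ (k + 1)) :
    enc k n p E = dsum (2 ^ (k + 1)) n (fun i => p.eval (fun x => e x i)) := by
  induction p with
  | const c => simp [enc, eval, dsum_const]
  | var x => simp [enc, eval, hE]
  | add p r hp hr =>
    simp only [enc, eval, bnd] at *
    rw [hp (by omega), hr (by omega), dsum_add]
  | mul p r hp hr =>
    simp only [enc, eval, bnd] at *
    have h1 := p.bnd_pos M
    have h2 := r.bnd_pos M
    have h3 : p.bnd M ≤ p.bnd M * r.bnd M := Nat.le_mul_of_pos_right _ h2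
    have h4 : r.bnd M ≤ p.bnd M * r.bnd M := Nat.le_mul_of_pos_left _ h1
    rw [hp (by omega), hr (by omega)]
    apply had_eq
    · intro i hi
      have := r.eval_lt_bnd (e := fun x => e x i) (M := M) (fun x => h x i hi)
      omega
    · intro i hi j hj
      have a1 := p.eval_lt_bnd (e := fun x => e x i) (M := M) (fun x => h x i hi)
      have a2 := r.eval_lt_bnd (e := fun x => e x j) (M := M) (fun x => h x j hj)
      exact lt_of_lt_of_le (Nat.mul_lt_mul'' a1 a2) hb

end NP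

/-- every integer polynomial is the difference of two natural polynomials on natural points -/
theorem exists_NP {V : Type} (P : MvPolynomial V ℤ) :
    ∃ a b : NP V, ∀ v : V → ℕ,
      MvPolynomial.eval (fun i => (v i : ℤ)) P = (a.eval v : ℤ) - (b.eval v : ℤ) := by
  induction P using MvPolynomial.induction_on with
  | C c =>
    refine ⟨.const c.toNat, .const (-c).toNat, fun v => ?_⟩
    simp only [NP.eval, MvPolynomial.eval_C]
    omega
  | add p q hp hq =>
    obtain ⟨a, b, h⟩ := hp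
    obtain ⟨c, d, h'⟩ := hq
    refine ⟨.add a c, .add b d, fun v => ?_⟩
    simp only [NP.eval, map_add, h, h']
    push_cast
    ring
  | mul_X p x hp =>
    obtain ⟨a, b, h⟩ := hp
    refine ⟨.mul a (.var x), .mul b (.var x), fun v => ?_⟩
    simp only [NP.eval, map_mul, h, MvPolynomial.eval_X]
    push_cast
    ring

section Ball

variable {V : Type} {m : ℕ}

/-- bit length of the base minus one -/
def bq (a b : NP (V ⊕ Fin m)) (n K : ℕ) (X : V → ℕ) : ℕ :=
  a.bnd (Sum.elim X (fun _ => K)) + b.bnd (Sum.elim X (fun _ => K)) + n * m * 2 ^ K + K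

/-- the coded condition -/
def Cond (a b : NP (V ⊕ Fin m)) (n : ℕ) (X : V → ℕ) (E : ℕ → V → ℕ) (K : ℕ) (W : Fin m → ℕ) :
    Prop :=
  (∀ j, W j &&& ((2 ^ K - 1) * geo (2 ^ (bq a b n K X + 1)) n) = W j) ∧
  K = ∑ j, W j % (2 ^ (bq a b n K X + 1) - 1) ∧
  a.enc (bq a b n K X) n (Sum.elim (E (bq a b n K X)) W) =
    b.enc (bq a b n K X) n (Sum.elim (E (bq a b n K X)) W)

lemma le_two_pow_succ (x : ℕ) : x ≤ 2 ^ (x + 1) := by
  have := Nat.lt_two_pow_self (n := x)
  have h2 : 2 ^ x ≤ 2 ^ (x + 1) := Nat.pow_le_pow_right (by norm_num) (by omega)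
  omega

/-- the main computation: a solution of `Cond` is the encoding of solutions for all `i < n` -/
lemma Cond.dest {a b : NP (V ⊕ Fin m)} {n : ℕ} {X : V → ℕ} {E : ℕ → V → ℕ} {K : ℕ}
    {W : Fin m → ℕ} {x : ℕ → V → ℕ}
    (hx : ∀ i < n, ∀ l, x i l ≤ X l)
    (hE : ∀ k l, E k l = dsum (2 ^ (k + 1)) n (fun i => x i l))
    (h : Cond a b n X E K W) :
    ∃ w : ℕ → Fin m → ℕ,
      (∀ i < n, a.eval (Sum.elim (x i) (w i)) = b.eval (Sum.elim (x i) (w i))) ∧
      K = ∑ j, ∑ i ∈ range n, w i j ∧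
      ∀ j, W j = dsum (2 ^ (bq a b n K X + 1)) n (fun i => w i j) := by
  obtain ⟨h1, h2, h3⟩ := h
  set k := bq a b n K X with hk
  have hKk : K ≤ k + 1 := by rw [hk]; unfold bq; omega
  have hw : ∀ j, ∃ f : ℕ → ℕ, (∀ i, f i < 2 ^ K) ∧ W j = dsum (2 ^ (k + 1)) n f :=
    fun j => (mask_iff hKk).1 (h1 j)
  choose f hf hW using hw
  have hqk : n * m * 2 ^ K + 2 ≤ 2 ^ (k + 1) := by
    have hk2 : n * m * 2 ^ K + 1 ≤ k := by
      have := a.bnd_pos (Sum.elim X (fun _ => K))
      rw [hk]; unfold bq; omega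
    have := Nat.lt_two_pow_self (n := k)
    have h2 : 2 ^ (k + 1) = 2 * 2 ^ k := by ring
    omega
  have hsum_j : ∀ j, ∑ i ∈ range n, f j i ≤ n * 2 ^ K := by
    intro j
    calc ∑ i ∈ range n, f j i ≤ ∑ i ∈ range n, 2 ^ K := sum_le_sum fun i _ => (hf j i).le
      _ = n * 2 ^ K := by simp
  have hsum_lt : ∀ j, ∑ i ∈ range n, f j i < 2 ^ (k + 1) - 1 := by
    intro j
    have hm : 1 ≤ m := by have := j.2; omega
    have : n * 2 ^ K ≤ n * m * 2 ^ K := by
      have : n * 1 ≤ n * m := Nat.mul_le_mul_left _ hm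
      rw [mul_one] at this
      exact Nat.mul_le_mul_right _ this
    have := hsum_j j
    omega
  have hK : K = ∑ j, ∑ i ∈ range n, f j i := by
    rw [h2]
    apply sum_congr rfl
    intro j _
    rw [hW j, dsum_mod_sub_one (by omega) (hsum_lt j)]
  have hfK : ∀ j, ∀ i < n, f j i ≤ K := by
    intro j i hi
    calc f j i ≤ ∑ i ∈ range n, f j i :=
          single_le_sum (f := fun i => f j i) (fun _ _ => Nat.zero_le _) (mem_range.2 hi)
      _ ≤ ∑ j, ∑ i ∈ range n, f j i :=
          single_le_sum (f := fun j => ∑ i ∈ range n, f j i) (fun _ _ => Nat.zero_le _)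
            (mem_univ j)
      _ = K := hK.symm
  have hEW : ∀ y, (Sum.elim (E k) W : V ⊕ Fin m → ℕ) y =
      dsum (2 ^ (k + 1)) n ((Sum.elim (fun l i => x i l) f : V ⊕ Fin m → ℕ → ℕ) y) := by
    intro y
    rcases y with l | j
    · exact hE k l
    · exact hW j
  have hbd : ∀ y, ∀ i < n, (Sum.elim (fun l i => x i l) f : V ⊕ Fin m → ℕ → ℕ) y i ≤
      (Sum.elim X (fun _ => K) : V ⊕ Fin m → ℕ) y := by
    intro y i hi
    rcases y with l | j
    · exact hx i hi l
    · exact hfK j i hi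
  have hab : a.bnd (Sum.elim X (fun _ => K)) ≤ 2 ^ (k + 1) ∧
      b.bnd (Sum.elim X (fun _ => K)) ≤ 2 ^ (k + 1) := by
    have := le_two_pow_succ k
    have h1 : a.bnd (Sum.elim X (fun _ => K)) ≤ k := by rw [hk]; unfold bq; omega
    have h2 : b.bnd (Sum.elim X (fun _ => K)) ≤ k := by rw [hk]; unfold bq; omega
    omega
  rw [NP.enc_eq a hEW hbd hab.1, NP.enc_eq b hEW hbd hab.2] at h3
  have hsw : ∀ i, (fun y => (Sum.elim (fun l i => x i l) f : V ⊕ Fin m → ℕ → ℕ) y i) =
      Sum.elim (x i) (fun j => f j i) := by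
    intro i
    funext y
    rcases y with l | j <;> rfl
  simp only [hsw] at h3
  have hfin := dsum_inj (f := fun i => a.eval (Sum.elim (x i) (fun j => f j i)))
    (g := fun i => b.eval (Sum.elim (x i) (fun j => f j i))) (q := 2 ^ (k + 1)) (n := n)
    (by
      intro i hi
      refine lt_of_lt_of_le (a.eval_lt_bnd (M := Sum.elim X (fun _ => K)) ?_) hab.1
      intro y
      have := hbd y i hi
      rcases y with l | j <;> exact this)
    (by
      intro i hi
      refine lt_of_lt_of_le (b.eval_lt_bnd (M := Sum.elim X (fun _ => K)) ?_) hab.2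
      intro y
      have := hbd y i hi
      rcases y with l | j <;> exact this) h3
  exact ⟨fun i j => f j i, hfin, hK, hW⟩

/-- conversely solutions for all `i < n` give a solution of `Cond` -/
lemma Cond.mk {a b : NP (V ⊕ Fin m)} {n : ℕ} {X : V → ℕ} {E : ℕ → V → ℕ}
    {x : ℕ → V → ℕ}
    (hx : ∀ i < n, ∀ l, x i l ≤ X l)
    (hE : ∀ k l, E k l = dsum (2 ^ (k + 1)) n (fun i => x i l))
    (w : ℕ → Fin m → ℕ)
    (hw : ∀ i < n, a.eval (Sum.elim (x i) (w i)) = b.eval (Sum.elim (x i) (w i))) :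
    ∃ (K : ℕ) (W : Fin m → ℕ), Cond a b n X E K W := by
  obtain ⟨K, hK⟩ : ∃ K, K = ∑ j, ∑ i ∈ range n, w i j := ⟨_, rfl⟩
  set k := bq a b n K X with hk
  have hwK : ∀ j, ∀ i < n, w i j ≤ K := by
    intro j i hi
    calc w i j ≤ ∑ i ∈ range n, w i j :=
          single_le_sum (f := fun i => w i j) (fun _ _ => Nat.zero_le _) (mem_range.2 hi)
      _ ≤ ∑ j, ∑ i ∈ range n, w i j :=
          single_le_sum (f := fun j => ∑ i ∈ range n, w i j) (fun _ _ => Nat.zero_le _)
            (mem_univ j)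
      _ = K := hK.symm
  have hKk : K ≤ k + 1 := by rw [hk]; unfold bq; omega
  have hK2 : K < 2 ^ K := Nat.lt_two_pow_self
  refine ⟨K, fun j => dsum (2 ^ (k + 1)) n (fun i => w i j), ?_, ?_, ?_⟩
  · intro j
    rw [← hk]
    refine (mask_iff hKk).2 ⟨fun i => if i < n then w i j else 0, ?_, ?_⟩
    · intro i
      beta_reduce
      split_ifs with hi
      · exact lt_of_le_of_lt (hwK j i hi) hK2
      · positivity
    · apply dsum_congr
      intro i hi
      simp [hi]
  · rw [← hk]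
    conv_lhs => rw [hK]
    apply sum_congr rfl
    intro j _
    rw [dsum_mod_sub_one (Nat.one_le_two_pow)]
    have h1 : ∑ i ∈ range n, w i j ≤ K := by
      rw [hK]
      exact single_le_sum (f := fun j => ∑ i ∈ range n, w i j) (fun _ _ => Nat.zero_le _)
            (mem_univ j)
    have hk3 : K + 1 ≤ k := by
      have := a.bnd_pos (Sum.elim X (fun _ => K))
      rw [hk]; unfold bq; omega
    have := Nat.lt_two_pow_self (n := k)
    have h2 : 2 ^ (k + 1) = 2 * 2 ^ k := by ring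
    omega
  · rw [← hk]
    have hEW : ∀ y, (Sum.elim (E k) (fun j => dsum (2 ^ (k + 1)) n (fun i => w i j)) :
        V ⊕ Fin m → ℕ) y =
        dsum (2 ^ (k + 1)) n ((Sum.elim (fun l i => x i l) (fun j i => w i j) :
          V ⊕ Fin m → ℕ → ℕ) y) := by
      intro y
      rcases y with l | j
      · exact hE k l
      · rfl
    have hbd : ∀ y, ∀ i < n,
        (Sum.elim (fun l i => x i l) (fun j i => w i j) : V ⊕ Fin m → ℕ → ℕ) y i ≤
        (Sum.elim X (fun _ => K) : V ⊕ Fin m → ℕ) y := by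
      intro y i hi
      rcases y with l | j
      · exact hx i hi l
      · exact hwK j i hi
    have hab : a.bnd (Sum.elim X (fun _ => K)) ≤ 2 ^ (k + 1) ∧
        b.bnd (Sum.elim X (fun _ => K)) ≤ 2 ^ (k + 1) := by
      have := le_two_pow_succ k
      have h1 : a.bnd (Sum.elim X (fun _ => K)) ≤ k := by rw [hk]; unfold bq; omega
      have h2 : b.bnd (Sum.elim X (fun _ => K)) ≤ k := by rw [hk]; unfold bq; omega
      omega
    rw [NP.enc_eq a hEW hbd hab.1, NP.enc_eq b hEW hbd hab.2]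
    apply dsum_congr
    intro i hi
    have hsw : (fun y => (Sum.elim (fun l i => x i l) (fun j i => w i j) :
        V ⊕ Fin m → ℕ → ℕ) y i) = Sum.elim (x i) (w i) := by
      funext y
      rcases y with l | j <;> rfl
    rw [hsw]
    exact hw i hi

/-- uniqueness of the coded witness -/
lemma Cond.unique {a b : NP (V ⊕ Fin m)} {n : ℕ} {X : V → ℕ} {E : ℕ → V → ℕ}
    {x : ℕ → V → ℕ}
    (hx : ∀ i < n, ∀ l, x i l ≤ X l)
    (hE : ∀ k l, E k l = dsum (2 ^ (k + 1)) n (fun i => x i l))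
    (hu : ∀ i < n, ∀ w w' : Fin m → ℕ, a.eval (Sum.elim (x i) w) = b.eval (Sum.elim (x i) w) →
      a.eval (Sum.elim (x i) w') = b.eval (Sum.elim (x i) w') → w = w')
    {K K' : ℕ} {W W' : Fin m → ℕ} (h : Cond a b n X E K W) (h' : Cond a b n X E K' W') :
    K = K' ∧ W = W' := by
  obtain ⟨w, h1, h2, h3⟩ := h.dest hx hE
  obtain ⟨w', h1', h2', h3'⟩ := h'.dest hx hE
  have hww : ∀ i < n, w i = w' i := fun i hi => hu i hi _ _ (h1 i hi) (h1' i hi)
  have hKK : K = K' := by
    rw [h2, h2']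
    apply sum_congr rfl; intro j _
    apply sum_congr rfl; intro i hi
    rw [hww i (mem_range.1 hi)]
  subst hKK
  refine ⟨rfl, ?_⟩
  funext j
  rw [h3 j, h3' j]
  apply dsum_congr
  intro i hi
  rw [hww i hi]

end Ball

end Crest.Agent.R323
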