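import Crest.Agent.R323.SFFun
import Crest.Agent.R323.NatPoly

/-!
# Single-fold Diophantine predicates are closed under bounded universal quantification (S0500)

Hypotheses: the power function and bitwise `AND` are single-fold.
-/

set_option autoImplicit false

namespace Crest.Agent.R323

variable {ι : Type}

theorem SFF.sum {α : Type} (s : Finset α) {f : α → (ι → ℕ) → ℕ} (hf : ∀ a ∈ s, SFF (f a)) :
    SFF (fun v => ∑ a ∈ s, f a v) := by
  classical
  induction s using Finset.induction_on with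
  | empty => exact (SFF.const 0).congr (fun v => by simp)
  | insert a s ha ih =>
    have h1 := hf a (Finset.mem_insert_self a s)
    have h2 := ih (fun b hb => hf b (Finset.mem_insert_of_mem hb))
    exact (h1.add h2).congr (fun v => by rw [Finset.sum_insert ha])

lemma geo_eq_div {q : ℕ} (n : ℕ) (hq : 2 ≤ q) : geo q n = (q ^ n - 1) / (q - 1) := by
  have h := geo_mul q n (by omega)
  rw [← h, Nat.add_sub_cancel, Nat.mul_div_cancel_left _ (by omega)]

lemma idx_eq_div {q : ℕ} (n : ℕ) (hq : 2 ≤ q) :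
    dsum q n (fun i => i) = (n * q ^ n + 1 - geo q n - q ^ n) / (q - 1) := by
  have h := idx_spec (q := q) (n := n) (by omega)
  have h2 : n * q ^ n + 1 - geo q n - q ^ n = dsum q n (fun i => i) * (q - 1) := by omega
  rw [h2, Nat.mul_div_cancel _ (by omega)]

lemma two_le_base (k : ℕ) : 2 ≤ 2 ^ (k + 1) := by
  have : 1 ≤ 2 ^ k := Nat.one_le_two_pow
  rw [pow_succ]; omega

lemma two_le_base_pow (k s : ℕ) (hs : 1 ≤ s) : 2 ≤ (2 ^ (k + 1)) ^ s := by
  calc 2 ≤ 2 ^ (k + 1) := two_le_base k
    _ = (2 ^ (k + 1)) ^ 1 := (pow_one _).symm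
    _ ≤ (2 ^ (k + 1)) ^ s := Nat.pow_le_pow_right (by positivity) hs

section

theorem SFF.pow' (hpow : SF2 (fun a n => a ^ n)) {f g : (ι → ℕ) → ℕ} (hf : SFF f) (hg : SFF g) :
    SFF (fun v => f v ^ g v) := hpow.comp hf hg

theorem SFF.land' (hland : SF2 (fun a b => a &&& b)) {f g : (ι → ℕ) → ℕ} (hf : SFF f)
    (hg : SFF g) : SFF (fun v => f v &&& g v) := hland.comp hf hg

theorem SFF.geo' (hpow : SF2 (fun a n => a ^ n)) {q n : (ι → ℕ) → ℕ} (hq : SFF q) (hn : SFF n)
    (h2 : ∀ v, 2 ≤ q v) : SFF (fun v => geo (q v) (n v)) :=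
  (((SFF.pow' hpow hq hn).tsub (SFF.const 1)).div (hq.tsub (SFF.const 1))).congr
    (fun v => geo_eq_div _ (h2 v))

theorem SFF.idx' (hpow : SF2 (fun a n => a ^ n)) {q n : (ι → ℕ) → ℕ} (hq : SFF q) (hn : SFF n)
    (h2 : ∀ v, 2 ≤ q v) : SFF (fun v => dsum (q v) (n v) (fun i => i)) :=
  (((((hn.mul (SFF.pow' hpow hq hn)).add (SFF.const 1)).tsub
    (SFF.geo' hpow hq hn h2)).tsub (SFF.pow' hpow hq hn)).div (hq.tsub (SFF.const 1))).congr
    (fun v => idx_eq_div _ (h2 v))

/-- the base `2^(k+1)` -/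
theorem SFF.base' (hpow : SF2 (fun a n => a ^ n)) {k : (ι → ℕ) → ℕ} (hk : SFF k) :
    SFF (fun v => 2 ^ (k v + 1)) :=
  SFF.pow' hpow (SFF.const 2) (hk.add (SFF.const 1))

theorem SFF.spread' (hpow : SF2 (fun a n => a ^ n)) (hland : SF2 (fun a b => a &&& b))
    {k n X : (ι → ℕ) → ℕ} (hk : SFF k) (hn : SFF n) (hX : SFF X) :
    SFF (fun v => spread (k v) (n v) (X v)) := by
  have hk' := hk.reindex (some : ι → Option ι)
  have hn' := hn.reindex (some : ι → Option ι)
  have hX' := hX.reindex (some : ι → Option ι)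
  have hb' := SFF.base' hpow hk'
  have hbs' := SFF.pow' hpow hb' (hn'.add (SFF.const 1))
  refine SFF.of_graph (q := fun v Y =>
    Y &&& ((2 ^ (k v + 1) - 1) * geo ((2 ^ (k v + 1)) ^ (n v + 1)) (n v)) = Y ∧
        Y % ((2 ^ (k v + 1)) ^ (n v + 1) - 2 ^ (k v + 1)) = X v % (2 ^ (k v + 1)) ^ (n v)) ?_
    (fun v Y => (spread_graph _ _ _ _).symm)
  refine SFP.and (SFP.eq (SFF.land' hland (SFF.proj _)
    ((hb'.tsub (SFF.const 1)).mul (SFF.geo' hpow hbs' hn' ?_))) (SFF.proj _))
    (SFP.eq ((SFF.proj _).mod (hbs'.tsub hb')) (hX'.mod (SFF.pow' hpow hb' hn')))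
  intro v
  exact two_le_base_pow _ _ (by omega)

theorem SFF.had' (hpow : SF2 (fun a n => a ^ n)) (hland : SF2 (fun a b => a &&& b))
    {k n X Y : (ι → ℕ) → ℕ} (hk : SFF k) (hn : SFF n) (hX : SFF X) (hY : SFF Y) :
    SFF (fun v => had (k v) (n v) (X v) (Y v)) := by
  have hb := SFF.base' hpow hk
  have hbs := SFF.pow' hpow hb (hn.add (SFF.const 2))
  exact (SFF.land' hland (hX.mul (SFF.spread' hpow hland hk hn hY))
    ((hb.tsub (SFF.const 1)).mul (SFF.geo' hpow hbs hn
      (fun v => two_le_base_pow _ _ (by omega))))).mod (hbs.tsub hb)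

theorem SFF.enc' (hpow : SF2 (fun a n => a ^ n)) (hland : SF2 (fun a b => a &&& b))
    {V : Type} (p : NP V) {k n : (ι → ℕ) → ℕ} {E : V → (ι → ℕ) → ℕ} (hk : SFF k) (hn : SFF n)
    (hE : ∀ y, SFF (E y)) : SFF (fun v => p.enc (k v) (n v) (fun y => E y v)) := by
  induction p with
  | const c =>
    exact (SFF.const c).mul (SFF.geo' hpow (SFF.base' hpow hk) hn (fun v => two_le_base _))
  | var x => exact hE x
  | add p r hp hr => exact hp.add hr
  | mul p r hp hr => exact SFF.had' hpow hland hk hn hp hr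

theorem SFF.bnd' {V : Type} (p : NP V) {M : V → (ι → ℕ) → ℕ} (hM : ∀ y, SFF (M y)) :
    SFF (fun v => p.bnd (fun y => M y v)) := by
  induction p with
  | const c => exact SFF.const _
  | var x => exact (hM x).add (SFF.const 1)
  | add p r hp hr => exact hp.add hr
  | mul p r hp hr => exact hp.mul hr

/-- **Bounded universal quantification.** -/
theorem SFP.ballOf (hpow : SF2 (fun a n => a ^ n)) (hland : SF2 (fun a b => a &&& b))
    {q : (Option ι → ℕ) → Prop} (hq : SFP q) :
    SFP (fun v : Option ι → ℕ => ∀ i < v none, q (fun o => o.elim i (fun j => v (some j)))) := by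
  obtain ⟨m, F, h1, h2⟩ := hq
  obtain ⟨a, b, hab⟩ := exists_NP F
  have hev : ∀ (v : Option ι → ℕ) (w : Fin m → ℕ), ev F (Sum.elim v w) = 0 ↔
      a.eval (Sum.elim v w) = b.eval (Sum.elim v w) := by
    intro v w
    unfold ev
    rw [hab, sub_eq_zero]
    norm_cast
  simp only [hev] at h1 h2
  -- the encoded constant sequences
  let E : (Option ι → ℕ) → ℕ → Option ι → ℕ := fun v k o =>
    o.elim (dsum (2 ^ (k + 1)) (v none) (fun i => i))
      (fun j => v (some j) * geo (2 ^ (k + 1)) (v none))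
  let x : (Option ι → ℕ) → ℕ → Option ι → ℕ := fun v i o => o.elim i (fun j => v (some j))
  have hx : ∀ v, ∀ i < v none, ∀ l, x v i l ≤ v l := by
    intro v i hi l
    cases l with
    | none => exact hi.le
    | some j => exact le_rfl
  have hE : ∀ v k l, E v k l = dsum (2 ^ (k + 1)) (v none) (fun i => x v i l) := by
    intro v k l
    cases l with
    | none => rfl
    | some j => exact (dsum_const _ _ _).symm
  have hC : SFP (fun u : Option ι ⊕ Option (Fin m) → ℕ =>
      Cond a b (u (Sum.inl none)) (fun l => u (Sum.inl l)) (E (fun l => u (Sum.inl l)))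
        (u (Sum.inr none)) (fun j => u (Sum.inr (some j)))) := by
    have hM : ∀ y : Option ι ⊕ Fin m, SFF (fun u : Option ι ⊕ Option (Fin m) → ℕ =>
        (Sum.elim (fun l => u (Sum.inl l)) (fun _ => u (Sum.inr none)) : Option ι ⊕ Fin m → ℕ)
          y) := by
      intro y
      rcases y with l | j
      · exact SFF.proj _
      · exact SFF.proj _
    have hbq : SFF (fun u : Option ι ⊕ Option (Fin m) → ℕ =>
        bq a b (u (Sum.inl none)) (u (Sum.inr none)) (fun l => u (Sum.inl l))) := by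
      unfold bq
      refine SFF.add (SFF.add (SFF.add (SFF.bnd' a hM) (SFF.bnd' b hM)) ?_) (SFF.proj _)
      exact ((SFF.proj _).mul (SFF.const m)).mul (SFF.pow' hpow (SFF.const 2) (SFF.proj _))
    have hb := SFF.base' hpow hbq
    have hn : SFF (fun u : Option ι ⊕ Option (Fin m) → ℕ => u (Sum.inl none)) := SFF.proj _
    have hgeo := SFF.geo' hpow hb hn (fun v => two_le_base _)
    have hEnc : ∀ y : Option ι ⊕ Fin m, SFF (fun u : Option ι ⊕ Option (Fin m) → ℕ =>
        (Sum.elim (E (fun l => u (Sum.inl l))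
          (bq a b (u (Sum.inl none)) (u (Sum.inr none)) (fun l => u (Sum.inl l))))
          (fun j => u (Sum.inr (some j))) : Option ι ⊕ Fin m → ℕ) y) := by
      intro y
      rcases y with l | j
      · cases l with
        | none => exact SFF.idx' hpow hb hn (fun v => two_le_base _)
        | some j => exact (SFF.proj _).mul hgeo
      · exact SFF.proj _
    unfold Cond
    refine SFP.and (SFP.all fun j => ?_) (SFP.and ?_ ?_)
    · exact SFP.eq (SFF.land' hland (SFF.proj _)
        (((SFF.pow' hpow (SFF.const 2) (SFF.proj _)).tsub (SFF.const 1)).mul hgeo)) (SFF.proj _)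
    · refine SFP.eq (SFF.proj _) (SFF.sum _ fun j _ => ?_)
      exact (SFF.proj _).mod (hb.tsub (SFF.const 1))
    · exact SFP.eq (SFF.enc' hpow hland a hbq hn hEnc) (SFF.enc' hpow hland b hbq hn hEnc)
  have hu : ∀ v, ∀ i < v none, ∀ w w' : Fin m → ℕ,
      a.eval (Sum.elim (x v i) w) = b.eval (Sum.elim (x v i) w) →
      a.eval (Sum.elim (x v i) w') = b.eval (Sum.elim (x v i) w') → w = w' :=
    fun v i _ w w' h h' => h2 _ _ _ h h'
  refine (SFP.exBlock hC ?_).congr ?_
  · intro v y y' h h'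
    have := Cond.unique (hx v) (hE v) (hu v) h h'
    funext o
    cases o with
    | none => exact this.1
    | some j => exact congrFun this.2 j
  · intro v
    constructor
    · intro h
      have h' : ∀ i, ∃ w : Fin m → ℕ, i < v none →
          a.eval (Sum.elim (x v i) w) = b.eval (Sum.elim (x v i) w) := by
        intro i
        by_cases hi : i < v none
        · obtain ⟨w, hw⟩ := (h1 _).1 (h i hi)
          exact ⟨w, fun _ => hw⟩
        · exact ⟨0, fun h => absurd h hi⟩
      choose w hw using h'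
      obtain ⟨K, W, hKW⟩ := Cond.mk (hx v) (hE v) w (fun i hi => hw i hi)
      exact ⟨fun o => o.elim K W, hKW⟩
    · rintro ⟨y, hy⟩ i hi
      obtain ⟨w, hw, _⟩ := Cond.dest (hx v) (hE v) hy
      exact (h1 _).2 ⟨w i, hw i hi⟩

end

end Crest.Agent.R323
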