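import Crest.Agent.R323.PellSq

/-!
# The certificate for `(m, x, y) = (m, xn 2 m, yn 2 m)`

All witnesses are unique.
-/

set_option autoImplicit false

namespace Crest.Agent.R323

open Pell

theorem pell_of_eq {x y : ℕ} (h : x * x = 3 * y * y + 1) : ∃ j, x = xn h2 j ∧ y = yn h2 j := by
  have h' : x * x - 3 * y * y = 1 := by omega
  exact eq_pell h2 h'

theorem eq_of_pell (n : ℕ) : xn h2 n * xn h2 n = 3 * yn h2 n * yn h2 n + 1 := by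
  have h : xn h2 n * xn h2 n - 3 * yn h2 n * yn h2 n = 1 := pell_eq h2 n
  omega

theorem xn2_add (m n : ℕ) : xn h2 (m + n) = xn h2 m * xn h2 n + 3 * yn h2 m * yn h2 n :=
  xn_add h2 m n

theorem yn2_add (m n : ℕ) : yn h2 (m + n) = xn h2 m * yn h2 n + yn h2 m * xn h2 n :=
  yn_add h2 m n

theorem yn_pred (n : ℕ) (hn : 1 ≤ n) : yn h2 (n - 1) + xn h2 n = 2 * yn h2 n := by
  obtain ⟨m, rfl⟩ : ∃ m, n = m + 1 := ⟨n - 1, by omega⟩
  have e1 : xn h2 (m + 1) = xn h2 m * 2 + 3 * yn h2 m := xn_succ h2 m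
  have e2 : yn h2 (m + 1) = xn h2 m + yn h2 m * 2 := yn_succ h2 m
  rw [Nat.add_sub_cancel, e1, e2]
  ring

theorem yn_next (n : ℕ) : yn h2 (n + 1) = xn h2 n + 2 * yn h2 n := by
  have e2 : yn h2 (n + 1) = xn h2 n + yn h2 n * 2 := yn_succ h2 n
  rw [e2]; ring

/-- adjacency on the quartic curve -/
def AdjZ (a b a1 b1 : ℤ) : Prop :=
  (b ^ 2 * a1 ^ 2 + b1 ^ 2 * a ^ 2 - 8 * b ^ 2 * b1 ^ 2 - a ^ 2 * a1 ^ 2) ^ 2 =
    36 * a ^ 2 * b ^ 2 * a1 ^ 2 * b1 ^ 2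

/-- the abstract properties of the ruler sequences -/
structure Ruler (a b p : ℕ → ℕ) : Prop where
  p0 : p 0 = 1
  p1 : p 1 = 3
  eqn : ∀ k, p k ^ 2 = a k ^ 4 + 8 * b k ^ 4
  cop : ∀ k, Nat.Coprime (a k) (b k)
  surj : ∀ a1 b1 p1 : ℕ, p1 ^ 2 = a1 ^ 4 + 8 * b1 ^ 4 → Nat.Coprime a1 b1 →
    ∃ k, a1 = a k ∧ b1 = b k ∧ p1 = p k
  adj : ∀ j k, AdjZ (a j) (b j) (a k) (b k) ↔ (j = k + 1 ∨ k = j + 1)
  growth : ∀ k, 9 * p (k + 1) ^ 2 ≤ p (k + 2) * p k ∧ p (k + 2) * p k ≤ 15 * p (k + 1) ^ 2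

/-- constants -/
@[irreducible] def c0 : ℕ := xn h2 289
@[irreducible] def d0 : ℕ := yn h2 289

/-- `x_n, y_n` for `n = 2 j + 289` as polynomials in `x_j, y_j` -/
def XX (x y : ℕ) : ℕ := (x ^ 2 + 3 * y ^ 2) * c0 + 3 * (2 * x * y) * d0
def YY (x y : ℕ) : ℕ := (x ^ 2 + 3 * y ^ 2) * d0 + (2 * x * y) * c0

theorem c0_eq : c0 = xn h2 289 := by unfold c0; exact Eq.refl _
theorem d0_eq : d0 = yn h2 289 := by unfold d0; exact Eq.refl _

theorem XX_eq (j : ℕ) : XX (xn h2 j) (yn h2 j) = xn h2 (2 * j + 289) := by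
  have e := xn2_add (2 * j) 289
  have e1 : xn h2 (2 * j) = xn h2 j * xn h2 j + 3 * yn h2 j * yn h2 j := by
    rw [two_mul, xn2_add]
  have e2 : yn h2 (2 * j) = xn h2 j * yn h2 j + yn h2 j * xn h2 j := by
    rw [two_mul, yn2_add]
  rw [← c0_eq, ← d0_eq, e1, e2] at e
  rw [e, XX]
  ring

theorem YY_eq (j : ℕ) : YY (xn h2 j) (yn h2 j) = yn h2 (2 * j + 289) := by
  have e := yn2_add (2 * j) 289
  have e1 : xn h2 (2 * j) = xn h2 j * xn h2 j + 3 * yn h2 j * yn h2 j := by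
    rw [two_mul, xn2_add]
  have e2 : yn h2 (2 * j) = xn h2 j * yn h2 j + yn h2 j * xn h2 j := by
    rw [two_mul, yn2_add]
  rw [← c0_eq, ← d0_eq, e1, e2] at e
  rw [e, YY]
  ring

/-- The system. inputs `m x y`; unknowns `X2 Y2 U V a b p a' b' p'`. -/
structure Sys (m x y X2 Y2 U V a b p a' b' p' : ℕ) : Prop where
  e1 : x * x = 3 * y * y + 1
  e2 : X2 * X2 = 3 * Y2 * Y2 + 1
  eU : U + XX x y = 2 * YY x y
  eV : V + X2 = 2 * Y2
  d1 : YY x y ∣ Y2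
  d2 : XX x y + 2 * YY x y ∣ V
  d3 : U ∣ V
  c1 : p ^ 2 = a ^ 4 + 8 * b ^ 4
  c2 : Nat.Coprime a b
  c3 : p' ^ 2 = a' ^ 4 + 8 * b' ^ 4
  c4 : Nat.Coprime a' b'
  c5 : AdjZ a b a' b'
  s1 : p < p'
  s2 : p < X2
  s3 : X2 ≤ p'
  s4 : p' ≤ XX x y ^ 6 * p
  r1 : Y2 ≡ (2 * m + 289) * YY x y [MOD (YY x y) ^ 3]
  r2 : 2 * m + 289 < (YY x y) ^ 2

theorem Sys.sound {A B P : ℕ → ℕ} (R : Ruler A B P) {m x y X2 Y2 U V a b p a' b' p' : ℕ}
    (h : Sys m x y X2 Y2 U V a b p a' b' p') :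
    x = xn h2 m ∧ y = yn h2 m ∧ X2 = xn h2 ((2 * m + 289) ^ 2) ∧ Y2 = yn h2 ((2 * m + 289) ^ 2) ∧
      ∃ k, P k < xn h2 ((2 * m + 289) ^ 2) ∧ xn h2 ((2 * m + 289) ^ 2) ≤ P (k + 1) ∧
        P (k + 1) ≤ xn h2 (2 * m + 289) ^ 6 * P k ∧
        a = A k ∧ b = B k ∧ p = P k ∧ a' = A (k + 1) ∧ b' = B (k + 1) ∧ p' = P (k + 1) := by
  obtain ⟨j, hx, hy⟩ := pell_of_eq h.e1
  obtain ⟨N, hX2, hY2⟩ := pell_of_eq h.e2
  set n := 2 * j + 289 with hn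
  have hXX : XX x y = xn h2 n := by rw [hx, hy, XX_eq]
  have hYY : YY x y = yn h2 n := by rw [hx, hy, YY_eq]
  have hmono := ruler_strictMono R.p0 R.p1 R.growth
  -- N ≥ 1
  have hN : 1 ≤ N := by
    rcases Nat.eq_zero_or_pos N with h0 | h0
    · exfalso
      have := h.s2
      rw [hX2, h0] at this
      have h1 : xn h2 0 = 1 := xn_zero h2
      rw [h1] at this
      have hp0 : p = 0 := by omega
      have h3 := h.c1
      rw [hp0] at h3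
      have ha : a = 0 := by
        by_contra hne
        have : 0 < a ^ 4 := Nat.pow_pos (Nat.pos_of_ne_zero hne)
        omega
      have hb : b = 0 := by
        by_contra hne
        have : 0 < b ^ 4 := Nat.pow_pos (Nat.pos_of_ne_zero hne)
        omega
      have := h.c2
      rw [ha, hb] at this
      simp at this
    · exact h0
  have hn1 : 1 ≤ n := le_trans (by norm_num) (Nat.le_add_left 289 (2 * j))
  have hU : U = yn h2 (n - 1) := by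
    have e := h.eU
    rw [hXX, hYY, ← yn_pred n hn1] at e
    exact Nat.add_right_cancel e
  have hV : V = yn h2 (N - 1) := by
    have e := h.eV
    rw [hX2, hY2, ← yn_pred N hN] at e
    exact Nat.add_right_cancel e
  -- ruler indices
  obtain ⟨k, hka, hkb, hkp⟩ := R.surj a b p h.c1 h.c2
  obtain ⟨k', hka', hkb', hkp'⟩ := R.surj a' b' p' h.c3 h.c4
  have hlt : k < k' := by
    apply hmono.lt_iff_lt.1
    rw [← hkp, ← hkp']; exact h.s1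
  have hadj := h.c5
  rw [hka, hkb, hka', hkb'] at hadj
  have hk' : k' = k + 1 := by
    rcases (R.adj k k').1 hadj with h1 | h1 <;> omega
  subst hk'
  -- N = n^2
  have hs3 : xn h2 N ≤ P (k + 1) := by rw [← hkp', ← hX2]; exact h.s3
  have hs4 : P (k + 1) ≤ xn h2 n ^ 6 * P k := by rw [← hkp', ← hkp, ← hXX]; exact h.s4
  have hNn : N = n ^ 2 := by
    refine pell_cert R.p0 R.p1 R.growth n (by omega) N k hN ?_ ?_ ?_ hs3 hs4
    · rw [← hYY, ← hY2]; exact h.d1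
    · rw [yn_next, ← hXX, ← hYY, ← hV]; exact h.d2
    · rw [← hU, ← hV]; exact h.d3
  -- reading
  have hm : 2 * m + 289 = n := by
    refine reading_unique n (2 * m + 289) ⟨j + 144, by omega⟩ ?_ (lt_yn_sq n (by omega)) ?_
    · rw [← hYY]; exact h.r2
    · rw [← hYY, ← sq, ← hNn, ← hY2]; exact h.r1
  have hmj : m = j := by omega
  subst hmj
  refine ⟨hx, hy, ?_, ?_, k, ?_, ?_, hs4, hka, hkb, hkp, hka', hkb', hkp'⟩
  · rw [hX2, hNn]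
  · rw [hY2, hNn]
  · rw [← hn, ← hNn, ← hX2, ← hkp]; exact h.s2
  · rw [← hn, ← hNn]; exact hs3

theorem Sys.complete {A B P : ℕ → ℕ} (R : Ruler A B P) (m : ℕ) :
    ∃ X2 Y2 U V a b p a' b' p', Sys m (xn h2 m) (yn h2 m) X2 Y2 U V a b p a' b' p' := by
  set n := 2 * m + 289 with hn
  obtain ⟨k, hk1, hk2, hk3⟩ := size_b R.p0 R.p1 R.growth n (by omega)
  have hXX : XX (xn h2 m) (yn h2 m) = xn h2 n := by rw [XX_eq]
  have hYY : YY (xn h2 m) (yn h2 m) = yn h2 n := by rw [YY_eq]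
  obtain ⟨g1, g2, g3⟩ := index_sq_conv n (by omega)
  have hmono := ruler_strictMono R.p0 R.p1 R.growth
  refine ⟨xn h2 (n ^ 2), yn h2 (n ^ 2), yn h2 (n - 1), yn h2 (n ^ 2 - 1), A k, B k, P k,
    A (k + 1), B (k + 1), P (k + 1), ?_⟩
  refine ⟨eq_of_pell _, eq_of_pell _, ?_, ?_, ?_, ?_, g3, R.eqn k, R.cop k, R.eqn _, R.cop _,
    (R.adj k (k + 1)).2 (Or.inr rfl), hmono (Nat.lt_succ_self k), hk1, hk2, ?_, ?_, ?_⟩
  · rw [hXX, hYY]; exact yn_pred n (by omega)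
  · exact yn_pred (n ^ 2) (by nlinarith)
  · rw [hYY]; exact g1
  · rw [hXX, hYY, ← yn_next]; exact g2
  · rw [hXX]; exact hk3
  · rw [hYY, sq]; exact reading_odd n ⟨m + 144, by omega⟩
  · rw [hYY]; exact lt_yn_sq n (by omega)

theorem Sys.unique {A B P : ℕ → ℕ} (R : Ruler A B P)
    {m x y X2 Y2 U V a b p a' b' p' : ℕ} {W2 Z2 U1 V1 a1 b1 p1 a1' b1' p1' : ℕ}
    (h : Sys m x y X2 Y2 U V a b p a' b' p')
    (h' : Sys m x y W2 Z2 U1 V1 a1 b1 p1 a1' b1' p1') :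
    X2 = W2 ∧ Y2 = Z2 ∧ U = U1 ∧ V = V1 ∧ a = a1 ∧ b = b1 ∧ p = p1 ∧
      a' = a1' ∧ b' = b1' ∧ p' = p1' := by
  obtain ⟨_, _, f1, f2, k, f3, f4, _, f5, f6, f7, f8, f9, f10⟩ := h.sound R
  obtain ⟨_, _, g1, g2, k', g3, g4, _, g5, g6, g7, g8, g9, g10⟩ := h'.sound R
  have hkk : k = k' := ruler_index_unique R.p0 R.p1 R.growth f3 f4 g3 g4
  subst hkk
  have e1 : X2 = W2 := by rw [f1, g1]
  have e2 : Y2 = Z2 := by rw [f2, g2]
  refine ⟨e1, e2, ?_, ?_, ?_, ?_, ?_, ?_, ?_, ?_⟩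
  · have := h.eU; have := h'.eU; omega
  · have := h.eV; have := h'.eV; omega
  · rw [f5, g5]
  · rw [f6, g6]
  · rw [f7, g7]
  · rw [f8, g8]
  · rw [f9, g9]
  · rw [f10, g10]

end Crest.Agent.R323
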