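import Mathlib

/-!
Pure number lemmas for the bitwise AND of natural numbers expressed with binomial coefficients.

* `odd_choose_iff` (L1): `Nat.choose (a + b) a` is odd iff `a &&& b = 0`;
* `choose_eq_digit` (L2): for `1 ≤ n`, `Nat.choose n k = ((2 ^ n + 1) ^ n / 2 ^ (n * k)) % 2 ^ n`;
* `and_eq_iff` (L3): `c = a &&& b` iff there are `a' b'` with `a = c + a'`, `b = c + b'` and the
  pairs `(c, a')`, `(c, b')`, `(a', b')` have odd binomial coefficients.
-/

namespace Crest.Agent.R323

/-- Parity of a number, as `% 2 = 1`. -/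
theorem and_eq_zero_iff_half (a b : ℕ) :
    a &&& b = 0 ↔ ((a % 2) * (b % 2) = 0 ∧ (a / 2) &&& (b / 2) = 0) := by
  constructor
  · intro h
    refine ⟨?_, ?_⟩
    · have h0 : (a &&& b).testBit 0 = false := by rw [h]; simp
      rw [Nat.testBit_and] at h0
      simp only [Nat.testBit_zero, Bool.and_eq_false_iff, decide_eq_false_iff_not] at h0
      rcases h0 with h0 | h0
      · have : a % 2 = 0 := by omega
        simp [this]
      · have : b % 2 = 0 := by omega
        simp [this]
    · rw [← Nat.and_div_two, h]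
  · rintro ⟨h1, h2⟩
    apply Nat.eq_of_testBit_eq
    intro i
    cases i with
    | zero =>
      rw [Nat.testBit_and]
      simp only [Nat.testBit_zero, Nat.zero_mod]
      rcases Nat.mul_eq_zero.1 h1 with h | h <;> simp [h]
    | succ i =>
      rw [Nat.testBit_succ, Nat.and_div_two, h2]
      simp

/-- (L1) Kummer/Lucas at `p = 2`. -/
theorem odd_choose_iff (a b : ℕ) : Nat.choose (a + b) a % 2 = 1 ↔ a &&& b = 0 := by
  induction a using Nat.strong_induction_on generalizing b with
  | _ a ih =>
  rcases Nat.eq_zero_or_pos a with rfl | ha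
  · simp
  · have key : Nat.choose (a + b) a % 2
        = (Nat.choose ((a + b) % 2) (a % 2) * Nat.choose ((a + b) / 2) (a / 2)) % 2 :=
      haveI : Fact (Nat.Prime 2) := ⟨Nat.prime_two⟩
      Choose.choose_modEq_choose_mod_mul_choose_div_nat (n := a + b) (k := a) (p := 2)
    rw [key, and_eq_zero_iff_half]
    have ih' := ih (a / 2) (by omega) (b / 2)
    rcases Nat.mod_two_eq_zero_or_one a with h0 | h0 <;>
    rcases Nat.mod_two_eq_zero_or_one b with h1 | h1
    · have e1 : (a + b) % 2 = 0 := by omega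
      have e2 : (a + b) / 2 = a / 2 + b / 2 := by omega
      rw [e1, h0, h1, e2]
      simpa using ih'
    · have e1 : (a + b) % 2 = 1 := by omega
      have e2 : (a + b) / 2 = a / 2 + b / 2 := by omega
      rw [e1, h0, h1, e2]
      simpa using ih'
    · have e1 : (a + b) % 2 = 1 := by omega
      have e2 : (a + b) / 2 = a / 2 + b / 2 := by omega
      rw [e1, h0, h1, e2]
      simpa using ih'
    · have e1 : (a + b) % 2 = 0 := by omega
      rw [e1, h0, h1]
      simp

/-- Bound: a binomial coefficient `choose n k` with `1 ≤ n` is `< 2 ^ n`. -/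
theorem choose_lt_two_pow' {n : ℕ} (hn : 1 ≤ n) (k : ℕ) : Nat.choose n k < 2 ^ n := by
  rcases Nat.lt_or_ge n k with h | h
  · rw [Nat.choose_eq_zero_of_lt h]; positivity
  · have h1 : ∑ m ∈ Finset.range (n + 1), Nat.choose n m = 2 ^ n := Nat.sum_range_choose n
    have : ∃ j, j ∈ Finset.range (n + 1) ∧ j ≠ k ∧ 0 < Nat.choose n j := by
      rcases Nat.eq_zero_or_pos k with rfl | hk
      · exact ⟨n, by simp, by omega, by simp⟩
      · exact ⟨0, by simp, by omega, by simp⟩
    obtain ⟨j, hj, hjk, hpos⟩ := this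
    have hk : k ∈ Finset.range (n + 1) := by simp; omega
    rw [← h1, ← Finset.add_sum_erase _ _ hk]
    have : Nat.choose n j ≤ ∑ m ∈ (Finset.range (n + 1)).erase k, Nat.choose n m :=
      Finset.single_le_sum (f := fun m => Nat.choose n m) (fun _ _ => Nat.zero_le _)
        (Finset.mem_erase.2 ⟨hjk, hj⟩)
    omega

/-- A base-`q` sum with digits `< q` over `range m` is `< q ^ m`. -/
theorem sum_digits_lt (q : ℕ) (f : ℕ → ℕ) (hf : ∀ i, f i < q) (m : ℕ) :
    ∑ i ∈ Finset.range m, f i * q ^ i < q ^ m := by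
  induction m with
  | zero => simp
  | succ m ih =>
    rw [Finset.sum_range_succ, pow_succ]
    have h1 : f m + 1 ≤ q := hf m
    calc ∑ i ∈ Finset.range m, f i * q ^ i + f m * q ^ m < q ^ m + f m * q ^ m := by omega
      _ = (f m + 1) * q ^ m := by ring
      _ ≤ q * q ^ m := Nat.mul_le_mul_right _ h1
      _ = q ^ m * q := by ring

/-- Extraction of a base-`q` digit. -/
theorem digit_of_sum (q : ℕ) (hq : 0 < q) (f : ℕ → ℕ) (hf : ∀ i, f i < q) (m k : ℕ) (hk : k < m) :
    ((∑ i ∈ Finset.range m, f i * q ^ i) / q ^ k) % q = f k := by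
  have hsplit : ∑ i ∈ Finset.range m, f i * q ^ i
      = ∑ i ∈ Finset.range k, f i * q ^ i
        + q ^ k * (f k + q * ∑ i ∈ Finset.range (m - (k + 1)), f (k + 1 + i) * q ^ i) := by
    obtain ⟨r, rfl⟩ : ∃ r, m = k + 1 + r := ⟨m - (k + 1), by omega⟩
    have : k + 1 + r - (k + 1) = r := by omega
    rw [this, Finset.sum_range_add, Finset.sum_range_succ, mul_add, Finset.mul_sum,
      Finset.mul_sum, add_assoc]
    congr 1
    congr 1
    · ring
    · apply Finset.sum_congr rfl
      intro i _
      ring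
  rw [hsplit, Nat.add_mul_div_left _ _ (by positivity),
    Nat.div_eq_of_lt (sum_digits_lt q f hf k), zero_add, Nat.add_mul_mod_self_left,
    Nat.mod_eq_of_lt (hf k)]

/-- (L2) the binomial coefficients are the base-`2 ^ n` digits of `(2 ^ n + 1) ^ n`. -/
theorem choose_eq_digit {n : ℕ} (hn : 1 ≤ n) (k : ℕ) :
    Nat.choose n k = ((2 ^ n + 1) ^ n / 2 ^ (n * k)) % 2 ^ n := by
  have h1 : (2 ^ n + 1) ^ n = ∑ i ∈ Finset.range (n + 1), Nat.choose n i * (2 ^ n) ^ i := by
    rw [add_pow]
    apply Finset.sum_congr rfl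
    intro i _
    simp [mul_comm]
  have hext : ∑ i ∈ Finset.range (n + 1), Nat.choose n i * (2 ^ n) ^ i
      = ∑ i ∈ Finset.range (n + 1 + k), Nat.choose n i * (2 ^ n) ^ i := by
    rw [Finset.sum_range_add _ (n + 1) k]
    rw [Finset.sum_eq_zero (s := Finset.range k), add_zero]
    intro i _
    rw [Nat.choose_eq_zero_of_lt (by omega), zero_mul]
  rw [h1, hext, pow_mul]
  exact (digit_of_sum (2 ^ n) (by positivity) (fun i => Nat.choose n i)
    (fun i => choose_lt_two_pow' hn i) (n + 1 + k) k (by omega)).symm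

/-- Sum of disjoint numbers is their bitwise OR. -/
theorem add_eq_or_of_and_eq_zero {a b : ℕ} (h : a &&& b = 0) : a + b = a ||| b := by
  induction a using Nat.strong_induction_on generalizing b with
  | _ a ih =>
  rcases Nat.eq_zero_or_pos a with rfl | ha
  · simp
  · obtain ⟨h1, h2⟩ := (and_eq_zero_iff_half a b).1 h
    have e := ih (a / 2) (by omega) h2
    have e1 : (a ||| b) / 2 = a / 2 ||| b / 2 := Nat.or_div_two
    have hz : (a ||| b).testBit 0 = (a.testBit 0 || b.testBit 0) := Nat.testBit_or ..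
    simp only [Nat.testBit_zero] at hz
    rcases Nat.mod_two_eq_zero_or_one a with h0 | h0 <;>
    rcases Nat.mod_two_eq_zero_or_one b with h3 | h3
    · have h4 : (a ||| b) % 2 = 0 := by
        rcases Nat.mod_two_eq_zero_or_one (a ||| b) with h | h
        · exact h
        · simp [h0, h3, h] at hz
      omega
    · have h4 : (a ||| b) % 2 = 1 := by
        rcases Nat.mod_two_eq_zero_or_one (a ||| b) with h | h
        · simp [h0, h3, h] at hz
        · exact h
      omega
    · have h4 : (a ||| b) % 2 = 1 := by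
        rcases Nat.mod_two_eq_zero_or_one (a ||| b) with h | h
        · simp [h0, h3, h] at hz
        · exact h
      omega
    · simp [h0, h3] at h1

/-- (L3), forward direction: the canonical witnesses. -/
theorem and_split (a b : ℕ) :
    ∃ a' b', a = (a &&& b) + a' ∧ b = (a &&& b) + b' ∧
      (a &&& b) &&& a' = 0 ∧ (a &&& b) &&& b' = 0 ∧ a' &&& b' = 0 := by
  refine ⟨a ^^^ (a &&& b), b ^^^ (a &&& b), ?_, ?_, ?_, ?_, ?_⟩
  · rw [add_eq_or_of_and_eq_zero]
    · apply Nat.eq_of_testBit_eq; intro i
      simp only [Nat.testBit_or, Nat.testBit_and, Nat.testBit_xor]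
      cases a.testBit i <;> cases b.testBit i <;> rfl
    · apply Nat.eq_of_testBit_eq; intro i
      simp only [Nat.testBit_and, Nat.testBit_xor, Nat.zero_testBit]
      cases a.testBit i <;> cases b.testBit i <;> rfl
  · rw [add_eq_or_of_and_eq_zero]
    · apply Nat.eq_of_testBit_eq; intro i
      simp only [Nat.testBit_or, Nat.testBit_and, Nat.testBit_xor]
      cases a.testBit i <;> cases b.testBit i <;> rfl
    · apply Nat.eq_of_testBit_eq; intro i
      simp only [Nat.testBit_and, Nat.testBit_xor, Nat.zero_testBit]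
      cases a.testBit i <;> cases b.testBit i <;> rfl
  · apply Nat.eq_of_testBit_eq; intro i
    simp only [Nat.testBit_and, Nat.testBit_xor, Nat.zero_testBit]
    cases a.testBit i <;> cases b.testBit i <;> rfl
  · apply Nat.eq_of_testBit_eq; intro i
    simp only [Nat.testBit_and, Nat.testBit_xor, Nat.zero_testBit]
    cases a.testBit i <;> cases b.testBit i <;> rfl
  · apply Nat.eq_of_testBit_eq; intro i
    simp only [Nat.testBit_and, Nat.testBit_xor, Nat.zero_testBit]
    cases a.testBit i <;> cases b.testBit i <;> rfl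

/-- (L3), backward direction. -/
theorem and_eq_of_split {c a' b' : ℕ} (h1 : c &&& a' = 0) (h2 : c &&& b' = 0)
    (h3 : a' &&& b' = 0) : (c + a') &&& (c + b') = c := by
  rw [add_eq_or_of_and_eq_zero h1, add_eq_or_of_and_eq_zero h2]
  apply Nat.eq_of_testBit_eq; intro i
  have t1 : (c &&& a').testBit i = false := by rw [h1]; simp
  have t2 : (c &&& b').testBit i = false := by rw [h2]; simp
  have t3 : (a' &&& b').testBit i = false := by rw [h3]; simp
  simp only [Nat.testBit_and] at t1 t2 t3
  simp only [Nat.testBit_or, Nat.testBit_and]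
  revert t1 t2 t3
  cases c.testBit i <;> cases a'.testBit i <;> cases b'.testBit i <;> simp

/-- (L3) bitwise AND through odd binomial coefficients. -/
theorem and_eq_iff (a b c : ℕ) :
    c = a &&& b ↔ ∃ a' b', a = c + a' ∧ b = c + b' ∧
      Nat.choose (c + a') c % 2 = 1 ∧ Nat.choose (c + b') c % 2 = 1 ∧
      Nat.choose (a' + b') a' % 2 = 1 := by
  simp only [odd_choose_iff]
  constructor
  · rintro rfl
    exact and_split a b
  · rintro ⟨a', b', rfl, rfl, h1, h2, h3⟩
    exact (and_eq_of_split h1 h2 h3).symm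

/-- (L3'), version with the two sums replaced by the given numbers. -/
theorem and_eq_iff' (a b c : ℕ) :
    c = a &&& b ↔ ∃ a' b', a = c + a' ∧ b = c + b' ∧
      Nat.choose a c % 2 = 1 ∧ Nat.choose b c % 2 = 1 ∧
      Nat.choose (a' + b') a' % 2 = 1 := by
  rw [and_eq_iff]
  constructor
  · rintro ⟨a', b', h1, h2, h3, h4, h5⟩
    exact ⟨a', b', h1, h2, by rw [h1]; exact h3, by rw [h2]; exact h4, h5⟩
  · rintro ⟨a', b', h1, h2, h3, h4, h5⟩
    exact ⟨a', b', h1, h2, by rw [← h1]; exact h3, by rw [← h2]; exact h4, h5⟩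

/-- `c = a &&& b` in terms of vanishing ANDs. -/
theorem and_eq_iff_and_zero (a b c : ℕ) :
    c = a &&& b ↔ ∃ a' b', a = c + a' ∧ b = c + b' ∧
      c &&& a' = 0 ∧ c &&& b' = 0 ∧ a' &&& b' = 0 := by
  simpa only [odd_choose_iff] using and_eq_iff a b c

end Crest.Agent.R323
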