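import Crest.Agent.R323.SFFun
import Crest.Agent.R323.ChooseAnd

/-!
Binomial coefficients and bitwise AND are single-fold, given that powers are.
-/

set_option autoImplicit false
namespace Crest.Agent.R323


/-- uniform digit formula for binomial coefficients, valid for all `n k` -/
theorem choose_eq_formula (n k : ℕ) :
    Nat.choose n k = ((2 ^ n + 1) ^ n / 2 ^ (n * k)) % 2 ^ n + (1 - (n + k)) := by
  rcases Nat.eq_zero_or_pos n with rfl | hn
  · rcases Nat.eq_zero_or_pos k with rfl | hk
    · simp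
    · rw [Nat.choose_eq_zero_of_lt hk]
      have : 1 - (0 + k) = 0 := by omega
      rw [this]
      simp
  · rw [← choose_eq_digit hn k]
    have : 1 - (n + k) = 0 := by omega
    rw [this, add_zero]

/-- binomial coefficients are single-fold if powers are -/
theorem SF2.choose_of_pow (hpow : SF2 (fun a n => a ^ n)) : SF2 Nat.choose := by
  have hn : SFF (fun v : Fin 2 → ℕ => v 0) := SFF.proj 0
  have hk : SFF (fun v : Fin 2 → ℕ => v 1) := SFF.proj 1
  have h1 : SFF (fun v : Fin 2 → ℕ => 2 ^ (v 0)) := hpow.comp (SFF.const 2) hn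
  have h2 : SFF (fun v : Fin 2 → ℕ => (2 ^ v 0 + 1) ^ v 0) := hpow.comp (h1.add (SFF.const 1)) hn
  have h3 : SFF (fun v : Fin 2 → ℕ => 2 ^ (v 0 * v 1)) := hpow.comp (SFF.const 2) (hn.mul hk)
  have h4 := ((h2.div h3).mod h1).add ((SFF.const 1).tsub (hn.add hk))
  exact h4.congr (fun v => choose_eq_formula (v 0) (v 1))

/-- `c = a &&& b` in quantifier-free form with truncated subtraction -/
theorem and_eq_iff_sub (a b c : ℕ) :
    c = a &&& b ↔ (c ≤ a ∧ c ≤ b ∧ Nat.choose a c % 2 = 1 ∧ Nat.choose b c % 2 = 1 ∧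
      Nat.choose ((a - c) + (b - c)) (a - c) % 2 = 1) := by
  rw [and_eq_iff']
  constructor
  · rintro ⟨a', b', h1, h2, h3, h4, h5⟩
    have e1 : a - c = a' := by omega
    have e2 : b - c = b' := by omega
    exact ⟨by omega, by omega, h3, h4, by rw [e1, e2]; exact h5⟩
  · rintro ⟨h1, h2, h3, h4, h5⟩
    exact ⟨a - c, b - c, by omega, by omega, h3, h4, h5⟩

/-- bitwise AND is single-fold if binomial coefficients are -/
theorem SF2.land_of_choose (hch : SF2 Nat.choose) : SF2 (fun a b => a &&& b) := by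
  have hc : SFF (fun v : Option (Fin 2) → ℕ => v none) := SFF.proj none
  have ha : SFF (fun v : Option (Fin 2) → ℕ => v (some 0)) := SFF.proj (some 0)
  have hb : SFF (fun v : Option (Fin 2) → ℕ => v (some 1)) := SFF.proj (some 1)
  have h1 := SFP.le hc ha
  have h2 := SFP.le hc hb
  have h3 := SFP.eq ((hch.comp ha hc).mod (SFF.const 2)) (SFF.const 1)
  have h4 := SFP.eq ((hch.comp hb hc).mod (SFF.const 2)) (SFF.const 1)
  have h5 := SFP.eq ((hch.comp ((ha.tsub hc).add (hb.tsub hc)) (ha.tsub hc)).mod (SFF.const 2))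
    (SFF.const 1)
  exact (h1.and (h2.and (h3.and (h4.and h5)))).congr
    (fun v => and_eq_iff_sub (v (some 0)) (v (some 1)) (v none))

/-- bitwise AND is single-fold if powers are -/
theorem SF2.land_of_pow (hpow : SF2 (fun a n => a ^ n)) : SF2 (fun a b => a &&& b) :=
  SF2.land_of_choose (SF2.choose_of_pow hpow)

end Crest.Agent.R323
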