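import Mathlib

set_option autoImplicit false

namespace Crest.Agent.R323

/-- coprime factorisation of `2^k c^4`. -/
theorem fourth_split (A B c k : ℕ) (hcop : Nat.Coprime A B) (hodd : Odd A)
    (h : A * B = 2 ^ k * c ^ 4) : ∃ u v : ℕ, A = u ^ 4 ∧ B = 2 ^ k * v ^ 4 ∧ c = u * v := by
  have hA2 : Nat.Coprime (2 ^ k) A := by
    apply Nat.Coprime.pow_left
    exact (Nat.coprime_two_left).2 hodd
  have hdvd : 2 ^ k ∣ B := by
    have : 2 ^ k ∣ A * B := ⟨_, h⟩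
    exact hA2.dvd_of_dvd_mul_left this
  obtain ⟨B', rfl⟩ := hdvd
  have h2 : A * B' = c ^ 4 := by
    have hp : (0:ℕ) < 2 ^ k := by positivity
    apply Nat.eq_of_mul_eq_mul_left hp
    rw [← h]; ring
  have hcop' : Nat.Coprime A B' := Nat.Coprime.coprime_mul_left_right hcop
  have hu1 : IsUnit (gcd A B') := by
    rw [Nat.isUnit_iff]; exact hcop'
  obtain ⟨u, hu⟩ := exists_eq_pow_of_mul_eq_pow hu1 h2
  have hu2 : IsUnit (gcd B' A) := by
    rw [Nat.isUnit_iff]; exact hcop'.symm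
  obtain ⟨v, hv⟩ := exists_eq_pow_of_mul_eq_pow hu2 (by rw [mul_comm]; exact h2)
  refine ⟨u, v, hu, by rw [hv], ?_⟩
  have : c ^ 4 = (u * v) ^ 4 := by rw [← h2, hu, hv]; ring
  exact Nat.pow_left_injective (by norm_num : 4 ≠ 0) this

/-- integer version of `fourth_split`. -/
theorem fourth_split_int (A B c : ℤ) (k : ℕ) (hA : 0 ≤ A) (hB : 0 ≤ B) (hcop : IsCoprime A B)
    (hodd : Odd A) (h : A * B = 2 ^ k * c ^ 4) :
    ∃ u v : ℕ, A = (u:ℤ) ^ 4 ∧ B = 2 ^ k * (v:ℤ) ^ 4 ∧ (c = u * v ∨ c = -(u * v)) := by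
  lift A to ℕ using hA
  lift B to ℕ using hB
  have h1 : A * B = 2 ^ k * c.natAbs ^ 4 := by
    zify
    rw [h]
    congr 1
    rw [← Even.pow_abs (by decide : Even 4) c]
  have hodd' : Odd A := by exact_mod_cast hodd
  obtain ⟨u, v, h2, h3, h4⟩ := fourth_split A B c.natAbs k (Nat.isCoprime_iff_coprime.1 hcop) hodd' h1
  refine ⟨u, v, by exact_mod_cast h2, by exact_mod_cast h3, ?_⟩
  rcases Int.natAbs_eq c with hc | hc
  · left; rw [hc, h4]; push_cast; ring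
  · right; rw [hc, h4]; push_cast; ring

theorem half_of_even (r s p : ℤ) (h : p ^ 2 = r ^ 4 + 8 * s ^ 4) (hc : IsCoprime r s) (hp : 0 < p)
    (hs : Even s) : ∃ u v q : ℤ, q ^ 2 = u ^ 4 + 8 * v ^ 4 ∧ IsCoprime u v ∧ 0 < q ∧
      (s = 2 * u * v * q) ∧ (r = u ^ 4 - 8 * v ^ 4 ∨ r = -(u ^ 4 - 8 * v ^ 4)) ∧
      p = q ^ 4 + 32 * u ^ 4 * v ^ 4 := by
  obtain ⟨t, ht⟩ := hs
  have hst : s = 2 * t := by rw [ht]; ring
  subst hst
  clear ht
  -- r odd
  have hr2 : IsCoprime r 2 := hc.of_isCoprime_of_dvd_right ⟨t, rfl⟩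
  have hrodd : Odd r := by
    rcases Int.even_or_odd r with he | ho
    · exfalso
      obtain ⟨k, hk⟩ := he
      have h2r : (2:ℤ) ∣ r := ⟨k, by rw [hk]; ring⟩
      have h2 := hr2.isUnit_of_dvd' h2r (dvd_refl 2)
      exact absurd h2 (by decide)
    · exact ho
  have hrt : IsCoprime r t := hc.of_isCoprime_of_dvd_right ⟨2, by ring⟩
  have hpodd : Odd p := by
    have : Odd (p ^ 2) := by
      rw [h]
      exact (hrodd.pow).add_even ⟨4 * (2 * t) ^ 4, by ring⟩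
    exact (Int.odd_pow.1 this).resolve_right (by norm_num)
  have hrp : IsCoprime r p := by
    have h8 : IsCoprime r (8 * (2 * t) ^ 4) := by
      have : (8 : ℤ) * (2 * t) ^ 4 = 2 ^ 7 * t ^ 4 := by ring
      rw [this]
      exact (hr2.pow_right).mul_right (hrt.pow_right)
    have h9 : IsCoprime r (p ^ 2) := by
      rw [h]
      have : r ^ 4 + 8 * (2 * t) ^ 4 = 8 * (2 * t) ^ 4 + r * r ^ 3 := by ring
      rw [this]
      exact h8.add_mul_left_right _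
    exact (IsCoprime.pow_right_iff (by norm_num : 0 < 2)).1 h9
  -- squares
  obtain ⟨r', hr'⟩ := hrodd
  obtain ⟨p', hp'⟩ := hpodd
  -- A, B
  obtain ⟨A, hA⟩ : ∃ A : ℤ, p - r ^ 2 = 2 * A := by
    refine ⟨p' - 2 * r' ^ 2 - 2 * r', ?_⟩; rw [hp', hr']; ring
  obtain ⟨B, hB⟩ : ∃ B : ℤ, p + r ^ 2 = 2 * B := by
    refine ⟨p' + 2 * r' ^ 2 + 2 * r' + 1, ?_⟩; rw [hp', hr']; ring
  have hpr : r ^ 2 ≤ p := by
    have : (r ^ 2) ^ 2 ≤ p ^ 2 := by rw [h]; nlinarith [sq_nonneg ((2 * t) ^ 2)]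
    exact le_of_sq_le_sq this hp.le
  have hA0 : 0 ≤ A := by linarith
  have hB0 : 0 ≤ B := by nlinarith [sq_nonneg r]
  have hAB : A * B = 2 ^ 5 * t ^ 4 := by
    have h4 : (2 * A) * (2 * B) = 4 * (2 ^ 5 * t ^ 4) := by
      rw [← hA, ← hB]
      linear_combination h
    linarith
  have hcopAB : IsCoprime A B := by
    obtain ⟨a, b, hab⟩ : IsCoprime p (r ^ 2) := (hrp.symm).pow_right
    refine ⟨a - b, a + b, ?_⟩
    have e1 : p = A + B := by linarith
    have e2 : r ^ 2 = B - A := by linarith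
    rw [e1, e2] at hab
    linarith
  have hABodd : Odd (A + B) := by
    have : A + B = p := by linarith
    rw [this, hp']; exact ⟨p', rfl⟩
  -- exclude A odd
  rcases Int.even_or_odd A with hAe | hAo
  swap
  · exfalso
    obtain ⟨b, a, h1, h2, _⟩ := fourth_split_int A B t 5 hA0 hB0 hcopAB hAo hAB
    have hb : Odd b := by
      have : Odd ((b:ℤ) ^ 4) := by rw [← h1]; exact hAo
      have := (Int.odd_pow.1 this).resolve_right (by norm_num)
      exact_mod_cast this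
    obtain ⟨b', hb'⟩ := hb
    have e2 : r ^ 2 = B - A := by linarith
    rw [h1, h2, hr', hb'] at e2
    push_cast at e2
    have e3 : (2 * r' + 1) ^ 2 % 8 = 1 := by
      have : (2 * r' + 1) ^ 2 = 4 * (r' * (r' + 1)) + 1 := by ring
      obtain ⟨w, hw⟩ := Int.even_mul_succ_self r'
      rw [this, hw]; omega
    have e4 : (2 ^ 5 * (a:ℤ) ^ 4 - (2 * (b':ℤ) + 1) ^ 4) % 8 = 7 := by
      have : (2 ^ 5 * (a:ℤ) ^ 4 - (2 * (b':ℤ) + 1) ^ 4) =
        8 * (4 * (a:ℤ) ^ 4 - (2 * (b':ℤ) ^ 4 + 4 * (b':ℤ) ^ 3 + 3 * (b':ℤ) ^ 2 + b')) - 1 := by ring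
      rw [this]; omega
    rw [e2] at e3
    omega
  have hBo : Odd B := by
    rcases Int.even_or_odd B with hBe | hBo
    · exfalso
      exact (Int.not_odd_iff_even.2 (hAe.add hBe)) hABodd
    · exact hBo
  obtain ⟨b, a, h1, h2, h3⟩ := fourth_split_int B A t 5 hB0 hA0 hcopAB.symm hBo
    (by rw [mul_comm]; exact hAB)
  have hbo : Odd (b:ℤ) := by
    have : Odd ((b:ℤ) ^ 4) := by rw [← h1]; exact hBo
    exact (Int.odd_pow.1 this).resolve_right (by norm_num)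
  obtain ⟨b', hb'⟩ := hbo
  have er : r ^ 2 = (b:ℤ) ^ 4 - 32 * (a:ℤ) ^ 4 := by
    have e2 : r ^ 2 = B - A := by linarith
    rw [e2, h1, h2]; norm_num
  have ep : p = (b:ℤ) ^ 4 + 32 * (a:ℤ) ^ 4 := by
    have e1 : p = A + B := by linarith
    rw [e1, h1, h2]; ring
  have hb0 : (b:ℤ) ≠ 0 := by omega
  have hbpos : 0 < (b:ℤ) := by positivity
  obtain ⟨C, hC⟩ : ∃ C : ℤ, (b:ℤ) ^ 2 - r = 2 * C := by
    refine ⟨2 * b' ^ 2 + 2 * b' - r', ?_⟩; rw [hb', hr']; ring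
  obtain ⟨D, hD⟩ : ∃ D : ℤ, (b:ℤ) ^ 2 + r = 2 * D := by
    refine ⟨2 * b' ^ 2 + 2 * b' + r' + 1, ?_⟩; rw [hb', hr']; ring
  have habs : |r| ≤ (b:ℤ) ^ 2 := by
    apply abs_le_of_sq_le_sq _ (by positivity)
    rw [er]; nlinarith [sq_nonneg ((a:ℤ) ^ 2)]
  have hC0 : 0 ≤ C := by have := (abs_le.1 habs).2; linarith
  have hD0 : 0 ≤ D := by have := (abs_le.1 habs).1; linarith
  have hCD : C * D = 2 ^ 3 * (a:ℤ) ^ 4 := by
    have h4 : (2 * C) * (2 * D) = 4 * (2 ^ 3 * (a:ℤ) ^ 4) := by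
      rw [← hC, ← hD]
      linear_combination (-1) * er
    linarith
  have hcopCD : IsCoprime C D := by
    have hba : IsCoprime ((b:ℤ) ^ 4) (32 * (a:ℤ) ^ 4) := by
      have := hcopAB.symm
      rw [h1, h2] at this
      norm_num at this ⊢
      exact this
    have hbr : IsCoprime ((b:ℤ) ^ 2) r := by
      have : IsCoprime ((b:ℤ) ^ 4) (r ^ 2) := by
        rw [er]
        have e : (b:ℤ) ^ 4 - 32 * (a:ℤ) ^ 4 = -(32 * (a:ℤ) ^ 4) + (b:ℤ) ^ 4 * 1 := by ring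
        rw [e]
        exact (hba.neg_right).add_mul_left_right _
      have h5 : IsCoprime (b:ℤ) r := (IsCoprime.pow_iff (by norm_num) (by norm_num)).1 this
      exact h5.pow_left
    obtain ⟨x, y, hxy⟩ := hbr
    refine ⟨x - y, x + y, ?_⟩
    have e1 : (b:ℤ) ^ 2 = C + D := by linarith
    have e2 : r = D - C := by linarith
    rw [e1, e2] at hxy
    linarith
  have hCDodd : Odd (C + D) := by
    have : C + D = (b:ℤ) ^ 2 := by linarith
    rw [this, hb']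
    exact ⟨2 * b' ^ 2 + 2 * b', by ring⟩
  -- final assembly
  have fin : ∀ u v : ℕ, (b:ℤ) ^ 2 = (u:ℤ) ^ 4 + 8 * (v:ℤ) ^ 4 → ((a:ℤ) = u * v ∨ (a:ℤ) = -(u * v)) →
      IsCoprime (u:ℤ) (v:ℤ) → (r = (u:ℤ) ^ 4 - 8 * (v:ℤ) ^ 4 ∨ r = -((u:ℤ) ^ 4 - 8 * (v:ℤ) ^ 4)) →
      ∃ u v q : ℤ, q ^ 2 = u ^ 4 + 8 * v ^ 4 ∧ IsCoprime u v ∧ 0 < q ∧
      (2 * t = 2 * u * v * q) ∧ (r = u ^ 4 - 8 * v ^ 4 ∨ r = -(u ^ 4 - 8 * v ^ 4)) ∧
      p = q ^ 4 + 32 * u ^ 4 * v ^ 4 := by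
    intro u v hb2 ha huv hr
    have hp4 : p = (b:ℤ) ^ 4 + 32 * (u:ℤ) ^ 4 * (v:ℤ) ^ 4 := by
      rw [ep]
      rcases ha with ha | ha <;> rw [ha] <;> ring
    have ht : t = b * (u * v) ∨ t = -(b * (u * v)) := by
      rcases h3 with h3 | h3 <;> rcases ha with ha | ha <;> rw [ha] at h3
      · left; exact h3
      · right; rw [h3]; ring
      · right; exact h3
      · left; rw [h3]; ring
    rcases ht with ht | ht
    · exact ⟨u, v, b, hb2, huv, hbpos, by rw [ht]; ring, hr, hp4⟩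
    · refine ⟨-u, v, b, by rw [hb2]; ring, huv.neg_left, hbpos, by rw [ht]; ring, ?_, by rw [hp4]; ring⟩
      rcases hr with hr | hr
      · left; rw [hr]; ring
      · right; rw [hr]; ring
  rcases Int.even_or_odd D with hDe | hDo
  · have hCo : Odd C := by
      rcases Int.even_or_odd C with hCe | hCo
      · exfalso
        exact (Int.not_odd_iff_even.2 (hCe.add hDe)) hCDodd
      · exact hCo
    obtain ⟨u, v, g1, g2, g3⟩ := fourth_split_int C D a 3 hC0 hD0 hcopCD hCo hCD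
    refine fin u v ?_ ?_ ?_ (Or.inr ?_)
    · have : (b:ℤ) ^ 2 = C + D := by linarith
      rw [this, g1, g2]; norm_num
    · exact g3
    · rw [g1, g2] at hcopCD
      have := (IsCoprime.of_mul_right_right hcopCD)
      exact (IsCoprime.pow_iff (by norm_num) (by norm_num)).1 this
    · have : r = D - C := by linarith
      rw [this, g1, g2]; ring
  · obtain ⟨u, v, g1, g2, g3⟩ := fourth_split_int D C a 3 hD0 hC0 hcopCD.symm hDo
      (by rw [mul_comm]; exact hCD)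
    refine fin u v ?_ ?_ ?_ (Or.inl ?_)
    · have : (b:ℤ) ^ 2 = C + D := by linarith
      rw [this, g1, g2]; ring
    · exact g3
    · have hcop2 := hcopCD.symm
      rw [g1, g2] at hcop2
      have := (IsCoprime.of_mul_right_right hcop2)
      exact (IsCoprime.pow_iff (by norm_num) (by norm_num)).1 this
    · have : r = D - C := by linarith
      rw [this, g1, g2]; ring

end Crest.Agent.R323
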