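import Crest.Agent.R323.Ht
import Crest.Agent.R323.Half

/-!
# Part 1: all coprime solutions of `p^2 = r^4 + 8 s^4` are the multiples of `(1,1,3)`.
-/

set_option autoImplicit false

namespace Crest.Agent.R323

open Pt

/-- two points with the same x coordinate up to sign -/
theorem eq_or_eq_neg {P Q : Pt} (h : P.x = Q.x ∨ P.x = -Q.x) : P = Q ∨ P = Q.neg := by
  rcases h with h | h
  · exact Or.inl (ext_x h)
  · exact Or.inr (ext_x h)

theorem half_point {Q : Pt} {r s p : ℤ} (h : Rep Q r s p) (hs : Even s) :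
    ∃ (Q' : Pt) (u v q : ℤ), Rep Q' u v q ∧ (Q = Q'.dbl ∨ Q = Q'.dbl.neg) ∧
      s = 2 * u * v * q ∧ p = q ^ 4 + 32 * u ^ 4 * v ^ 4 := by
  obtain ⟨hc, hp, hr0, hx, hy⟩ := id h
  obtain ⟨u, v, q, h1, h2, h3, h4, h5, h6⟩ := half_of_even r s p h.eqn hc hp hs
  obtain ⟨Q', hQ'⟩ := exists_pt h1 h2 h3
  refine ⟨Q', u, v, q, hQ', ?_, h4, h6⟩
  apply eq_or_eq_neg
  obtain ⟨_, _, hu0, hx', hy'⟩ := hQ'
  have hd : Q'.dbl.x = 2 * Q'.x * Q'.y / (1 - 8 * Q'.x ^ 4) := rfl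
  have hu : (u : ℚ) ≠ 0 := by exact_mod_cast hu0
  have h7 : Q'.dbl.x = (2 * u * v * q : ℚ) / (u ^ 4 - 8 * v ^ 4) := by
    rw [hd]
    have hne := one_sub_ne' Q'.x
    have hne2 : ((u:ℚ) ^ 4 - 8 * v ^ 4) ≠ 0 := by
      intro h0
      apply hne
      rw [hx']
      field_simp
      linear_combination h0
    rw [div_eq_div_iff hne hne2, hx', hy']
    field_simp
  rw [hx, h7, h4]
  rcases h5 with h5 | h5 <;> rw [h5]
  · left
    push_cast
    rfl
  · right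
    push_cast
    rw [div_neg]

/-- every point is a multiple of `(1,3)` -/
theorem mw_aux (n : ℕ) : ∀ (Q : Pt) (r s p : ℤ), Rep Q r s p → p.toNat = n → ∃ k : ℤ, Q = pt k := by
  induction n using Nat.strong_induction_on with
  | _ n ih =>
    intro Q r s p h hn
    have hp : 0 < p := h.2.1
    have hr0 : r ≠ 0 := h.2.2.1
    have heq := h.eqn
    by_cases hs0 : s = 0
    · refine ⟨0, ?_⟩
      rw [pt_zero]
      apply ext_x
      rw [h.2.2.2.1, hs0]
      simp [O]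
    have hs4 : 0 < s ^ 4 := by positivity
    have hp2 : 1 < p := by
      by_contra hle
      have : p = 1 := by omega
      rw [this] at heq
      have : 0 ≤ r ^ 4 := by positivity
      linarith
    have step : ∀ (Q' : Pt) (u v q : ℤ), Rep Q' u v q → q < p → ∃ k : ℤ, Q' = pt k := by
      intro Q' u v q hrep hlt
      have hq := hrep.2.1
      exact ih q.toNat (by omega) Q' u v q hrep rfl
    have conc : ∀ (Q1 Q' : Pt), (Q1 = Q'.dbl ∨ Q1 = Q'.dbl.neg) → (∃ k : ℤ, Q' = pt k) →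
        ∃ k : ℤ, Q1 = pt k := by
      intro Q1 Q' h1 h2
      obtain ⟨k, rfl⟩ := h2
      rcases h1 with h1 | h1
      · exact ⟨2 * k, by rw [h1, pt_dbl]⟩
      · exact ⟨-(2 * k), by rw [h1, pt_dbl, pt_neg]⟩
    rcases Int.even_or_odd s with hse | hso
    · obtain ⟨Q', u, v, q, h1, h2, h3, h4⟩ := half_point h hse
      apply conc Q Q' h2
      apply step Q' u v q h1
      have hq := h1.2.1
      have hu : u ≠ 0 := h1.2.2.1
      have hv : v ≠ 0 := by
        rintro rfl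
        apply hs0; rw [h3]; ring
      have h5 : 0 < u ^ 4 * v ^ 4 := by positivity
      have h6 : q ≤ q ^ 4 := by
        have : (1:ℤ) ≤ q ^ 3 := one_le_pow₀ (by omega)
        nlinarith
      rw [h4]; linarith
    · obtain ⟨r1, s1, p1, r2, s2, p2, h1, h2, h3, h4⟩ := rep_neighbours h
      obtain ⟨he1, he2⟩ := h4 hso
      have hp1 := h1.2.1
      have hp2' := h2.2.1
      have h15 : p1 * p2 ≤ 15 * p ^ 2 := by
        rw [h3]
        nlinarith [sq_nonneg (3 * r ^ 2 - 8 * s ^ 2)]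
      have small : ∀ (Q1 : Pt) (ra sa pa : ℤ), Rep Q1 ra sa pa → Even sa → pa ^ 2 ≤ 15 * p ^ 2 →
          ∃ k : ℤ, Q1 = pt k := by
        intro Q1 ra sa pa ha hea hle
        obtain ⟨Q', u, v, q, g1, g2, g3, g4⟩ := half_point ha hea
        apply conc Q1 Q' g2
        apply step Q' u v q g1
        have hq := g1.2.1
        have hpa := ha.2.1
        have h4p : pa < 4 * p := by
          apply lt_of_pow_lt_pow_left₀ 2 (by positivity)
          nlinarith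
        have hq4 : q ^ 4 < 4 * p := by
          have : 0 ≤ 32 * u ^ 4 * v ^ 4 := by positivity
          linarith
        by_contra hge
        push Not at hge
        have h8 : 2 ≤ q := by omega
        have h9 : 8 ≤ q ^ 3 := by
          calc (8:ℤ) = 2 ^ 3 := by norm_num
            _ ≤ q ^ 3 := by gcongr
        nlinarith
      rcases le_total p1 p2 with hle | hle
      · obtain ⟨k, hk⟩ := small Q.next r1 s1 p1 h1 he1 (by nlinarith)
        refine ⟨k - 1, ?_⟩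
        rw [pt_sub_one, ← hk, prev_next]
      · obtain ⟨k, hk⟩ := small Q.prev r2 s2 p2 h2 he2 (by nlinarith)
        refine ⟨k + 1, ?_⟩
        rw [pt_add_one, ← hk, next_prev]

/-- every point is a multiple of `(1,3)` -/
theorem mw (Q : Pt) : ∃ k : ℤ, Q = pt k := by
  obtain ⟨r, s, p, h, _⟩ := exists_rep Q
  exact mw_aux _ Q r s p h rfl

/-- adjacency in terms of coordinates -/
theorem adj_iff_x (P Q : Pt) :
    (P.x ^ 2 + Q.x ^ 2 - 8 * P.x ^ 2 * Q.x ^ 2 - 1) ^ 2 = 36 * P.x ^ 2 * Q.x ^ 2 ↔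
      (Q = P.next ∨ Q = P.prev ∨ Q = P.next.neg ∨ Q = P.prev.neg) := by
  have h0 := one_sub_ne P.x
  have h := P.h
  have hn : P.next.x = (3 * P.x + P.y) / (1 - 8 * P.x ^ 2) := rfl
  have hp : P.prev.x = (3 * P.x - P.y) / (1 - 8 * P.x ^ 2) := rfl
  have hn' : P.next.neg.x = -P.next.x := rfl
  have hp' : P.prev.neg.x = -P.prev.x := rfl
  have key : ∀ z : ℚ, (1 - 8 * P.x ^ 2) * ((z - P.next.x) * (z - P.prev.x)) =
      (1 - 8 * P.x ^ 2) * z ^ 2 - 6 * P.x * z + (P.x ^ 2 - 1) := by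
    intro z
    rw [hn, hp]
    generalize hd : 1 - 8 * P.x ^ 2 = d at h0 ⊢
    field_simp
    subst hd
    linear_combination (-1) * h
  have e1 : (P.x ^ 2 + Q.x ^ 2 - 8 * P.x ^ 2 * Q.x ^ 2 - 1) ^ 2 - 36 * P.x ^ 2 * Q.x ^ 2 =
      ((1 - 8 * P.x ^ 2) * ((Q.x - P.next.x) * (Q.x - P.prev.x))) *
      ((1 - 8 * P.x ^ 2) * ((-Q.x - P.next.x) * (-Q.x - P.prev.x))) := by
    rw [key, key]; ring
  constructor
  · intro h1
    have h2 : (P.x ^ 2 + Q.x ^ 2 - 8 * P.x ^ 2 * Q.x ^ 2 - 1) ^ 2 - 36 * P.x ^ 2 * Q.x ^ 2 = 0 :=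
      sub_eq_zero.2 h1
    rw [e1] at h2
    rcases mul_eq_zero.1 h2 with h3 | h3
    · rcases mul_eq_zero.1 ((mul_eq_zero.1 h3).resolve_left h0) with h4 | h4
      · exact Or.inl (ext_x (by linarith))
      · exact Or.inr (Or.inl (ext_x (by linarith)))
    · rcases mul_eq_zero.1 ((mul_eq_zero.1 h3).resolve_left h0) with h4 | h4
      · exact Or.inr (Or.inr (Or.inl (ext_x (by rw [hn']; linarith))))
      · exact Or.inr (Or.inr (Or.inr (ext_x (by rw [hp']; linarith))))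
  · intro h1
    apply sub_eq_zero.1
    rw [e1]
    rcases h1 with h1 | h1 | h1 | h1
    · rw [h1]; ring
    · rw [h1]; ring
    · have : Q.x = -P.next.x := by rw [h1, hn']
      rw [this]; ring
    · have : Q.x = -P.prev.x := by rw [h1, hp']
      rw [this]; ring

theorem adj_iff {P Q : Pt} {r s p r' s' p' : ℤ} (h : Rep P r s p) (h' : Rep Q r' s' p') :
    (s ^ 2 * r' ^ 2 + s' ^ 2 * r ^ 2 - 8 * s ^ 2 * s' ^ 2 - r ^ 2 * r' ^ 2) ^ 2 =
      36 * r ^ 2 * s ^ 2 * r' ^ 2 * s' ^ 2 ↔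
      (Q = P.next ∨ Q = P.prev ∨ Q = P.next.neg ∨ Q = P.prev.neg) := by
  rw [← adj_iff_x]
  obtain ⟨_, _, hr, hx, _⟩ := h
  obtain ⟨_, _, hr', hx', _⟩ := h'
  have hr1 : (r : ℚ) ≠ 0 := by exact_mod_cast hr
  have hr1' : (r' : ℚ) ≠ 0 := by exact_mod_cast hr'
  rw [hx, hx']
  have e : ((s / r : ℚ) ^ 2 + (s' / r' : ℚ) ^ 2 - 8 * (s / r : ℚ) ^ 2 * (s' / r' : ℚ) ^ 2 - 1) ^ 2 -
      36 * (s / r : ℚ) ^ 2 * (s' / r' : ℚ) ^ 2 =
      (((s : ℚ) ^ 2 * r' ^ 2 + s' ^ 2 * r ^ 2 - 8 * s ^ 2 * s' ^ 2 - r ^ 2 * r' ^ 2) ^ 2 -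
      36 * r ^ 2 * s ^ 2 * r' ^ 2 * s' ^ 2) / ((r : ℚ) ^ 4 * (r' : ℚ) ^ 4) := by
    field_simp
  constructor
  · intro h1
    apply sub_eq_zero.1
    rw [e]
    have h2 : (((s : ℚ) ^ 2 * r' ^ 2 + s' ^ 2 * r ^ 2 - 8 * s ^ 2 * s' ^ 2 - r ^ 2 * r' ^ 2) ^ 2 =
      36 * r ^ 2 * s ^ 2 * r' ^ 2 * s' ^ 2) := by exact_mod_cast h1
    rw [h2, sub_self, zero_div]
  · intro h1
    have h2 := sub_eq_zero.2 h1
    rw [e, div_eq_zero_iff] at h2
    have h3 : ((r : ℚ) ^ 4 * (r' : ℚ) ^ 4) ≠ 0 := by positivity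
    have h4 := sub_eq_zero.1 (h2.resolve_right h3)
    exact_mod_cast h4

/-- chosen representatives -/
theorem exists_seq : ∃ r s p : ℕ → ℤ, ∀ k : ℕ, Rep (pt k) (r k) (s k) (p k) := by
  have : ∀ k : ℕ, ∃ t : ℤ × ℤ × ℤ, Rep (pt k) t.1 t.2.1 t.2.2 := by
    intro k
    obtain ⟨r, s, p, h, _⟩ := exists_rep (pt k)
    exact ⟨(r, s, p), h⟩
  choose t ht using this
  exact ⟨fun k => (t k).1, fun k => (t k).2.1, fun k => (t k).2.2, ht⟩

theorem rep_O : Rep (pt ((0 : ℕ) : ℤ)) 1 0 1 := by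
  refine ⟨isCoprime_one_left, by norm_num, by norm_num, ?_, ?_⟩
  · simp [pt_zero, O]
  · simp [pt_zero, O]

theorem rep_one : Rep (pt ((1 : ℕ) : ℤ)) 1 1 3 := by
  have : pt ((1 : ℕ) : ℤ) = O.next := by
    rw [Nat.cast_one, ← zero_add (1:ℤ), pt_add_one, pt_zero]
  refine ⟨isCoprime_one_left, by norm_num, by norm_num, ?_, ?_⟩
  · rw [this]; simp [next, O]
  · rw [this]; simp [next, O]

/-- adjacency of pairs of naturals -/
def EAdj (a b a1 b1 : ℕ) : Prop :=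
  ((b:ℤ) ^ 2 * (a1:ℤ) ^ 2 + (b1:ℤ) ^ 2 * (a:ℤ) ^ 2 - 8 * (b:ℤ) ^ 2 * (b1:ℤ) ^ 2 -
    (a:ℤ) ^ 2 * (a1:ℤ) ^ 2) ^ 2 = 36 * (a:ℤ) ^ 2 * (b:ℤ) ^ 2 * (a1:ℤ) ^ 2 * (b1:ℤ) ^ 2

theorem ell_main : ∃ a b p : ℕ → ℕ, a 0 = 1 ∧ b 0 = 0 ∧ p 0 = 1 ∧ p 1 = 3 ∧
    (∀ k, p k ^ 2 = a k ^ 4 + 8 * b k ^ 4 ∧ Nat.Coprime (a k) (b k)) ∧
    (∀ a1 b1 p1 : ℕ, p1 ^ 2 = a1 ^ 4 + 8 * b1 ^ 4 → Nat.Coprime a1 b1 →
      ∃ k, a1 = a k ∧ b1 = b k ∧ p1 = p k) ∧
    (∀ j k, EAdj (a j) (b j) (a k) (b k) ↔ (j = k + 1 ∨ k = j + 1)) ∧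
    (∀ k, 9 * p (k + 1) ^ 2 ≤ p (k + 2) * p k ∧ p (k + 2) * p k ≤ 15 * p (k + 1) ^ 2) := by
  obtain ⟨r, s, p, hrep⟩ := exists_seq
  have hpos : ∀ k, 0 < p k := fun k => (hrep k).2.1
  have heqn : ∀ k, p k ^ 2 = r k ^ 4 + 8 * s k ^ 4 := fun k => (hrep k).eqn
  have h0 := rep_unique (hrep 0) rep_O
  have h1 := rep_unique (hrep 1) rep_one
  -- neighbours
  have hnb : ∀ k : ℕ, 9 * p (k + 1) ^ 2 ≤ p (k + 2) * p k ∧
      p (k + 2) * p k ≤ 15 * p (k + 1) ^ 2 := by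
    intro k
    obtain ⟨r1, s1, p1, r2, s2, p2, g1, g2, g3, _⟩ := rep_neighbours (hrep (k + 1))
    have e1 : (pt ((k + 1 : ℕ) : ℤ)).next = pt ((k + 2 : ℕ) : ℤ) := by
      rw [← pt_add_one]; congr 1
    have e2 : (pt ((k + 1 : ℕ) : ℤ)).prev = pt ((k : ℕ) : ℤ) := by
      rw [← pt_sub_one]; congr 1; push_cast; ring
    rw [e1] at g1
    rw [e2] at g2
    have f1 := (rep_unique (hrep (k + 2)) g1).2.2
    have f2 := (rep_unique (hrep k) g2).2.2
    rw [f1, f2, g3]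
    have := heqn (k + 1)
    constructor
    · have : 0 ≤ 32 * r (k + 1) ^ 2 * s (k + 1) ^ 2 := by positivity
      linarith
    · nlinarith [sq_nonneg (3 * r (k + 1) ^ 2 - 8 * s (k + 1) ^ 2), sq_nonneg (s (k + 1) ^ 2)]
  have hmono : StrictMono p := by
    apply strictMono_nat_of_lt_succ
    intro k
    induction k with
    | zero => rw [h0.2.2, zero_add, h1.2.2]; norm_num
    | succ k ih =>
      have h2 := (hnb k).1
      have h3 := hpos k
      have h4 := hpos (k + 1)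
      have h5 := hpos (k + 2)
      show p (k + 1) < p (k + 2)
      by_contra hle
      push Not at hle
      have h6 : p (k + 2) * p k ≤ p (k + 1) * p (k + 1) := by
        apply mul_le_mul hle ih.le h3.le h4.le
      nlinarith
  -- representation of integers multiples
  have habs : ∀ (m : ℤ) (r' s' p' : ℤ), Rep (pt m) r' s' p' →
      (r m.natAbs).natAbs = r'.natAbs ∧ (s m.natAbs).natAbs = s'.natAbs ∧ p m.natAbs = p' := by
    intro m r' s' p' hm
    rcases Int.natAbs_eq m with h2 | h2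
    · rw [h2] at hm
      exact rep_unique (hrep _) hm
    · rw [h2, pt_neg] at hm
      have h3 := rep_neg hm
      rw [Pt.neg_neg] at h3
      have h4 := rep_unique (hrep _) h3
      rwa [Int.natAbs_neg] at h4
  have hinj1 : ∀ m n : ℤ, pt m = pt n → m.natAbs = n.natAbs := by
    intro m n hmn
    apply hmono.injective
    obtain ⟨r', s', p', h2, _⟩ := exists_rep (pt m)
    have h3 := (habs m _ _ _ h2).2.2
    rw [hmn] at h2
    have h4 := (habs n _ _ _ h2).2.2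
    rw [h3, h4]
  have hinj : ∀ m n : ℤ, pt m = pt n → m = n := by
    intro m n hmn
    rcases Int.natAbs_eq_natAbs_iff.1 (hinj1 m n hmn) with h2 | h2
    · exact h2
    · have h3 : pt m = (pt m).neg := by
        rw [← pt_neg, h2, _root_.neg_neg, ← hmn, h2]
      have h4 : (pt m).x = -(pt m).x := congrArg Pt.x h3
      have h5 : (pt m).x = (pt 0).x := by
        rw [pt_zero]
        show (pt m).x = 0
        linarith
      have h6 := hinj1 _ _ (ext_x h5)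
      omega
  refine ⟨fun k => (r k).natAbs, fun k => (s k).natAbs, fun k => (p k).toNat, ?_, ?_, ?_, ?_, ?_,
    ?_, ?_, ?_⟩
  · show (r 0).natAbs = 1
    rw [h0.1]; rfl
  · show (s 0).natAbs = 0
    rw [h0.2.1]; rfl
  · show (p 0).toNat = 1
    rw [h0.2.2]; rfl
  · show (p 1).toNat = 3
    rw [h1.2.2]; rfl
  · intro k
    constructor
    · zify
      rw [Int.toNat_of_nonneg (hpos k).le, heqn k, Even.pow_abs (by decide), Even.pow_abs (by decide)]
    · exact Int.isCoprime_iff_gcd_eq_one.1 (hrep k).1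
  · intro a1 b1 p1 he hc
    have hp1 : 0 < p1 := by
      rcases Nat.eq_zero_or_pos p1 with h2 | h2
      · exfalso
        rw [h2] at he
        have h3 : a1 ^ 4 = 0 := by omega
        have h4 : b1 ^ 4 = 0 := by omega
        have h5 : a1 = 0 := by simpa using h3
        have h6 : b1 = 0 := by simpa using h4
        rw [h5, h6] at hc
        norm_num at hc
      · exact h2
    obtain ⟨P, hP⟩ := exists_pt (r := a1) (s := b1) (p := p1) (by exact_mod_cast he)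
      (Nat.isCoprime_iff_coprime.2 hc) (by exact_mod_cast hp1)
    obtain ⟨m, rfl⟩ := mw P
    obtain ⟨h2, h3, h4⟩ := habs m _ _ _ hP
    refine ⟨m.natAbs, ?_, ?_, ?_⟩
    · show a1 = (r m.natAbs).natAbs
      rw [h2]; rfl
    · show b1 = (s m.natAbs).natAbs
      rw [h3]; rfl
    · show p1 = (p m.natAbs).toNat
      rw [h4]; rfl
  · intro j k
    have h2 := adj_iff (hrep j) (hrep k)
    have h3 : EAdj (r j).natAbs (s j).natAbs (r k).natAbs (s k).natAbs ↔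
        (s j ^ 2 * r k ^ 2 + s k ^ 2 * r j ^ 2 - 8 * s j ^ 2 * s k ^ 2 - r j ^ 2 * r k ^ 2) ^ 2 =
      36 * r j ^ 2 * s j ^ 2 * r k ^ 2 * s k ^ 2 := by
      unfold EAdj
      simp only [Int.natCast_natAbs, sq_abs]
    show EAdj (r j).natAbs (s j).natAbs (r k).natAbs (s k).natAbs ↔ _
    rw [h3, h2]
    have e1 : (pt (j:ℤ)).next = pt ((j:ℤ) + 1) := (pt_add_one _).symm
    have e2 : (pt (j:ℤ)).prev = pt ((j:ℤ) - 1) := (pt_sub_one _).symm
    rw [e1, e2, ← pt_neg, ← pt_neg]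
    constructor
    · rintro (h4 | h4 | h4 | h4) <;> have h5 := hinj _ _ h4 <;> omega
    · rintro (h4 | h4)
      · right; left; congr 1; omega
      · left; congr 1; omega
  · intro k
    obtain ⟨h2, h3⟩ := hnb k
    constructor
    · zify
      show 9 * ((p (k + 1)).toNat : ℤ) ^ 2 ≤ ((p (k + 2)).toNat : ℤ) * ((p k).toNat : ℤ)
      rw [Int.toNat_of_nonneg (hpos k).le, Int.toNat_of_nonneg (hpos _).le,
        Int.toNat_of_nonneg (hpos _).le]
      exact h2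
    · zify
      show ((p (k + 2)).toNat : ℤ) * ((p k).toNat : ℤ) ≤ 15 * ((p (k + 1)).toNat : ℤ) ^ 2
      rw [Int.toNat_of_nonneg (hpos k).le, Int.toNat_of_nonneg (hpos _).le,
        Int.toNat_of_nonneg (hpos _).le]
      exact h3

end Crest.Agent.R323
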