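import Mathlib.NumberTheory.PellMatiyasevic
import Mathlib.Tactic

/-!
R323 (S0500), Part 2: exponentiation from a growth function of "Julia Robinson" type.

`V : ℕ → ℕ` with `2^t ≤ V t ≤ 2^(C*t^2 + C)`.  All statements are pure arithmetic.
-/

set_option autoImplicit false

namespace Crest.Agent.R323.PowJR

open Pell

/-- The first argument at which `V` is evaluated. -/
def t1 (K a c : ℕ) : ℕ := K + a * c + a + c

/-- The second argument at which `V` is evaluated. -/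
def t2 (C K a c : ℕ) : ℕ := (C * t1 K a c ^ 2 + C + 1) * c

/-- polynomial vs exponential growth -/
theorem exists_K (C : ℕ) : ∃ K : ℕ, 2 ≤ K ∧ ∀ t, K ≤ t →
    C * ((C * t ^ 2 + C + 1) * t) ^ 2 + C + 1 < 2 ^ t := by
  have key : ∀ D k : ℕ, ∃ K : ℕ, ∀ t, K ≤ t → D * t ^ k < 2 ^ t := by
    intro D k
    have h := (tendsto_pow_const_div_const_pow_of_one_lt k (r := (2 : ℝ)) (by norm_num))
    have h2 : ∀ᶠ n : ℕ in Filter.atTop, (n : ℝ) ^ k / 2 ^ n < 1 / ((D : ℝ) + 1) := by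
      apply h.eventually_lt_const
      positivity
    obtain ⟨K, hK⟩ := Filter.eventually_atTop.1 h2
    refine ⟨K, fun t ht => ?_⟩
    have h3 := hK t ht
    rw [div_lt_div_iff₀ (by positivity) (by positivity)] at h3
    have h4 : (D : ℝ) * t ^ k < 2 ^ t := by
      have : (0 : ℝ) ≤ (t : ℝ) ^ k := by positivity
      nlinarith
    exact_mod_cast h4
  obtain ⟨K, hK⟩ := key (C * (2 * C + 1) ^ 2 + C + 1) 6
  refine ⟨K + 2, by omega, fun t ht => lt_of_le_of_lt ?_ (hK t (by omega))⟩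
  have h1 : 1 ≤ t := by omega
  have h2 : C * t ^ 2 + C + 1 ≤ (2 * C + 1) * t ^ 2 := by
    have : 1 ≤ t ^ 2 := Nat.one_le_pow _ _ h1
    nlinarith
  have h3 : ((C * t ^ 2 + C + 1) * t) ^ 2 ≤ (2 * C + 1) ^ 2 * t ^ 6 := by
    calc ((C * t ^ 2 + C + 1) * t) ^ 2 ≤ ((2 * C + 1) * t ^ 2 * t) ^ 2 := by gcongr
      _ = (2 * C + 1) ^ 2 * t ^ 6 := by ring
  have h4 : 1 ≤ t ^ 6 := Nat.one_le_pow _ _ h1
  calc C * ((C * t ^ 2 + C + 1) * t) ^ 2 + C + 1 ≤ C * ((2 * C + 1) ^ 2 * t ^ 6) + C + 1 := by gcongr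
    _ ≤ C * ((2 * C + 1) ^ 2 * t ^ 6) + (C + 1) * t ^ 6 := by nlinarith
    _ = (C * (2 * C + 1) ^ 2 + C + 1) * t ^ 6 := by ring

/-- `K` is admissible for `C`. -/
def Good (C K : ℕ) : Prop := 2 ≤ K ∧ ∀ t, K ≤ t →
    C * ((C * t ^ 2 + C + 1) * t) ^ 2 + C + 1 < 2 ^ t

theorem le_two_pow (a : ℕ) : a ≤ 2 ^ a := (Nat.lt_two_pow_self).le

theorem pow_le_two_pow_mul (a c : ℕ) : a ^ c ≤ 2 ^ (a * c) := by
  calc a ^ c ≤ (2 ^ a) ^ c := Nat.pow_le_pow_left (le_two_pow a) c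
    _ = 2 ^ (a * c) := by rw [pow_mul]

section
variable {C K : ℕ} (hK : Good C K) {V : ℕ → ℕ} (hV1 : ∀ t, 2 ^ t ≤ V t)
  (hV2 : ∀ t, V t ≤ 2 ^ (C * t ^ 2 + C))

include hK

/-- `a^c + 2 ≤ 2^t1`. -/
theorem pow_add_two_le (a c : ℕ) : a ^ c + 2 ≤ 2 ^ t1 K a c := by
  have h2K : 2 ≤ K := hK.1
  have h1 : a ^ c ≤ 2 ^ (a * c) := pow_le_two_pow_mul a c
  have h3 : 2 ^ (a * c + 2) ≤ 2 ^ t1 K a c :=
    Nat.pow_le_pow_right (by norm_num) (by unfold t1; omega)
  have h4 : 1 ≤ 2 ^ (a * c) := Nat.one_le_two_pow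
  have h5 : 2 ^ (a * c + 2) = 4 * 2 ^ (a * c) := by ring
  omega

theorem a_add_two_le (a c : ℕ) : a + 2 ≤ 2 ^ t1 K a c := by
  have h2K : 2 ≤ K := hK.1
  have h1 : a ≤ 2 ^ a := le_two_pow a
  have h3 : 2 ^ (a + 2) ≤ 2 ^ t1 K a c :=
    Nat.pow_le_pow_right (by norm_num) (by unfold t1; omega)
  have h4 : 1 ≤ 2 ^ a := Nat.one_le_two_pow
  have h5 : 2 ^ (a + 2) = 4 * 2 ^ a := by ring
  omega

theorem c_add_two_le (a c : ℕ) : c + 2 ≤ 2 ^ t1 K a c := by
  have h2K : 2 ≤ K := hK.1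
  have h1 : c ≤ 2 ^ c := le_two_pow c
  have h3 : 2 ^ (c + 2) ≤ 2 ^ t1 K a c :=
    Nat.pow_le_pow_right (by norm_num) (by unfold t1; omega)
  have h4 : 1 ≤ 2 ^ c := Nat.one_le_two_pow
  have h5 : 2 ^ (c + 2) = 4 * 2 ^ c := by ring
  omega

include hV1 hV2

/-- The index bound coming from the size bound. -/
theorem index_lt (a c : ℕ) (n : ℕ) (hb : 1 < V (t1 K a c))
    (hx : xn hb n ≤ V (t2 C K a c)) : n + 1 < V (t1 K a c) := by
  set t := t1 K a c with ht
  have h2K : 2 ≤ K := hK.1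
  have hKt : K ≤ t := by rw [ht]; unfold t1; omega
  have hct : c ≤ t := by rw [ht]; unfold t1; omega
  have h1 : (V t) ^ n ≤ xn hb n := xn_ge_a_pow hb n
  have h2 : 2 ^ (t * n) ≤ 2 ^ (C * (t2 C K a c) ^ 2 + C) := by
    calc 2 ^ (t * n) = (2 ^ t) ^ n := by rw [pow_mul]
      _ ≤ (V t) ^ n := Nat.pow_le_pow_left (hV1 t) n
      _ ≤ xn hb n := h1
      _ ≤ V (t2 C K a c) := hx
      _ ≤ _ := hV2 _
  have h3 : t * n ≤ C * (t2 C K a c) ^ 2 + C := (Nat.pow_le_pow_iff_right (by norm_num)).1 h2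
  have h4 : n ≤ t * n := by nlinarith
  have h5 : t2 C K a c ≤ (C * t ^ 2 + C + 1) * t := by
    unfold t2; rw [← ht]; gcongr
  have h6 : C * (t2 C K a c) ^ 2 ≤ C * ((C * t ^ 2 + C + 1) * t) ^ 2 := by gcongr
  have h7 := hK.2 t hKt
  have h8 := hV1 t
  omega

end

/-- `x_c(b) ≤ (2b)^c`. -/
theorem xn_le {b : ℕ} (hb : 1 < b) (c : ℕ) : xn hb c ≤ (2 * b) ^ c := by
  induction c using Nat.twoStepInduction with
  | zero => simp
  | one => simp; omega
  | more n _ ih =>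
    have h := xn_succ_succ hb n
    calc xn hb (n + 2) ≤ 2 * b * xn hb (n + 1) := by omega
      _ ≤ 2 * b * (2 * b) ^ (n + 1) := by gcongr
      _ = (2 * b) ^ (n + 2) := by ring

theorem pell_eq' {b : ℕ} (hb : 1 < b) (n : ℕ) :
    xn hb n * xn hb n + yn hb n * yn hb n = b * b * (yn hb n * yn hb n) + 1 := by
  have h : xn hb n * xn hb n - (b * b - 1) * yn hb n * yn hb n = 1 := pell_eq hb n
  have h1 : 1 ≤ b * b := by nlinarith
  obtain ⟨e, he⟩ := Nat.exists_eq_add_of_le h1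
  have h2 : b * b - 1 = e := by omega
  rw [h2] at h
  rw [he]
  have h3 : xn hb n * xn hb n = e * yn hb n * yn hb n + 1 := by omega
  rw [h3]; ring

theorem eq_pell' {b x y : ℕ} (hb : 1 < b) (h : x * x + y * y = b * b * (y * y) + 1) :
    ∃ n, x = xn hb n ∧ y = yn hb n := by
  apply eq_pell hb
  show x * x - (b * b - 1) * y * y = 1
  have h1 : 1 ≤ b * b := by nlinarith
  obtain ⟨e, he⟩ := Nat.exists_eq_add_of_le h1
  have h2 : b * b - 1 = e := by omega
  rw [h2]
  rw [he] at h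
  have h3 : x * x = e * y * y + 1 := by nlinarith
  omega

/-- The polynomial system certifying `z = a^c`, in nonnegative integers. -/
def Sys (a c b M z x y q s r u : ℕ) : Prop :=
  x * x + y * y = b * b * (y * y) + 1 ∧
  y + q = c + b * q ∧
  M = x + s ∧
  z + y * b + r * (2 * a * b) = x + y * a + r * (a * a + 1) ∧
  z + u + 2 + a * a = 2 * a * b

/-- MAIN ARITHMETIC LEMMA: the system has exactly one solution, and `z = a^c` in it. -/
theorem sys_unique {C K : ℕ} (hK : Good C K) {V : ℕ → ℕ} (hV1 : ∀ t, 2 ^ t ≤ V t)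
    (hV2 : ∀ t, V t ≤ 2 ^ (C * t ^ 2 + C)) (a c : ℕ) (ha : 1 ≤ a) :
    ∃ X Y Q S R U : ℕ, ∀ z x y q s r u : ℕ,
      Sys a c (V (t1 K a c)) (V (t2 C K a c)) z x y q s r u ↔
        (z = a ^ c ∧ x = X ∧ y = Y ∧ q = Q ∧ s = S ∧ r = R ∧ u = U) := by
  have e1 := pow_add_two_le hK a c
  have e2 := a_add_two_le hK a c
  have e3 := c_add_two_le hK a c
  have e4 := hV1 (t1 K a c)
  set b := V (t1 K a c) with hbdef
  set M := V (t2 C K a c) with hMdef
  have hb : 1 < b := by omega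
  -- bounds
  have hab : a + 2 ≤ b := by omega
  have hcb : c + 2 ≤ b := by omega
  have hzb : a ^ c + 2 ≤ b := by omega
  have hxM : xn hb c ≤ M := by
    calc xn hb c ≤ (2 * b) ^ c := xn_le hb c
      _ ≤ (2 * 2 ^ (C * t1 K a c ^ 2 + C)) ^ c := by
          have := hV2 (t1 K a c)
          gcongr
      _ = 2 ^ t2 C K a c := by
          unfold t2
          rw [pow_mul, ← pow_succ', Nat.add_right_comm]
      _ ≤ M := hV1 _
  -- congruence for y
  have hyc : ∃ Q, yn hb c + Q = c + b * Q := by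
    have h1 : yn hb c ≡ c [MOD b - 1] := yn_modEq_a_sub_one hb c
    have h2 : c ≤ yn hb c := yn_ge_n hb c
    have h3 : (b - 1) ∣ yn hb c - c := (Nat.modEq_iff_dvd' h2).1 h1.symm
    obtain ⟨Q, hQ⟩ := h3
    refine ⟨Q, ?_⟩
    generalize yn hb c = Y at *
    obtain ⟨e, he⟩ := Nat.exists_eq_add_of_le (show 1 ≤ b by omega)
    have h4 : b - 1 = e := by omega
    rw [h4] at hQ
    rw [he]
    have : Y = c + e * Q := by omega
    rw [this]; ring
  obtain ⟨Q, hQ⟩ := hyc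
  -- the modulus
  obtain ⟨m, hm⟩ : ∃ m : ℤ, m = 2 * (a : ℤ) * b - a * a - 1 := ⟨_, rfl⟩
  have haZ : (1 : ℤ) ≤ a := by exact_mod_cast ha
  have habZ : (a : ℤ) + 2 ≤ b := by exact_mod_cast hab
  have hzbZ : (a : ℤ) ^ c + 2 ≤ b := by exact_mod_cast hzb
  have hbm : (b : ℤ) ≤ m + 1 := by rw [hm]; nlinarith
  have hmz : (a : ℤ) ^ c < m := by omega
  have hz0 : (0 : ℤ) ≤ (a : ℤ) ^ c := by positivity
  -- the key congruence over ℤ
  have hdvd : m ∣ (yn hb c : ℤ) * (b - a) + (a : ℤ) ^ c - xn hb c := by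
    have := x_sub_y_dvd_pow hb a c
    rw [hm]
    have h2 : (2 * (a : ℤ) * b - a * a - 1) = (2 * (b : ℤ) * a - a * a - 1) := by ring
    rw [h2]
    simpa [xz, yz] using this
  have hxy : (yn hb c : ℤ) * (b - a) ≤ xn hb c := by
    have h1 := pell_eq' hb c
    have h1Z : (xn hb c : ℤ) * xn hb c + yn hb c * yn hb c = b * b * (yn hb c * yn hb c) + 1 := by
      exact_mod_cast h1
    have hx0 : (0 : ℤ) ≤ xn hb c := by positivity
    have hy0 : (0 : ℤ) ≤ yn hb c := by positivity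
    generalize (xn hb c : ℤ) = X at *
    generalize (yn hb c : ℤ) = Y at *
    by_contra hcon
    push Not at hcon
    have h2 : Y * (b - a) ≤ Y * (b - 1) := by nlinarith
    have h3 : X < Y * (b - 1) := by linarith
    have h4 : X * X < (Y * (b - 1)) * (Y * (b - 1)) := by nlinarith
    have h5 : (Y * (b - 1)) * (Y * (b - 1)) ≤ b * b * (Y * Y) - Y * Y := by
      have : 0 ≤ Y * Y * (2 * (b - 1)) := by
        have : (0 : ℤ) ≤ b - 1 := by linarith
        positivity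
      nlinarith
    linarith
  obtain ⟨R', hR'⟩ := hdvd
  have hR0 : 0 ≤ -R' := by
    by_contra hcon
    have h1 : 1 ≤ R' := by omega
    have h2 : m * 1 ≤ m * R' := by
      apply mul_le_mul_of_nonneg_left h1; omega
    linarith
  obtain ⟨R, hR⟩ := Int.eq_ofNat_of_zero_le hR0
  have hRR : (xn hb c : ℤ) = yn hb c * (b - a) + (a : ℤ) ^ c + m * R := by
    rw [← hR]; linarith
  obtain ⟨U, hU⟩ := Int.eq_ofNat_of_zero_le (show 0 ≤ m - 1 - (a : ℤ) ^ c by omega)
  obtain ⟨S, hS⟩ := Nat.exists_eq_add_of_le hxM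
  refine ⟨xn hb c, yn hb c, Q, S, R, U, fun z x y q s r u => ⟨?_, ?_⟩⟩
  · rintro ⟨h1, h2, h3, h4, h5⟩
    obtain ⟨n, rfl, rfl⟩ := eq_pell' hb h1
    have hxn : xn hb n ≤ M := by omega
    have hn : n + 1 < b := index_lt hK hV1 hV2 a c n hb hxn
    have hnc : n = c := by
      have g1 : yn hb n ≡ n [MOD b - 1] := yn_modEq_a_sub_one hb n
      have g2 : yn hb n ≡ c [MOD b - 1] := by
        have : yn hb n = c + (b - 1) * q := by
          generalize yn hb n = Y at *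
          obtain ⟨e, he⟩ := Nat.exists_eq_add_of_le (show 1 ≤ b by omega)
          have h4 : b - 1 = e := by omega
          rw [h4]
          rw [he] at h2
          have h5 : (1 + e) * q = q + e * q := by ring
          rw [h5] at h2
          omega
        rw [this]
        exact Nat.modEq_iff_dvd.2 ⟨-(q : ℤ), by push_cast; ring⟩
      have g3 : n ≡ c [MOD b - 1] := g1.symm.trans g2
      exact Nat.ModEq.eq_of_lt_of_lt g3 (by omega) (by omega)
    subst hnc
    have hq : q = Q := by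
      have g : ((b : ℤ) - 1) * (q - Q) = 0 := by
        have h2Z : (yn hb n : ℤ) + q = n + b * q := by exact_mod_cast h2
        have hQZ : (yn hb n : ℤ) + Q = n + b * Q := by exact_mod_cast hQ
        linear_combination hQZ - h2Z
      rcases mul_eq_zero.1 g with g | g
      · omega
      · omega
    have hs : s = S := by omega
    have h4Z : (z : ℤ) + yn hb n * b + r * (2 * a * b) = xn hb n + yn hb n * a + r * (a * a + 1) := by
      exact_mod_cast h4
    have h5Z : (z : ℤ) + u + 2 + a * a = 2 * a * b := by exact_mod_cast h5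
    have h6 : (z : ℤ) + m * r = (a : ℤ) ^ n + m * R := by
      rw [hm] at hRR ⊢
      linear_combination h4Z + hRR
    have hzm : (z : ℤ) < m := by omega
    have hzr : r = R ∧ (z : ℤ) = (a : ℤ) ^ n := by
      have hmpos : 0 < m := by omega
      have k1 : ((z : ℤ) + m * r) / m = r := by
        rw [Int.add_mul_ediv_left _ _ hmpos.ne', Int.ediv_eq_zero_of_lt (by omega) hzm, zero_add]
      have k2 : ((a : ℤ) ^ n + m * R) / m = R := by
        rw [Int.add_mul_ediv_left _ _ hmpos.ne', Int.ediv_eq_zero_of_lt hz0 hmz, zero_add]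
      have k3 : (r : ℤ) = R := by rw [← k1, ← k2, h6]
      constructor
      · exact_mod_cast k3
      · rw [k3] at h6; linarith
    refine ⟨by exact_mod_cast hzr.2, rfl, rfl, hq, hs, hzr.1, ?_⟩
    have : (u : ℤ) = U := by
      rw [← hU, ← hzr.2]
      omega
    exact_mod_cast this
  · rintro ⟨rfl, rfl, rfl, rfl, rfl, rfl, rfl⟩
    refine ⟨pell_eq' hb c, hQ, hS, ?_, ?_⟩
    · have : ((a ^ c : ℕ) : ℤ) + yn hb c * b + r * (2 * a * b)
          = xn hb c + yn hb c * a + r * (a * a + 1) := by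
        push_cast
        rw [hm] at hRR
        linear_combination -hRR
      exact_mod_cast this
    · have : ((a ^ c : ℕ) : ℤ) + u + 2 + a * a = 2 * a * b := by
        push_cast
        rw [hm] at hU
        linear_combination -hU
      exact_mod_cast this

end Crest.Agent.R323.PowJR
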