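import Mathlib.NumberTheory.PellMatiyasevic
import Mathlib.Tactic

/-!
R323 (S0500), Part 2: `a^n` as an explicit composition of `Pell.xn`, `Pell.yn` (parameter 2)
and elementary arithmetic.
-/

set_option autoImplicit false

namespace Crest.Agent.R323.PowPell

open Pell

/-- Pell sequences at a composite index. -/
theorem xy_mul {b₀ : ℕ} (h : 1 < b₀) (t : ℕ) (hb : 1 < xn h t) (n : ℕ) :
    xn h (t * n) = xn hb n ∧ yn h (t * n) = yn hb n * yn h t := by
  induction n with
  | zero => simp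
  | succ n ih =>
    obtain ⟨ih1, ih2⟩ := ih
    have e1 : xn h (t * n + t) = xn h (t * n) * xn h t + (b₀ * b₀ - 1) * yn h (t * n) * yn h t :=
      xn_add h (t * n) t
    have e2 := yn_add h (t * n) t
    have e3 : xn hb (n + 1) = xn hb n * xn h t + (xn h t * xn h t - 1) * yn hb n := xn_succ hb n
    have e4 := yn_succ hb n
    have e5 : xn h t * xn h t - (b₀ * b₀ - 1) * yn h t * yn h t = 1 := pell_eq h t
    have e6 : xn h t * xn h t - 1 = (b₀ * b₀ - 1) * yn h t * yn h t := by omega
    rw [Nat.mul_succ, e1, e2, e3, e4, e6, ih1, ih2]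
    constructor
    · ring
    · ring

/-- `t(a,n)` -/
def tt (a n : ℕ) : ℕ := a * n + a + n + 2

theorem two_pow_le (t : ℕ) : 2 ^ t ≤ xn one_lt_two t := xn_ge_a_pow _ t

theorem key_lt {a n b : ℕ} (hab : a + 2 ≤ b) (hz : a ^ n + 2 ≤ b) (ha : 1 ≤ a) :
    a ^ n < 2 * a * b - a * a - 1 := by
  have h1 : a * a + 2 * a ≤ a * b := by nlinarith
  have h2 : b ≤ a * b := by nlinarith
  have h3 : 2 * a * b = a * b + a * b := by ring
  omega

/-- the Pell formula for powers -/
theorem pow_formula {a n b : ℕ} (hb : 1 < b) (ha : 1 ≤ a) (hab : a + 2 ≤ b) (hz : a ^ n + 2 ≤ b) :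
    (xn hb n - (b - a) * yn hb n) % (2 * a * b - a * a - 1) = a ^ n := by
  have hlt := key_lt hab hz ha
  have h1 : (b - a) * yn hb n ≤ xn hb n := by
    have e5 : xn hb n * xn hb n - (b * b - 1) * yn hb n * yn hb n = 1 := pell_eq hb n
    have e6 : (b - a) * yn hb n * ((b - a) * yn hb n) ≤ xn hb n * xn hb n := by
      have h7 : (b - a) * (b - a) ≤ b * b - 1 := by
        obtain ⟨e, he⟩ := Nat.exists_eq_add_of_le (show a ≤ b by omega)
        have h8 : b - a = e := by omega
        rw [h8, he]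
        have h9 : (a + e) * (a + e) = a * a + 2 * a * e + e * e := by ring
        have h10 : 1 ≤ a * a := by nlinarith
        rw [h9]
        have h11 : 0 ≤ 2 * a * e := Nat.zero_le _
        omega
      calc (b - a) * yn hb n * ((b - a) * yn hb n) = (b - a) * (b - a) * (yn hb n * yn hb n) := by ring
        _ ≤ (b * b - 1) * (yn hb n * yn hb n) := by gcongr
        _ = (b * b - 1) * yn hb n * yn hb n := by ring
        _ ≤ _ := by omega
    exact Nat.mul_self_le_mul_self_iff.1 e6
  obtain ⟨D, hD⟩ := Nat.exists_eq_add_of_le h1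
  have hD' : xn hb n - (b - a) * yn hb n = D := by omega
  rw [hD']
  have hdvd := x_sub_y_dvd_pow hb a n
  have hle : a * a + 1 ≤ 2 * a * b := by
    have h1 : a * a + 2 * a ≤ a * b := by nlinarith
    have h3 : 2 * a * b = a * b + a * b := by ring
    omega
  have hm : ((2 * a * b - a * a - 1 : ℕ) : ℤ) = 2 * (b : ℤ) * a - a * a - 1 := by
    have : 2 * a * b - a * a - 1 = 2 * a * b - (a * a + 1) := by omega
    rw [this]
    push_cast [hle]
    ring
  have hmod : a ^ n ≡ D [MOD (2 * a * b - a * a - 1)] := by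
    apply (Nat.modEq_iff_dvd).2
    rw [hm]
    have hxD : (xn hb n : ℤ) = (b - a) * yn hb n + D := by
      have : ((b - a : ℕ) : ℤ) = (b : ℤ) - a := by
        have : a ≤ b := by omega
        push_cast [this]; ring
      rw [← this]
      exact_mod_cast hD
    have h2 : ((D : ℕ) : ℤ) - ((a ^ n : ℕ) : ℤ) = -(yz hb n * (b - a) + ((a ^ n : ℕ) : ℤ) - xz hb n) := by
      simp only [xz, yz]
      rw [hxD]; ring
    rw [h2]
    exact (dvd_neg).2 hdvd
  have := hmod.symm
  unfold Nat.ModEq at this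
  rw [this, Nat.mod_eq_of_lt hlt]

/-- `a^n` through Pell numbers with parameter `2`, for `a ≥ 1`. -/
theorem pow_eq_of_pos (a n : ℕ) (ha : 1 ≤ a) :
    a ^ n = (xn one_lt_two (tt a n * n) - (xn one_lt_two (tt a n) - a) *
      (yn one_lt_two (tt a n * n) / yn one_lt_two (tt a n))) %
      (2 * a * xn one_lt_two (tt a n) - a * a - 1) := by
  have h0 := two_pow_le (tt a n)
  have hz : a ^ n + 2 ≤ 2 ^ tt a n := by
    have h1 : a ^ n ≤ 2 ^ (a * n) := by
      calc a ^ n ≤ (2 ^ a) ^ n := Nat.pow_le_pow_left (Nat.lt_two_pow_self).le n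
        _ = 2 ^ (a * n) := by rw [pow_mul]
    have h3 : 2 ^ (a * n + 2) ≤ 2 ^ tt a n :=
      Nat.pow_le_pow_right (by norm_num) (by unfold tt; omega)
    have h4 : 1 ≤ 2 ^ (a * n) := Nat.one_le_two_pow
    have h5 : 2 ^ (a * n + 2) = 4 * 2 ^ (a * n) := by ring
    omega
  have hab : a + 2 ≤ 2 ^ tt a n := by
    have h1 : a ≤ 2 ^ a := (Nat.lt_two_pow_self).le
    have h3 : 2 ^ (a + 2) ≤ 2 ^ tt a n :=
      Nat.pow_le_pow_right (by norm_num) (by unfold tt; omega)
    have h4 : 1 ≤ 2 ^ a := Nat.one_le_two_pow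
    have h5 : 2 ^ (a + 2) = 4 * 2 ^ a := by ring
    omega
  have hb : 1 < xn one_lt_two (tt a n) := by omega
  obtain ⟨e1, e2⟩ := xy_mul one_lt_two (tt a n) hb n
  have hy : 0 < yn one_lt_two (tt a n) := by
    have := yn_ge_n one_lt_two (tt a n)
    have : 0 < tt a n := by unfold tt; omega
    omega
  rw [e1, e2, Nat.mul_div_cancel _ hy]
  rw [pow_formula hb ha (by omega) (by omega)]

/-- uniform formula, including `a = 0`. -/
theorem pow_eq (a n : ℕ) :
    a ^ n = (1 - a) * (1 - n) + (1 - (1 - a)) *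
      ((xn one_lt_two (tt a n * n) - (xn one_lt_two (tt a n) - a) *
      (yn one_lt_two (tt a n * n) / yn one_lt_two (tt a n))) %
      (2 * a * xn one_lt_two (tt a n) - a * a - 1)) := by
  rcases Nat.eq_zero_or_pos a with rfl | ha
  · rcases Nat.eq_zero_or_pos n with rfl | hn
    · simp
    · have h1 : 1 - n = 0 := by omega
      simp [h1, hn.ne']
  · have h1 : 1 - a = 0 := by omega
    rw [h1, ← pow_eq_of_pos a n ha]
    simp

end Crest.Agent.R323.PowPell
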