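import Crest.Agent.R323.SFFun
import Crest.Agent.R323.PowOfPell
import Crest.Agent.R323.PowOfJR

/-!
R323 (S0500), Part 2: the power function is single-fold Diophantine as soon as the Pell sequences
`m ↦ x_m(2)`, `m ↦ y_m(2)` are (or as soon as some Julia-Robinson growth function is).
-/

set_option autoImplicit false

namespace Crest.Agent.R323

/-- Power from the Pell sequences with parameter `2`. -/
theorem SF2_pow_of_pell (hx : SF1 (Pell.xn one_lt_two)) (hy : SF1 (Pell.yn one_lt_two)) :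
    SF2 (fun a n => a ^ n) := by
  refine SFF.congr (f := fun v : Fin 2 → ℕ => (1 - v 0) * (1 - v 1) + (1 - (1 - v 0)) *
      ((Pell.xn one_lt_two (PowPell.tt (v 0) (v 1) * v 1) -
        (Pell.xn one_lt_two (PowPell.tt (v 0) (v 1)) - v 0) *
      (Pell.yn one_lt_two (PowPell.tt (v 0) (v 1) * v 1) /
        Pell.yn one_lt_two (PowPell.tt (v 0) (v 1)))) %
      (2 * v 0 * Pell.xn one_lt_two (PowPell.tt (v 0) (v 1)) - v 0 * v 0 - 1))) ?_
    (fun v => PowPell.pow_eq (v 0) (v 1))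
  have ht : SFF (fun v : Fin 2 → ℕ => PowPell.tt (v 0) (v 1)) := by
    unfold PowPell.tt
    sff
  have h1 : SFF (fun v : Fin 2 → ℕ => Pell.xn one_lt_two (PowPell.tt (v 0) (v 1))) := hx.comp ht
  have h2 : SFF (fun v : Fin 2 → ℕ => Pell.yn one_lt_two (PowPell.tt (v 0) (v 1))) := hy.comp ht
  have ht' : SFF (fun v : Fin 2 → ℕ => PowPell.tt (v 0) (v 1) * v 1) := ht.mul (SFF.proj _)
  have h3 : SFF (fun v : Fin 2 → ℕ => Pell.xn one_lt_two (PowPell.tt (v 0) (v 1) * v 1)) :=
    hx.comp ht'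
  have h4 : SFF (fun v : Fin 2 → ℕ => Pell.yn one_lt_two (PowPell.tt (v 0) (v 1) * v 1)) :=
    hy.comp ht'
  sff

end Crest.Agent.R323
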