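import Crest.Agent.R323.Assemble
import Crest.Agent.R323.BAll
import Crest.Agent.R323.PowSF
import Crest.Agent.R323.ChooseSF

/-!
# Final assembly: S0500 from the single-fold graphs of the Pell sequences with parameter `2`
-/

set_option autoImplicit false

namespace Crest.Agent.R323

theorem powH_of_pell (hx : SF1 (Pell.xn one_lt_two)) (hy : SF1 (Pell.yn one_lt_two)) : PowH :=
  SF2_pow_of_pell hx hy

theorem ballH_of_powH (hp : PowH) : BallH := by
  intro ι _ q hq
  exact SFP.ballOf hp (SF2.land_of_pow hp) hq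

/-- the statement of S0500, from the single-fold graph of the power function -/
theorem final_of_powH (hp : PowH) (n : ℕ) (S : Set (Fin n → ℕ)) (hS : REPred fun a => a ∈ S) :
    ∃ m : ℕ, 1 ≤ m ∧ ∃ P : MvPolynomial (Fin n ⊕ Fin m) ℤ, ∀ a : Fin n → ℕ,
      (a ∈ S → ∃! w : Fin m → ℕ,
        MvPolynomial.eval (Sum.elim (fun i => (a i : ℤ)) (fun j => (w j : ℤ))) P = 0) ∧
      (a ∉ S → ∀ w : Fin m → ℕ,
        MvPolynomial.eval (Sum.elim (fun i => (a i : ℤ)) (fun j => (w j : ℤ))) P ≠ 0) :=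
  final hp (ballH_of_powH hp) n S hS

/-- the statement of S0500, from the single-fold graphs of the Pell sequences -/
theorem main_of_pell (hx : SF1 (Pell.xn one_lt_two)) (hy : SF1 (Pell.yn one_lt_two))
    (n : ℕ) (S : Set (Fin n → ℕ)) (hS : REPred fun a => a ∈ S) :
    ∃ m : ℕ, 1 ≤ m ∧ ∃ P : MvPolynomial (Fin n ⊕ Fin m) ℤ, ∀ a : Fin n → ℕ,
      (a ∈ S → ∃! w : Fin m → ℕ,
        MvPolynomial.eval (Sum.elim (fun i => (a i : ℤ)) (fun j => (w j : ℤ))) P = 0) ∧
      (a ∉ S → ∀ w : Fin m → ℕ,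
        MvPolynomial.eval (Sum.elim (fun i => (a i : ℤ)) (fun j => (w j : ℤ))) P ≠ 0) :=
  final (powH_of_pell hx hy) (ballH_of_powH (powH_of_pell hx hy)) n S hS

end Crest.Agent.R323
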