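import Crest.Agent.R323.Pt

/-!
# Integral representatives and heights of points of `y^2 = 1 + 8 x^4`
-/

set_option autoImplicit false

namespace Crest.Agent.R323

open Pt

/-- `(r,s,p)` is a reduced integral representative of the point `P` -/
def Rep (P : Pt) (r s p : ℤ) : Prop :=
  IsCoprime r s ∧ 0 < p ∧ r ≠ 0 ∧ P.x = (s : ℚ) / r ∧ P.y = (p : ℚ) / (r : ℚ) ^ 2

theorem Rep.eqn {P : Pt} {r s p : ℤ} (h : Rep P r s p) : p ^ 2 = r ^ 4 + 8 * s ^ 4 := by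
  obtain ⟨_, _, hr, hx, hy⟩ := h
  have hP := P.h
  rw [hx, hy] at hP
  have hr' : (r : ℚ) ≠ 0 := by exact_mod_cast hr
  field_simp at hP
  exact_mod_cast hP

/-- parity of `r` -/
theorem odd_r {r s p : ℤ} (h : p ^ 2 = r ^ 4 + 8 * s ^ 4) (hc : IsCoprime r s) : Odd r := by
  by_contra hr
  rw [Int.not_odd_iff_even] at hr
  obtain ⟨t, rfl⟩ := hr
  have hs : Odd s := by
    by_contra hs
    rw [Int.not_odd_iff_even] at hs
    obtain ⟨u, rfl⟩ := hs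
    have : IsCoprime (2 * t) (2 * u) := by
      rw [two_mul, two_mul]; exact hc
    have h2 : IsUnit (2 : ℤ) := this.isUnit_of_dvd' (dvd_mul_right _ _) (dvd_mul_right _ _)
    rw [Int.isUnit_iff] at h2
    omega
  -- p^2 = 16 t^4 + 8 s^4
  obtain ⟨u, rfl⟩ := hs
  have hp : Even p := by
    by_contra hp
    rw [Int.not_even_iff_odd] at hp
    obtain ⟨v, rfl⟩ := hp
    have : (2 * v + 1) ^ 2 = 2 * (2 * v ^ 2 + 2 * v) + 1 := by ring
    have h3 : (t + t) ^ 4 + 8 * (2 * u + 1) ^ 4 = 2 * (8 * t ^ 4 + 4 * (2 * u + 1) ^ 4) := by ring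
    omega
  obtain ⟨v, rfl⟩ := hp
  have h4 : v ^ 2 = 2 * (2 * t ^ 4 + (2 * u + 1) ^ 4) := by nlinarith
  have hv : Even v := by
    by_contra hp
    rw [Int.not_even_iff_odd] at hp
    obtain ⟨w, rfl⟩ := hp
    have : (2 * w + 1) ^ 2 = 2 * (2 * w ^ 2 + 2 * w) + 1 := by ring
    omega
  obtain ⟨w, rfl⟩ := hv
  have h5 : 2 * w ^ 2 = 2 * t ^ 4 + (2 * u + 1) ^ 4 := by nlinarith
  have h6 : (2 * u + 1) ^ 4 = 2 * (8 * u ^ 4 + 16 * u ^ 3 + 12 * u ^ 2 + 4 * u) + 1 := by ring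
  omega

theorem odd_p {r s p : ℤ} (h : p ^ 2 = r ^ 4 + 8 * s ^ 4) (hc : IsCoprime r s) : Odd p := by
  have hr := odd_r h hc
  by_contra hp
  rw [Int.not_odd_iff_even] at hp
  have h1 : Odd (p ^ 2) := by
    rw [h]
    apply Odd.add_even (hr.pow)
    exact ⟨4 * s ^ 4, by ring⟩
  have h2 : Even (p ^ 2) := hp.pow_of_ne_zero (by norm_num)
  exact (Int.not_even_iff_odd.2 h1) h2

/-- no common prime factor of the three quantities -/
theorem gcd_aux {r s p : ℤ} (h : p ^ 2 = r ^ 4 + 8 * s ^ 4) (hc : IsCoprime r s) :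
    Nat.Coprime (Int.gcd (p + 3 * r * s) (r ^ 2 - 8 * s ^ 2))
      (Int.gcd (p - 3 * r * s) (r ^ 2 - 8 * s ^ 2)) := by
  rw [Nat.coprime_iff_gcd_eq_one]
  by_contra hne
  obtain ⟨q, hq, hqd⟩ := Nat.exists_prime_and_dvd hne
  have hq1 : (q : ℤ) ∣ p + 3 * r * s :=
    (Int.natCast_dvd_natCast.2 (hqd.trans (Nat.gcd_dvd_left _ _))).trans (Int.gcd_dvd_left _ _)
  have hq2 : (q : ℤ) ∣ r ^ 2 - 8 * s ^ 2 :=
    (Int.natCast_dvd_natCast.2 (hqd.trans (Nat.gcd_dvd_left _ _))).trans (Int.gcd_dvd_right _ _)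
  have hq3 : (q : ℤ) ∣ p - 3 * r * s :=
    (Int.natCast_dvd_natCast.2 (hqd.trans (Nat.gcd_dvd_right _ _))).trans (Int.gcd_dvd_left _ _)
  have hqp : Prime (q : ℤ) := Nat.prime_iff_prime_int.1 hq
  have hodd := odd_r h hc
  -- q ≠ 2
  have hq2' : ¬ (q : ℤ) ∣ 2 := by
    intro h2
    have hq' : q ∣ 2 := by exact_mod_cast h2
    have : q = 2 := (Nat.prime_dvd_prime_iff_eq hq Nat.prime_two).1 hq'
    subst this
    obtain ⟨t, ht⟩ := hodd
    obtain ⟨c, hcc⟩ := hq2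
    rw [ht] at hcc
    have : (2 * t + 1) ^ 2 = 2 * (2 * t ^ 2 + 2 * t) + 1 := by ring
    push_cast at hcc
    omega
  have hqpp : (q : ℤ) ∣ p := by
    have h1 : (q : ℤ) ∣ 2 * p := by
      have := dvd_add hq1 hq3
      have e : p + 3 * r * s + (p - 3 * r * s) = 2 * p := by ring
      rwa [e] at this
    exact (hqp.dvd_or_dvd h1).resolve_left hq2'
  have hrs : (q : ℤ) ∣ 3 * (r * s) := by
    have := dvd_sub hq1 hqpp
    have e : p + 3 * r * s - p = 3 * (r * s) := by ring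
    rwa [e] at this
  have hnr : ¬ (q : ℤ) ∣ r := by
    intro hr
    have h8 : (q : ℤ) ∣ 8 * s ^ 4 := by
      have e : 8 * s ^ 4 = p ^ 2 - r ^ 4 := by rw [h]; ring
      rw [e]
      exact dvd_sub (dvd_pow hqpp (by norm_num)) (dvd_pow hr (by norm_num))
    rcases hqp.dvd_or_dvd h8 with h9 | h9
    · apply hq2'
      have : (8 : ℤ) = 2 ^ 3 := by norm_num
      rw [this] at h9
      exact hqp.dvd_of_dvd_pow h9
    · have := hc.isUnit_of_dvd' hr (hqp.dvd_of_dvd_pow h9)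
      exact hqp.not_isUnit this
  have hns : ¬ (q : ℤ) ∣ s := by
    intro hs
    apply hnr
    have e : r ^ 4 = p ^ 2 - 8 * s ^ 4 := by rw [h]; ring
    apply hqp.dvd_of_dvd_pow (n := 4)
    rw [e]
    exact dvd_sub (dvd_pow hqpp (by norm_num)) (Dvd.dvd.mul_left (dvd_pow hs (by norm_num)) _)
  rcases hqp.dvd_or_dvd hrs with h3 | h3
  · have hq' : q ∣ 3 := by exact_mod_cast h3
    have : q = 3 := (Nat.prime_dvd_prime_iff_eq hq Nat.prime_three).1 hq'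
    subst this
    -- r^2 - 8 s^2 ≡ r^2 + s^2 mod 3
    have h5 : (r % 3 = 1 ∨ r % 3 = 2) := by
      push_cast at hnr; omega
    have h6 : (s % 3 = 1 ∨ s % 3 = 2) := by
      push_cast at hns; omega
    have h7 : (r ^ 2 - 8 * s ^ 2) % 3 = 0 := by
      push_cast at hq2; exact Int.emod_eq_zero_of_dvd hq2
    rcases h5 with h5 | h5 <;> rcases h6 with h6 | h6 <;>
      norm_num [pow_two, Int.sub_emod, Int.mul_emod, h5, h6] at h7
  · rcases hqp.dvd_or_dvd h3 with h4 | h4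
    · exact hnr h4
    · exact hns h4

theorem gcd_mul {r s p : ℤ} (h : p ^ 2 = r ^ 4 + 8 * s ^ 4) (hc : IsCoprime r s) :
    Int.gcd (p + 3 * r * s) (r ^ 2 - 8 * s ^ 2) * Int.gcd (p - 3 * r * s) (r ^ 2 - 8 * s ^ 2) =
      (r ^ 2 - 8 * s ^ 2).natAbs := by
  apply Nat.dvd_antisymm
  · apply (gcd_aux h hc).mul_dvd_of_dvd_of_dvd
    · exact Int.natCast_dvd.1 (Int.gcd_dvd_right _ _)
    · exact Int.natCast_dvd.1 (Int.gcd_dvd_right _ _)
  · rw [← Int.natCast_dvd_natCast, Int.natCast_natAbs, abs_dvd]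
    push_cast
    obtain ⟨a1, b1, h1⟩ : ∃ a b : ℤ, (Int.gcd (p + 3 * r * s) (r ^ 2 - 8 * s ^ 2) : ℤ) =
        (p + 3 * r * s) * a + (r ^ 2 - 8 * s ^ 2) * b := ⟨_, _, Int.gcd_eq_gcd_ab _ _⟩
    obtain ⟨a2, b2, h2⟩ : ∃ a b : ℤ, (Int.gcd (p - 3 * r * s) (r ^ 2 - 8 * s ^ 2) : ℤ) =
        (p - 3 * r * s) * a + (r ^ 2 - 8 * s ^ 2) * b := ⟨_, _, Int.gcd_eq_gcd_ab _ _⟩
    rw [h1, h2]
    refine ⟨(r ^ 2 - s ^ 2) * a1 * a2 + (p + 3 * r * s) * a1 * b2 + b1 * (p - 3 * r * s) * a2 +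
      b1 * (r ^ 2 - 8 * s ^ 2) * b2, ?_⟩
    linear_combination (a1 * a2) * h

theorem R_ne {r s : ℤ} (hr : r ≠ 0) : r ^ 2 - 8 * s ^ 2 ≠ 0 := by
  intro h
  have h1 := one_sub_ne ((s : ℚ) / r)
  apply h1
  have hr' : (r : ℚ) ≠ 0 := by exact_mod_cast hr
  have h' : (r : ℚ) ^ 2 - 8 * (s : ℚ) ^ 2 = 0 := by exact_mod_cast h
  field_simp
  rw [h', mul_zero]

/-- every solution is a representative of some point -/
theorem exists_pt {r s p : ℤ} (h : p ^ 2 = r ^ 4 + 8 * s ^ 4) (hc : IsCoprime r s) (hp : 0 < p) :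
    ∃ P : Pt, Rep P r s p := by
  have hr : r ≠ 0 := by
    intro h0
    have := odd_r h hc
    rw [h0] at this
    simp at this
  have hr' : (r : ℚ) ≠ 0 := by exact_mod_cast hr
  have hp' : (0 : ℚ) < p := by exact_mod_cast hp
  have h' : (p : ℚ) ^ 2 = (r : ℚ) ^ 4 + 8 * (s : ℚ) ^ 4 := by exact_mod_cast h
  refine ⟨⟨(s : ℚ) / r, (p : ℚ) / (r : ℚ) ^ 2, ?_, by positivity⟩, hc, hp, hr, rfl, rfl⟩
  field_simp
  exact h'

/-- every point has a representative with `r > 0` -/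
theorem exists_rep (P : Pt) : ∃ r s p : ℤ, Rep P r s p ∧ 0 < r := by
  have hP := P.h
  have hpos := P.pos
  have hden : (P.x.den : ℚ) ≠ 0 := by exact_mod_cast P.x.den_nz
  have hx : P.x = (P.x.num : ℚ) / ((P.x.den : ℤ) : ℚ) := by
    simpa using (Rat.num_div_den P.x).symm
  -- `y * den^2` is an integer
  have hsq : (P.y * (P.x.den : ℚ) ^ 2) ^ 2 = (((P.x.den : ℤ) ^ 4 + 8 * P.x.num ^ 4 : ℤ) : ℚ) := by
    have h1 : (P.x.num : ℚ) = P.x * P.x.den := by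
      exact (Rat.mul_den_eq_num P.x).symm
    push_cast
    rw [h1, mul_pow, hP]
    ring
  have hint : ∃ p : ℤ, (p : ℚ) = P.y * (P.x.den : ℚ) ^ 2 := by
    set z := P.y * (P.x.den : ℚ) ^ 2 with hz
    have hden1 : z.den = 1 := by
      have h2 : (z ^ 2).den = 1 := by rw [hsq]; exact Rat.den_intCast _
      rw [Rat.den_pow] at h2
      exact (Nat.pow_eq_one.1 h2).resolve_right (by norm_num)
    exact ⟨z.num, Rat.coe_int_num_of_den_eq_one hden1⟩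
  obtain ⟨p, hp⟩ := hint
  refine ⟨P.x.den, P.x.num, p, ⟨?_, ?_, ?_, hx, ?_⟩, ?_⟩
  · rw [Int.isCoprime_iff_gcd_eq_one]
    have := P.x.reduced
    rw [Nat.Coprime, Nat.gcd_comm] at this
    simpa [Int.gcd] using this
  · have : (0 : ℚ) < p := by rw [hp]; positivity
    exact_mod_cast this
  · exact_mod_cast P.x.den_nz
  · rw [hp]
    push_cast
    field_simp
  · exact_mod_cast P.x.den_pos

theorem rep_unique {P : Pt} {r s p r' s' p' : ℤ} (h : Rep P r s p) (h' : Rep P r' s' p') :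
    r.natAbs = r'.natAbs ∧ s.natAbs = s'.natAbs ∧ p = p' := by
  obtain ⟨hc, hp, hr, hx, hy⟩ := h
  obtain ⟨hc', hp', hr', hx', hy'⟩ := h'
  have hrq : (r : ℚ) ≠ 0 := by exact_mod_cast hr
  have hrq' : (r' : ℚ) ≠ 0 := by exact_mod_cast hr'
  have e : s * r' = s' * r := by
    rw [hx] at hx'
    rw [div_eq_div_iff hrq hrq'] at hx'
    exact_mod_cast hx'
  have e2 : p * r' ^ 2 = p' * r ^ 2 := by
    rw [hy] at hy'
    rw [div_eq_div_iff (pow_ne_zero 2 hrq) (pow_ne_zero 2 hrq')] at hy'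
    exact_mod_cast hy'
  have d1 : r ∣ r' := by
    apply hc.dvd_of_dvd_mul_left
    rw [e]; exact dvd_mul_left _ _
  have d2 : r' ∣ r := by
    apply hc'.dvd_of_dvd_mul_left
    rw [← e]; exact dvd_mul_left _ _
  have hrr : r.natAbs = r'.natAbs := Int.natAbs_eq_of_dvd_dvd d1 d2
  have hsq : r ^ 2 = r' ^ 2 := by
    rw [← Int.natAbs_sq r, ← Int.natAbs_sq r', hrr]
  refine ⟨hrr, ?_, ?_⟩
  · have := congrArg Int.natAbs e
    rw [Int.natAbs_mul, Int.natAbs_mul, hrr] at this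
    have h0 : 0 < r'.natAbs := Int.natAbs_pos.2 hr'
    exact Nat.eq_of_mul_eq_mul_right h0 this
  · rw [hsq] at e2
    exact mul_right_cancel₀ (pow_ne_zero 2 hr') e2

theorem rep_neg {P : Pt} {r s p : ℤ} (h : Rep P r s p) : Rep P.neg r (-s) p := by
  obtain ⟨hc, hp, hr, hx, hy⟩ := h
  refine ⟨hc.neg_right, hp, hr, ?_, hy⟩
  show -P.x = _
  rw [hx]; push_cast; ring

theorem rep_next {P : Pt} {r s p : ℤ} (h : Rep P r s p) :
    ∃ r' s' p' : ℤ, Rep P.next r' s' p' ∧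
      r' * Int.gcd (p + 3 * r * s) (r ^ 2 - 8 * s ^ 2) = r ^ 2 - 8 * s ^ 2 ∧
      s' * Int.gcd (p + 3 * r * s) (r ^ 2 - 8 * s ^ 2) = p + 3 * r * s ∧
      p' * (Int.gcd (p + 3 * r * s) (r ^ 2 - 8 * s ^ 2) : ℤ) ^ 2 =
        3 * (r ^ 2 + 8 * s ^ 2) * p + 16 * r * s * (r ^ 2 + s ^ 2) := by
  have heqn := h.eqn
  obtain ⟨hc, hp, hr, hx, hy⟩ := h
  have hR := R_ne (s := s) hr
  set g := Int.gcd (p + 3 * r * s) (r ^ 2 - 8 * s ^ 2) with hg
  have hgpos : 0 < g := Int.gcd_pos_of_ne_zero_right _ hR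
  have hg0 : (g : ℤ) ≠ 0 := by positivity
  obtain ⟨r', hr'⟩ : (g : ℤ) ∣ r ^ 2 - 8 * s ^ 2 := Int.gcd_dvd_right _ _
  obtain ⟨s', hs'⟩ : (g : ℤ) ∣ p + 3 * r * s := Int.gcd_dvd_left _ _
  have hcop : IsCoprime r' s' := by
    have h1 := Int.gcd_eq_gcd_ab (p + 3 * r * s) (r ^ 2 - 8 * s ^ 2)
    rw [← hg] at h1
    refine ⟨Int.gcdB (p + 3 * r * s) (r ^ 2 - 8 * s ^ 2), Int.gcdA (p + 3 * r * s) (r ^ 2 - 8 * s ^ 2), ?_⟩
    apply mul_left_cancel₀ hg0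
    linear_combination (-Int.gcdB (p + 3 * r * s) (r ^ 2 - 8 * s ^ 2)) * hr' -
      (Int.gcdA (p + 3 * r * s) (r ^ 2 - 8 * s ^ 2)) * hs' - h1
  have hr'0 : r' ≠ 0 := by
    rintro rfl
    apply hR; rw [hr', mul_zero]
  have hrq : (r : ℚ) ≠ 0 := by exact_mod_cast hr
  have hrq' : (r' : ℚ) ≠ 0 := by exact_mod_cast hr'0
  have hgq : (g : ℚ) ≠ 0 := by exact_mod_cast hg0
  have hr'q : (r : ℚ) ^ 2 - 8 * (s : ℚ) ^ 2 = g * r' := by exact_mod_cast hr'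
  have hs'q : (p : ℚ) + 3 * r * s = g * s' := by exact_mod_cast hs'
  -- coordinates of `next`
  have hD : 1 - 8 * P.x ^ 2 = (g * r') / (r : ℚ) ^ 2 := by
    rw [hx, ← hr'q]; field_simp
  have hxn : P.next.x = (s' : ℚ) / r' := by
    show (3 * P.x + P.y) / (1 - 8 * P.x ^ 2) = _
    have hN : 3 * P.x + P.y = (g * s') / (r : ℚ) ^ 2 := by
      rw [hx, hy, ← hs'q]; field_simp; ring
    rw [hN, hD]
    field_simp
  have hyn : P.next.y * ((g : ℚ) * r') ^ 2 =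
      3 * ((r : ℚ) ^ 2 + 8 * s ^ 2) * p + 16 * r * s * ((r : ℚ) ^ 2 + s ^ 2) := by
    show (3 * (1 + 8 * P.x ^ 2) * P.y + 16 * P.x * (1 + P.x ^ 2)) / (1 - 8 * P.x ^ 2) ^ 2 * _ = _
    rw [hD, hx, hy]
    field_simp
  -- the height of the next point
  obtain ⟨a, b, c, hrep, ha⟩ := exists_rep P.next
  obtain ⟨hc1, hp1, hr1, hx1, hy1⟩ := hrep
  have harq : (a : ℚ) ≠ 0 := by exact_mod_cast hr1
  have hcr : c = c := rfl
  have hsq : (a : ℤ) ^ 2 = r' ^ 2 := by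
    have e : b * r' = s' * a := by
      rw [hx1] at hxn
      rw [div_eq_div_iff harq hrq'] at hxn
      exact_mod_cast hxn
    have d1 : a ∣ r' := by
      apply hc1.dvd_of_dvd_mul_left
      rw [e]; exact dvd_mul_left _ _
    have d2 : r' ∣ a := by
      apply hcop.dvd_of_dvd_mul_left
      rw [← e]; exact dvd_mul_left _ _
    have hrr : a.natAbs = r'.natAbs := Int.natAbs_eq_of_dvd_dvd d1 d2
    rw [← Int.natAbs_sq a, ← Int.natAbs_sq r', hrr]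
  have hsqq : (a : ℚ) ^ 2 = (r' : ℚ) ^ 2 := by exact_mod_cast hsq
  refine ⟨r', s', c, ⟨hcop, hp1, hr'0, hxn, ?_⟩, ?_, ?_, ?_⟩
  · rw [hy1, hsqq]
  · rw [hr']; ring
  · rw [hs']; ring
  · have : (c : ℚ) * (g : ℚ) ^ 2 =
      3 * ((r : ℚ) ^ 2 + 8 * s ^ 2) * p + 16 * r * s * ((r : ℚ) ^ 2 + s ^ 2) := by
      rw [← hyn, hy1, hsqq]
      field_simp
    exact_mod_cast this

/-- the two neighbours -/
theorem rep_neighbours {P : Pt} {r s p : ℤ} (h : Rep P r s p) :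
    ∃ r1 s1 p1 r2 s2 p2 : ℤ, Rep P.next r1 s1 p1 ∧ Rep P.prev r2 s2 p2 ∧
      p1 * p2 = 9 * p ^ 2 + 32 * r ^ 2 * s ^ 2 ∧ (Odd s → Even s1 ∧ Even s2) := by
  have heqn := h.eqn
  have hc := h.1
  have hr := h.2.2.1
  have hR := R_ne (s := s) hr
  obtain ⟨r1, s1, p1, hrep1, e1, e2, e3⟩ := rep_next h
  obtain ⟨r2, s2, p2, hrep2, f1, f2, f3⟩ := rep_next (rep_neg h)
  rw [next_neg] at hrep2
  have hrep2' := rep_neg hrep2
  rw [neg_neg] at hrep2'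
  have hg := gcd_mul heqn hc
  have i1 : p + 3 * r * -s = p - 3 * r * s := by ring
  have i2 : r ^ 2 - 8 * (-s) ^ 2 = r ^ 2 - 8 * s ^ 2 := by ring
  rw [i1, i2] at f1 f2 f3
  refine ⟨r1, s1, p1, r2, -s2, p2, hrep1, hrep2', ?_, ?_⟩
  · set g := Int.gcd (p + 3 * r * s) (r ^ 2 - 8 * s ^ 2) with hgdef
    set g' := Int.gcd (p - 3 * r * s) (r ^ 2 - 8 * s ^ 2) with hgdef'
    have hgg : ((g : ℤ) * g') ^ 2 = (r ^ 2 - 8 * s ^ 2) ^ 2 := by
      rw [← Int.natAbs_sq (r ^ 2 - 8 * s ^ 2), ← hg]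
      push_cast; ring
    have hne : (r ^ 2 - 8 * s ^ 2) ^ 2 ≠ 0 := pow_ne_zero 2 hR
    apply mul_right_cancel₀ hne
    have h1 : p1 * p2 * (r ^ 2 - 8 * s ^ 2) ^ 2 = (p1 * (g : ℤ) ^ 2) * (p2 * (g' : ℤ) ^ 2) := by
      rw [← hgg]; ring
    rw [h1, e3, f3]
    linear_combination (288 * r ^ 2 * s ^ 2) * heqn
  · intro hs
    have hro := odd_r heqn hc
    have hpo := odd_p heqn hc
    obtain ⟨a, ha⟩ := hs
    obtain ⟨b, hb⟩ := hro
    obtain ⟨c, hcc⟩ := hpo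
    constructor
    · by_contra hodd
      rw [Int.not_even_iff_odd] at hodd
      have hgodd : Odd ((Int.gcd (p + 3 * r * s) (r ^ 2 - 8 * s ^ 2) : ℤ)) := by
        have : Odd (r ^ 2 - 8 * s ^ 2) := by
          refine ⟨2 * b ^ 2 + 2 * b - 4 * s ^ 2, ?_⟩
          rw [hb]; ring
        rw [← e1] at this; exact (Int.odd_mul.1 this).2
      have : Odd (p + 3 * r * s) := by rw [← e2]; exact hodd.mul hgodd
      obtain ⟨d, hd⟩ := this
      rw [ha, hb, hcc] at hd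
      ring_nf at hd
      omega
    · by_contra hodd
      rw [Int.not_even_iff_odd, odd_neg] at hodd
      have hgodd : Odd ((Int.gcd (p - 3 * r * s) (r ^ 2 - 8 * s ^ 2) : ℤ)) := by
        have : Odd (r ^ 2 - 8 * s ^ 2) := by
          refine ⟨2 * b ^ 2 + 2 * b - 4 * s ^ 2, ?_⟩
          rw [hb]; ring
        rw [← f1] at this; exact (Int.odd_mul.1 this).2
      have : Odd (p - 3 * r * s) := by rw [← f2]; exact hodd.mul hgodd
      obtain ⟨d, hd⟩ := this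
      rw [ha, hb, hcc] at hd
      ring_nf at hd
      omega

end Crest.Agent.R323
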