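import Crest.Agent.R323.SF

/-!
# Closure properties of single-fold Diophantine predicates and functions (S0500)
-/

set_option autoImplicit false

namespace Crest.Agent.R323

variable {ι κ : Type}

/-- finite conjunctions -/
theorem SFP.finsetAll {α : Type} (s : Finset α) {p : α → (ι → ℕ) → Prop}
    (hp : ∀ a ∈ s, SFP (p a)) : SFP (fun v => ∀ a ∈ s, p a v) := by
  classical
  induction s using Finset.induction_on with
  | empty => exact SFP.true.congr (fun v => by simp)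
  | insert a s ha ih =>
    have h1 := hp a (Finset.mem_insert_self a s)
    have h2 := ih (fun b hb => hp b (Finset.mem_insert_of_mem hb))
    exact (h1.and h2).congr (fun v => by simp)

theorem SFP.all [Finite κ] {p : κ → (ι → ℕ) → Prop} (hp : ∀ a, SFP (p a)) :
    SFP (fun v => ∀ a, p a v) := by
  classical
  have := Fintype.ofFinite κ
  exact (SFP.finsetAll Finset.univ (fun a _ => hp a)).congr (fun v => by simp)

/-- composition of a single-fold relation with single-fold functions -/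
theorem SFP.comp [Finite κ] {R : (κ → ℕ) → Prop} (hR : SFP R) {f : κ → (ι → ℕ) → ℕ}
    (hf : ∀ k, SFF (f k)) : SFP (fun v : ι → ℕ => R (fun k => f k v)) := by
  have h1 : SFP (fun u : ι ⊕ κ → ℕ => (∀ k, u (Sum.inr k) = f k (fun i => u (Sum.inl i))) ∧
      R (fun k => u (Sum.inr k))) := by
    refine SFP.and (SFP.all fun k => ?_) (hR.reindex _)
    have := SFP.reindex (fun o : Option ι => (o.elim (Sum.inr k) Sum.inl : ι ⊕ κ)) (hf k)
    exact this
  refine (SFP.exBlock h1 ?_).congr ?_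
  · rintro v y y' ⟨h, _⟩ ⟨h', _⟩
    funext k
    have e1 := h k
    have e2 := h' k
    simp only [Sum.elim_inr, Sum.elim_inl] at e1 e2
    rw [e1, e2]
  · intro v
    constructor
    · intro h
      exact ⟨fun k => f k v, fun k => by simp, by simpa using h⟩
    · rintro ⟨y, h, hr⟩
      have : y = fun k => f k v := by
        funext k
        simpa using h k
      subst this
      simpa using hr

theorem SFF.ofPoly {f : (ι → ℕ) → ℕ} (hf : PolyFn (fun v => (f v : ℤ))) : SFF f := by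
  have h := SFP.polyEq (PolyFn.proj (none : Option ι)) (hf.reindex (fun i => (some i : Option ι)))
  exact SFP.congr h (fun v => by norm_cast)

theorem SFF.proj (i : ι) : SFF (fun v : ι → ℕ => v i) :=
  SFF.ofPoly (PolyFn.proj i)

theorem SFF.const (c : ℕ) : SFF (fun _ : ι → ℕ => c) :=
  SFF.ofPoly (PolyFn.const (c : ℤ))

/-- composition of single-fold functions -/
theorem SFF.comp [Finite κ] {g : (κ → ℕ) → ℕ} (hg : SFF g) {f : κ → (ι → ℕ) → ℕ}
    (hf : ∀ k, SFF (f k)) : SFF (fun v : ι → ℕ => g (fun k => f k v)) := by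
  have := SFP.comp (ι := Option ι) (κ := Option κ) hg
    (f := fun o => o.elim (fun v => v none) (fun k => fun v => f k (fun i => v (some i)))) (by
      intro o
      cases o with
      | none => exact SFF.proj none
      | some k => exact (hf k).reindex some)
  exact this

/-- unary single-fold function -/
def SF1 (f : ℕ → ℕ) : Prop := SFF (fun v : Fin 1 → ℕ => f (v 0))
/-- binary single-fold function -/
def SF2 (f : ℕ → ℕ → ℕ) : Prop := SFF (fun v : Fin 2 → ℕ => f (v 0) (v 1))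
/-- ternary single-fold function -/
def SF3 (f : ℕ → ℕ → ℕ → ℕ) : Prop := SFF (fun v : Fin 3 → ℕ => f (v 0) (v 1) (v 2))
/-- quaternary single-fold function -/
def SF4 (f : ℕ → ℕ → ℕ → ℕ → ℕ) : Prop := SFF (fun v : Fin 4 → ℕ => f (v 0) (v 1) (v 2) (v 3))

theorem SF1.comp {f : ℕ → ℕ} (hf : SF1 f) {a : (ι → ℕ) → ℕ} (ha : SFF a) :
    SFF (fun v => f (a v)) :=
  (SFF.comp (κ := Fin 1) hf (f := fun _ => a) (fun _ => ha)).congr (fun _ => rfl)

theorem SF2.comp {f : ℕ → ℕ → ℕ} (hf : SF2 f) {a b : (ι → ℕ) → ℕ} (ha : SFF a) (hb : SFF b) :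
    SFF (fun v => f (a v) (b v)) :=
  (SFF.comp (κ := Fin 2) hf (f := ![a, b]) (fun k => by
    fin_cases k
    · exact ha
    · exact hb)).congr (fun _ => rfl)

theorem SF3.comp {f : ℕ → ℕ → ℕ → ℕ} (hf : SF3 f) {a b c : (ι → ℕ) → ℕ} (ha : SFF a)
    (hb : SFF b) (hc : SFF c) : SFF (fun v => f (a v) (b v) (c v)) :=
  (SFF.comp (κ := Fin 3) hf (f := ![a, b, c]) (fun k => by
    fin_cases k
    · exact ha
    · exact hb
    · exact hc)).congr (fun _ => rfl)

theorem SF4.comp {f : ℕ → ℕ → ℕ → ℕ → ℕ} (hf : SF4 f) {a b c d : (ι → ℕ) → ℕ} (ha : SFF a)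
    (hb : SFF b) (hc : SFF c) (hd : SFF d) : SFF (fun v => f (a v) (b v) (c v) (d v)) :=
  (SFF.comp (κ := Fin 4) hf (f := ![a, b, c, d]) (fun k => by
    fin_cases k
    · exact ha
    · exact hb
    · exact hc
    · exact hd)).congr (fun _ => rfl)

/-- unary single-fold relation -/
def SR1 (R : ℕ → Prop) : Prop := SFP (fun v : Fin 1 → ℕ => R (v 0))
/-- binary single-fold relation -/
def SR2 (R : ℕ → ℕ → Prop) : Prop := SFP (fun v : Fin 2 → ℕ => R (v 0) (v 1))
/-- ternary single-fold relation -/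
def SR3 (R : ℕ → ℕ → ℕ → Prop) : Prop := SFP (fun v : Fin 3 → ℕ => R (v 0) (v 1) (v 2))
/-- quaternary single-fold relation -/
def SR4 (R : ℕ → ℕ → ℕ → ℕ → Prop) : Prop :=
  SFP (fun v : Fin 4 → ℕ => R (v 0) (v 1) (v 2) (v 3))

theorem SR1.comp {R : ℕ → Prop} (hR : SR1 R) {a : (ι → ℕ) → ℕ} (ha : SFF a) :
    SFP (fun v => R (a v)) :=
  (SFP.comp (κ := Fin 1) hR (f := fun _ => a) (fun _ => ha)).congr (fun _ => Iff.rfl)

theorem SR2.comp {R : ℕ → ℕ → Prop} (hR : SR2 R) {a b : (ι → ℕ) → ℕ} (ha : SFF a) (hb : SFF b) :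
    SFP (fun v => R (a v) (b v)) :=
  (SFP.comp (κ := Fin 2) hR (f := ![a, b]) (fun k => by
    fin_cases k
    · exact ha
    · exact hb)).congr (fun _ => Iff.rfl)

theorem SR3.comp {R : ℕ → ℕ → ℕ → Prop} (hR : SR3 R) {a b c : (ι → ℕ) → ℕ} (ha : SFF a)
    (hb : SFF b) (hc : SFF c) : SFP (fun v => R (a v) (b v) (c v)) :=
  (SFP.comp (κ := Fin 3) hR (f := ![a, b, c]) (fun k => by
    fin_cases k
    · exact ha
    · exact hb
    · exact hc)).congr (fun _ => Iff.rfl)

theorem SR4.comp {R : ℕ → ℕ → ℕ → ℕ → Prop} (hR : SR4 R) {a b c d : (ι → ℕ) → ℕ} (ha : SFF a)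
    (hb : SFF b) (hc : SFF c) (hd : SFF d) : SFP (fun v => R (a v) (b v) (c v) (d v)) :=
  (SFP.comp (κ := Fin 4) hR (f := ![a, b, c, d]) (fun k => by
    fin_cases k
    · exact ha
    · exact hb
    · exact hc
    · exact hd)).congr (fun _ => Iff.rfl)

/-- unique existential over one variable -/
theorem SFP.ex {q : (ι → ℕ) → ℕ → Prop}
    (hq : SFP (fun v : Option ι → ℕ => q (fun i => v (some i)) (v none)))
    (hu : ∀ v y y', q v y → q v y' → y = y') : SFP (fun v : ι → ℕ => ∃ y, q v y) := by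
  have h1 : SFP (fun u : ι ⊕ Unit → ℕ => q (fun i => u (Sum.inl i)) (u (Sum.inr ()))) :=
    SFP.reindex (fun o : Option ι => (o.elim (Sum.inr ()) Sum.inl : ι ⊕ Unit)) hq
  refine (SFP.exBlock h1 ?_).congr ?_
  · intro v y y' h h'
    simp only [Sum.elim_inr, Sum.elim_inl] at h h'
    have := hu v _ _ h h'
    funext k
    exact this
  · intro v
    constructor
    · rintro ⟨y, hy⟩
      exact ⟨fun _ => y, by simpa using hy⟩
    · rintro ⟨y, hy⟩
      exact ⟨y (), by simpa using hy⟩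

/-- the graph of a single-fold function -/
theorem SFF.graph {f : (ι → ℕ) → ℕ} (hf : SFF f) {a : (ι → ℕ) → ℕ} (ha : SFF a) :
    SFP (fun v => a v = f v) := by
  have h1 : SFP (fun v : ι → ℕ => ∃ y, y = a v ∧ y = f v) := by
    refine SFP.ex (q := fun v y => y = a v ∧ y = f v) (SFP.and ?_ ?_) ?_
    · exact ha
    · exact hf
    · rintro v y y' ⟨h, _⟩ ⟨h', _⟩
      rw [h, h']
  exact h1.congr (fun v => by simp)

theorem SFP.eq {f g : (ι → ℕ) → ℕ} (hf : SFF f) (hg : SFF g) : SFP (fun v => f v = g v) :=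
  hg.graph hf

/-- a function is single-fold as soon as its graph is equivalent to a single-fold predicate -/
theorem SFF.of_graph {f : (ι → ℕ) → ℕ} {q : (ι → ℕ) → ℕ → Prop}
    (hq : SFP (fun v : Option ι → ℕ => q (fun i => v (some i)) (v none)))
    (h : ∀ v y, q v y ↔ y = f v) : SFF f :=
  hq.congr (fun v => (h _ _).symm)

/-- disjoint disjunction -/
theorem SFP.or {p q : (ι → ℕ) → Prop} (hp : SFP p) (hq : SFP q) (hd : ∀ v, p v → ¬ q v) :
    SFP (fun v => p v ∨ q v) := by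
  obtain ⟨m, f, hf, h1, h2⟩ := hp.elim
  obtain ⟨n, g, hg, h3, h4⟩ := hq.elim
  refine SFP.mk' (κ := Fin m ⊕ Fin n)
    (fun v => (f (fun i => v (Sum.map id Sum.inl i)) ^ 2 +
        ∑ j : Fin n, ((v (Sum.inr (Sum.inr j)) : ℕ) : ℤ) ^ 2) *
      (g (fun i => v (Sum.map id Sum.inr i)) ^ 2 +
        ∑ j : Fin m, ((v (Sum.inr (Sum.inl j)) : ℕ) : ℤ) ^ 2)) ?_ ?_ ?_
  · refine PolyFn.mul ?_ ?_
    · exact ((hf.reindex _).pow 2).add (PolyFn.sum _ fun j _ => (PolyFn.proj _).pow 2)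
    · exact ((hg.reindex _).pow 2).add (PolyFn.sum _ fun j _ => (PolyFn.proj _).pow 2)
  all_goals
    have e1 : ∀ (v : ι → ℕ) (w : Fin m ⊕ Fin n → ℕ),
        (fun i => (Sum.elim v w : ι ⊕ Fin m ⊕ Fin n → ℕ) (Sum.map id Sum.inl i)) =
        Sum.elim v (fun i => w (Sum.inl i)) := by
      intro v w; ext i; rcases i with i | i <;> rfl
    have e2 : ∀ (v : ι → ℕ) (w : Fin m ⊕ Fin n → ℕ),
        (fun i => (Sum.elim v w : ι ⊕ Fin m ⊕ Fin n → ℕ) (Sum.map id Sum.inr i)) =
        Sum.elim v (fun i => w (Sum.inr i)) := by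
      intro v w; ext i; rcases i with i | i <;> rfl
    have key : ∀ (k : ℕ) (c : ℤ) (w : Fin k → ℕ), c ^ 2 + ∑ j : Fin k, ((w j : ℕ) : ℤ) ^ 2 = 0 ↔
        c = 0 ∧ w = 0 := by
      intro k c w
      constructor
      · intro h
        have hs : 0 ≤ ∑ j : Fin k, ((w j : ℕ) : ℤ) ^ 2 := Finset.sum_nonneg fun j _ => sq_nonneg _
        have hc : c ^ 2 = 0 := by nlinarith [sq_nonneg c]
        have hs0 : ∑ j : Fin k, ((w j : ℕ) : ℤ) ^ 2 = 0 := by nlinarith [sq_nonneg c]
        refine ⟨by simpa using hc, ?_⟩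
        funext j
        have := (Finset.sum_eq_zero_iff_of_nonneg (fun j _ => sq_nonneg _)).1 hs0 j
          (Finset.mem_univ j)
        simpa using this
      · rintro ⟨rfl, rfl⟩
        simp
    simp only [e1, e2, mul_eq_zero, Sum.elim_inr]
  · intro v
    constructor
    · rintro (hpv | hqv)
      · obtain ⟨w, hw⟩ := (h1 v).1 hpv
        refine ⟨Sum.elim w 0, Or.inl ?_⟩
        simp [hw]
      · obtain ⟨w, hw⟩ := (h3 v).1 hqv
        refine ⟨Sum.elim 0 w, Or.inr ?_⟩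
        simp [hw]
    · rintro ⟨w, hw | hw⟩
      · left
        exact (h1 v).2 ⟨_, ((key n _ (fun j => w (Sum.inr j))).1 hw).1⟩
      · right
        exact (h3 v).2 ⟨_, ((key m _ (fun j => w (Sum.inl j))).1 hw).1⟩
  · intro v w w' hw hw'
    rcases hw with hw | hw <;> rcases hw' with hw' | hw'
    · obtain ⟨a1, a2⟩ := (key n _ (fun j => w (Sum.inr j))).1 hw
      obtain ⟨b1, b2⟩ := (key n _ (fun j => w' (Sum.inr j))).1 hw'
      have c1 := h2 _ _ _ a1 b1
      funext i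
      rcases i with i | i
      · exact congrFun c1 i
      · exact (congrFun a2 i).trans (congrFun b2 i).symm
    · obtain ⟨a1, a2⟩ := (key n _ (fun j => w (Sum.inr j))).1 hw
      obtain ⟨b1, b2⟩ := (key m _ (fun j => w' (Sum.inl j))).1 hw'
      exact absurd ((h3 v).2 ⟨_, b1⟩) (hd v ((h1 v).2 ⟨_, a1⟩))
    · obtain ⟨a1, a2⟩ := (key m _ (fun j => w (Sum.inl j))).1 hw
      obtain ⟨b1, b2⟩ := (key n _ (fun j => w' (Sum.inr j))).1 hw'
      exact absurd ((h3 v).2 ⟨_, a1⟩) (hd v ((h1 v).2 ⟨_, b1⟩))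
    · obtain ⟨a1, a2⟩ := (key m _ (fun j => w (Sum.inl j))).1 hw
      obtain ⟨b1, b2⟩ := (key m _ (fun j => w' (Sum.inl j))).1 hw'
      have c1 := h4 _ _ _ a1 b1
      funext i
      rcases i with i | i
      · exact (congrFun a2 i).trans (congrFun b2 i).symm
      · exact congrFun c1 i

/-- decidable single-fold predicates -/
def SFD (p : (ι → ℕ) → Prop) : Prop := SFP p ∧ SFP (fun v => ¬ p v)

theorem SFD.pos {p : (ι → ℕ) → Prop} (hp : SFD p) : SFP p := hp.1
theorem SFD.neg {p : (ι → ℕ) → Prop} (hp : SFD p) : SFP (fun v => ¬ p v) := hp.2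

theorem SFD.not {p : (ι → ℕ) → Prop} (hp : SFD p) : SFD (fun v => ¬ p v) :=
  ⟨hp.2, hp.1.congr (fun v => not_not)⟩

theorem SFD.congr {p q : (ι → ℕ) → Prop} (hp : SFD p) (h : ∀ v, q v ↔ p v) : SFD q :=
  ⟨hp.1.congr h, hp.2.congr (fun v => not_congr (h v))⟩

theorem SFD.const (P : Prop) : SFD (fun _ : ι → ℕ => P) := ⟨SFP.const P, SFP.const _⟩

theorem SFD.and {p q : (ι → ℕ) → Prop} (hp : SFD p) (hq : SFD q) :
    SFD (fun v => p v ∧ q v) := by
  refine ⟨hp.1.and hq.1, ?_⟩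
  refine (SFP.or hp.2 (hp.1.and hq.2) ?_).congr ?_
  · intro v h h'
    exact h h'.1
  · intro v
    tauto

theorem SFD.or {p q : (ι → ℕ) → Prop} (hp : SFD p) (hq : SFD q) :
    SFD (fun v => p v ∨ q v) :=
  ((hp.not.and hq.not).not).congr (fun v => by tauto)

theorem SFD.imp {p q : (ι → ℕ) → Prop} (hp : SFD p) (hq : SFD q) :
    SFD (fun v => p v → q v) :=
  (hp.not.or hq).congr (fun v => by tauto)

theorem SFD.iff {p q : (ι → ℕ) → Prop} (hp : SFD p) (hq : SFD q) :
    SFD (fun v => p v ↔ q v) :=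
  ((hp.imp hq).and (hq.imp hp)).congr (fun v => by tauto)

theorem SFD.reindex (g : ι → κ) {p : (ι → ℕ) → Prop} (hp : SFD p) :
    SFD (fun v : κ → ℕ => p (fun i => v (g i))) :=
  ⟨hp.1.reindex g, hp.2.reindex g⟩

theorem SFD.comp [Finite κ] {R : (κ → ℕ) → Prop} (hR : SFD R) {f : κ → (ι → ℕ) → ℕ}
    (hf : ∀ k, SFF (f k)) : SFD (fun v : ι → ℕ => R (fun k => f k v)) :=
  ⟨hR.1.comp hf, SFP.comp hR.2 hf⟩

theorem SR2_lt : SR2 (fun a b => a < b) := by
  have : SFP (fun u : Fin 2 → ℕ => ∃ z, u 1 = u 0 + 1 + z) := by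
    refine SFP.ex (q := fun v z => v 1 = v 0 + 1 + z) ?_ ?_
    · refine (SFP.polyEq (f := fun v : Option (Fin 2) → ℕ => ((v (some 1) : ℕ) : ℤ))
        (g := fun v => ((v (some 0) : ℕ) : ℤ) + 1 + ((v none : ℕ) : ℤ)) (PolyFn.proj _)
        (((PolyFn.proj _).add (PolyFn.const 1)).add (PolyFn.proj _))).congr ?_
      intro v
      norm_cast
    · intro v y y' h h'
      omega
  refine this.congr (fun v => ?_)
  constructor
  · intro h
    exact ⟨v 1 - (v 0 + 1), by omega⟩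
  · rintro ⟨z, hz⟩
    omega

theorem SR2_le : SR2 (fun a b => a ≤ b) := by
  have : SFP (fun u : Fin 2 → ℕ => ∃ z, u 1 = u 0 + z) := by
    refine SFP.ex (q := fun v z => v 1 = v 0 + z) ?_ ?_
    · refine (SFP.polyEq (f := fun v : Option (Fin 2) → ℕ => ((v (some 1) : ℕ) : ℤ))
        (g := fun v => ((v (some 0) : ℕ) : ℤ) + ((v none : ℕ) : ℤ)) (PolyFn.proj _)
        ((PolyFn.proj _).add (PolyFn.proj _))).congr ?_
      intro v
      norm_cast
    · intro v y y' h h'
      omega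
  refine this.congr (fun v => ?_)
  constructor
  · intro h
    exact ⟨v 1 - v 0, by omega⟩
  · rintro ⟨z, hz⟩
    omega

theorem SFP.lt {f g : (ι → ℕ) → ℕ} (hf : SFF f) (hg : SFF g) : SFP (fun v => f v < g v) :=
  SR2_lt.comp hf hg

theorem SFP.le {f g : (ι → ℕ) → ℕ} (hf : SFF f) (hg : SFF g) : SFP (fun v => f v ≤ g v) :=
  SR2_le.comp hf hg

theorem SFP.ne {f g : (ι → ℕ) → ℕ} (hf : SFF f) (hg : SFF g) : SFP (fun v => f v ≠ g v) :=
  (SFP.or (SFP.lt hf hg) (SFP.lt hg hf) (fun v h h' => by omega)).congr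
    (fun v => by constructor <;> intro h <;> omega)

theorem SFD.eq {f g : (ι → ℕ) → ℕ} (hf : SFF f) (hg : SFF g) : SFD (fun v => f v = g v) :=
  ⟨SFP.eq hf hg, SFP.ne hf hg⟩

theorem SFD.ne {f g : (ι → ℕ) → ℕ} (hf : SFF f) (hg : SFF g) : SFD (fun v => f v ≠ g v) :=
  (SFD.eq hf hg).not

theorem SFD.lt {f g : (ι → ℕ) → ℕ} (hf : SFF f) (hg : SFF g) : SFD (fun v => f v < g v) :=
  ⟨SFP.lt hf hg, (SFP.le hg hf).congr (fun v => not_lt)⟩

theorem SFD.le {f g : (ι → ℕ) → ℕ} (hf : SFF f) (hg : SFF g) : SFD (fun v => f v ≤ g v) :=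
  ⟨SFP.le hf hg, (SFP.lt hg hf).congr (fun v => not_le)⟩

/-- definition by (decidable) cases -/
theorem SFF.ite {p : (ι → ℕ) → Prop} [DecidablePred p] (hp : SFD p) {f g : (ι → ℕ) → ℕ}
    (hf : SFF f) (hg : SFF g) : SFF (fun v => if p v then f v else g v) := by
  refine SFF.of_graph (q := fun v y => (p v ∧ y = f v) ∨ (¬ p v ∧ y = g v)) ?_ ?_
  · refine SFP.or (SFP.and (hp.1.reindex some) ?_) (SFP.and (hp.2.reindex some) ?_) ?_
    · exact hf
    · exact hg
    · rintro v ⟨h, _⟩ ⟨h', _⟩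
      exact h' h
  · intro v y
    by_cases h : p v <;> simp [h]

theorem SF2_add : SF2 (fun a b => a + b) :=
  SFF.ofPoly (((PolyFn.proj (ι := Fin 2) 0).add (PolyFn.proj 1)).reindex id |> fun h => by
    simpa using h)

theorem SF2_mul : SF2 (fun a b => a * b) :=
  SFF.ofPoly (((PolyFn.proj (ι := Fin 2) 0).mul (PolyFn.proj 1)).reindex id |> fun h => by
    simpa using h)

theorem SFF.add {f g : (ι → ℕ) → ℕ} (hf : SFF f) (hg : SFF g) : SFF (fun v => f v + g v) :=
  SF2_add.comp hf hg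

theorem SFF.mul {f g : (ι → ℕ) → ℕ} (hf : SFF f) (hg : SFF g) : SFF (fun v => f v * g v) :=
  SF2_mul.comp hf hg

/-- power with a fixed exponent -/
theorem SFF.npow {f : (ι → ℕ) → ℕ} (hf : SFF f) (n : ℕ) : SFF (fun v => f v ^ n) := by
  induction n with
  | zero => exact (SFF.const 1).congr (fun v => by simp)
  | succ n ih => exact (ih.mul hf).congr (fun v => by rw [pow_succ])

theorem SF2_sub : SF2 (fun a b => a - b) := by
  refine SFF.of_graph (q := fun (v : Fin 2 → ℕ) y => (v 0 = v 1 + y) ∨ (v 0 < v 1 ∧ y = 0)) ?_ ?_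
  · refine SFP.or ?_ ?_ ?_
    · exact SFP.eq (SFF.proj _) ((SFF.proj _).add (SFF.proj _))
    · exact SFP.and (SFP.lt (SFF.proj _) (SFF.proj _)) (SFP.eq (SFF.proj _) (SFF.const 0))
    · intro v h h'
      omega
  · intro v y
    show _ ↔ y = v 0 - v 1
    omega

theorem SFF.tsub {f g : (ι → ℕ) → ℕ} (hf : SFF f) (hg : SFF g) : SFF (fun v => f v - g v) :=
  SF2_sub.comp hf hg

theorem SF2_div : SF2 (fun a b => a / b) := by
  refine SFF.of_graph (q := fun (v : Fin 2 → ℕ) y =>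
    (v 1 = 0 ∧ y = 0) ∨ (∃ r, v 0 = v 1 * y + r ∧ r < v 1)) ?_ ?_
  · refine SFP.or ?_ ?_ ?_
    · exact SFP.and (SFP.eq (SFF.proj _) (SFF.const 0)) (SFP.eq (SFF.proj _) (SFF.const 0))
    · refine SFP.ex (q := fun (v : Option (Fin 2) → ℕ) r =>
        v (some 0) = v (some 1) * v none + r ∧ r < v (some 1)) ?_ ?_
      · exact SFP.and (SFP.eq (SFF.proj _) (((SFF.proj _).mul (SFF.proj _)).add (SFF.proj _)))
          (SFP.lt (SFF.proj _) (SFF.proj _))
      · rintro v y y' ⟨h, _⟩ ⟨h', _⟩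
        omega
    · rintro v ⟨h, _⟩ ⟨r, _, h'⟩
      omega
  · intro v y
    show _ ↔ y = v 0 / v 1
    constructor
    · rintro (⟨h, rfl⟩ | ⟨r, h, h'⟩)
      · simp [h]
      · rw [h, Nat.mul_add_div (by omega), Nat.div_eq_of_lt h']
        simp
    · rintro rfl
      rcases Nat.eq_zero_or_pos (v 1) with h | h
      · left
        simp [h]
      · right
        exact ⟨v 0 % v 1, (Nat.div_add_mod _ _).symm, Nat.mod_lt _ h⟩

theorem SFF.div {f g : (ι → ℕ) → ℕ} (hf : SFF f) (hg : SFF g) : SFF (fun v => f v / g v) :=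
  SF2_div.comp hf hg

theorem SFF.mod {f g : (ι → ℕ) → ℕ} (hf : SFF f) (hg : SFF g) : SFF (fun v => f v % g v) :=
  (hf.tsub (hg.mul (hf.div hg))).congr (fun v => by
    have := Nat.div_add_mod (f v) (g v)
    omega)

theorem SFF.max {f g : (ι → ℕ) → ℕ} (hf : SFF f) (hg : SFF g) : SFF (fun v => max (f v) (g v)) :=
  ((hf.tsub hg).add hg).congr (fun v => by omega)

theorem SFF.min {f g : (ι → ℕ) → ℕ} (hf : SFF f) (hg : SFF g) : SFF (fun v => min (f v) (g v)) :=
  (hf.tsub (hf.tsub hg)).congr (fun v => by omega)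

theorem SFD.dvd {f g : (ι → ℕ) → ℕ} (hf : SFF f) (hg : SFF g) : SFD (fun v => f v ∣ g v) :=
  (SFD.eq (hg.mod hf) (SFF.const 0)).congr (fun v => Nat.dvd_iff_mod_eq_zero)

theorem SFD.modEq {f g n : (ι → ℕ) → ℕ} (hn : SFF n) (hf : SFF f) (hg : SFF g) :
    SFD (fun v => f v ≡ g v [MOD n v]) :=
  SFD.eq (hf.mod hn) (hg.mod hn)

/-- coprimality as a single-fold predicate -/
theorem SFP.coprime {f g : (ι → ℕ) → ℕ} (hf : SFF f) (hg : SFF g) :
    SFP (fun v => Nat.Coprime (f v) (g v)) := by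
  have h : SR2 Nat.Coprime := by
    have : SFP (fun v : Fin 2 → ℕ => (v 1 = 0 ∧ v 0 = 1) ∨
        (∃ s, s < v 1 ∧ (s * v 0) % v 1 = 1 % v 1)) := by
      refine SFP.or ?_ ?_ ?_
      · exact SFP.and (SFP.eq (SFF.proj _) (SFF.const 0)) (SFP.eq (SFF.proj _) (SFF.const 1))
      · refine SFP.ex (q := fun (v : Fin 2 → ℕ) s => s < v 1 ∧ (s * v 0) % v 1 = 1 % v 1) ?_ ?_
        · exact SFP.and (SFP.lt (SFF.proj _) (SFF.proj _))
            (SFP.eq (((SFF.proj _).mul (SFF.proj _)).mod (SFF.proj _))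
              ((SFF.const 1).mod (SFF.proj _)))
        · rintro v s t ⟨h1, h2⟩ ⟨h3, h4⟩
          have h5 : s * v 0 ≡ t * v 0 [MOD v 1] := h2.trans h4.symm
          have hc : Nat.gcd (v 1) (v 0) = 1 := by
            have h6 : s * v 0 ≡ 1 [MOD v 1] := h2
            have := h6.gcd_eq
            simp only [Nat.gcd_one_left] at this
            have h7 : Nat.gcd (v 0) (v 1) ∣ Nat.gcd (s * v 0) (v 1) :=
              Nat.gcd_dvd_gcd_mul_left_left _ _ _
            rw [this] at h7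
            rw [Nat.gcd_comm]
            exact Nat.dvd_one.1 h7
          have h8 := Nat.ModEq.cancel_right_of_coprime hc h5
          have h9 : s % v 1 = t % v 1 := h8
          rwa [Nat.mod_eq_of_lt h1, Nat.mod_eq_of_lt h3] at h9
      · rintro v ⟨h, _⟩ ⟨s, h', _⟩
        omega
    refine this.congr (fun v => ?_)
    constructor
    · intro h
      rcases Nat.eq_zero_or_pos (v 1) with h0 | h0
      · left
        refine ⟨h0, ?_⟩
        rw [h0] at h
        exact (Nat.coprime_zero_right _).1 h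
      · right
        rcases Nat.eq_or_lt_of_le h0 with h1 | h1
        · refine ⟨0, h0, ?_⟩
          rw [← h1]
          simp
        · obtain ⟨m, hm1, hm⟩ := Nat.exists_mul_mod_eq_one_of_coprime h h1
          refine ⟨m, hm1, ?_⟩
          rw [mul_comm, hm, Nat.mod_eq_of_lt h1]
    · rintro (⟨h, h'⟩ | ⟨s, h1, h2⟩)
      · rw [h, h']
        exact Nat.coprime_zero_right 1 |>.2 rfl
      · have h6 : s * v 0 ≡ 1 [MOD v 1] := h2
        have := h6.gcd_eq
        simp only [Nat.gcd_one_left] at this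
        have h7 : Nat.gcd (v 0) (v 1) ∣ Nat.gcd (s * v 0) (v 1) :=
          Nat.gcd_dvd_gcd_mul_left_left _ _ _
        rw [this] at h7
        exact Nat.dvd_one.1 h7
  exact h.comp hf hg

/-- automation for `SFF`, `SFP`, `SFD` goals built from the basic operations -/
macro "sff" : tactic => `(tactic|
  repeat (first
    | assumption
    | exact SFF.proj _
    | exact SFF.const _
    | apply SFF.add
    | apply SFF.mul
    | apply SFF.tsub
    | apply SFF.div
    | apply SFF.mod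
    | apply SFF.npow
    | apply SFF.max
    | apply SFF.min
    | apply SFP.and
    | apply SFP.eq
    | apply SFP.lt
    | apply SFP.le
    | apply SFP.ne
    | apply SFD.and
    | apply SFD.or
    | apply SFD.imp
    | apply SFD.not
    | apply SFD.eq
    | apply SFD.ne
    | apply SFD.lt
    | apply SFD.le
    | apply SFD.dvd))

end Crest.Agent.R323
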