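import Crest.Agent.R323.Ell
import Crest.Agent.R323.PellSF
import Crest.Agent.R323.Final

/-!
# S0500: final assembly
-/

set_option autoImplicit false

namespace Crest.Agent.R323

theorem exists_ruler : ∃ a b p : ℕ → ℕ, Ruler a b p := by
  obtain ⟨a, b, p, h1, h2', h3, h4, h5, h6, h7, h8⟩ := ell_main
  refine ⟨a, b, p, h3, h4, fun k => (h5 k).1, fun k => (h5 k).2, h6, ?_, h8⟩
  intro j k
  rw [← h7 j k]
  exact Iff.rfl

theorem SF1_xn : SF1 (Pell.xn one_lt_two) := by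
  obtain ⟨a, b, p, R⟩ := exists_ruler
  exact SF1_xn_of_ruler R

theorem SF1_yn : SF1 (Pell.yn one_lt_two) := by
  obtain ⟨a, b, p, R⟩ := exists_ruler
  exact SF1_yn_of_ruler R

theorem main (n : ℕ) (S : Set (Fin n → ℕ)) (hS : REPred fun a => a ∈ S) :
    ∃ m : ℕ, 1 ≤ m ∧ ∃ P : MvPolynomial (Fin n ⊕ Fin m) ℤ, ∀ a : Fin n → ℕ,
      (a ∈ S → ∃! w : Fin m → ℕ,
        MvPolynomial.eval (Sum.elim (fun i => (a i : ℤ)) (fun j => (w j : ℤ))) P = 0) ∧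
      (a ∉ S → ∀ w : Fin m → ℕ,
        MvPolynomial.eval (Sum.elim (fun i => (a i : ℤ)) (fun j => (w j : ℤ))) P ≠ 0) :=
  main_of_pell SF1_xn SF1_yn n S hS

end Crest.Agent.R323
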