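import Crest.Agent.R323.Cert
import Crest.Agent.R323.SFFun

/-!
# The Pell functions are single-fold Diophantine
-/

set_option autoImplicit false

namespace Crest.Agent.R323

open Pell

theorem sys_iff {m x y X2 Y2 U V a b p a' b' p' : ℕ} :
    Sys m x y X2 Y2 U V a b p a' b' p' ↔
      ((x * x = 3 * y * y + 1 ∧ X2 * X2 = 3 * Y2 * Y2 + 1) ∧
       (U + XX x y = 2 * YY x y ∧ V + X2 = 2 * Y2)) ∧
      ((YY x y ∣ Y2 ∧ XX x y + 2 * YY x y ∣ V) ∧ U ∣ V) ∧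
      ((p ^ 2 = a ^ 4 + 8 * b ^ 4 ∧ Nat.Coprime a b) ∧
       (p' ^ 2 = a' ^ 4 + 8 * b' ^ 4 ∧ Nat.Coprime a' b')) ∧
      (Adj a b a' b' ∧ (p < p' ∧ (p < X2 ∧ (X2 ≤ p' ∧ p' ≤ XX x y ^ 6 * p)))) ∧
      (Y2 ≡ (2 * m + 289) * YY x y [MOD (YY x y) ^ 3] ∧ 2 * m + 289 < (YY x y) ^ 2) := by
  constructor
  · rintro ⟨h1, h2, h3, h4, h5, h6, h7, h8, h9, h10, h11, h12, h13, h14, h15, h16, h17, h18⟩
    exact ⟨⟨⟨h1, h2⟩, h3, h4⟩, ⟨⟨h5, h6⟩, h7⟩, ⟨⟨h8, h9⟩, h10, h11⟩, ⟨h12, h13, h14, h15, h16⟩, h17, h18⟩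
  · rintro ⟨⟨⟨h1, h2⟩, h3, h4⟩, ⟨⟨h5, h6⟩, h7⟩, ⟨⟨h8, h9⟩, h10, h11⟩, ⟨h12, h13, h14, h15, h16⟩, h17, h18⟩
    exact ⟨h1, h2, h3, h4, h5, h6, h7, h8, h9, h10, h11, h12, h13, h14, h15, h16, h17, h18⟩

section

variable {ι : Type}

theorem SFF.XX {f g : (ι → ℕ) → ℕ} (hf : SFF f) (hg : SFF g) : SFF (fun v => XX (f v) (g v)) := by
  unfold Crest.Agent.R323.XX
  sff

theorem SFF.YY {f g : (ι → ℕ) → ℕ} (hf : SFF f) (hg : SFF g) : SFF (fun v => YY (f v) (g v)) := by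
  unfold Crest.Agent.R323.YY
  sff

theorem SFP.adj (i j k l : ι) : SFP (fun v : ι → ℕ => Adj (v i) (v j) (v k) (v l)) := by
  unfold Adj
  apply SFP.polyEq
  · have hi := PolyFn.proj i
    have hj := PolyFn.proj j
    have hk := PolyFn.proj k
    have hl := PolyFn.proj l
    exact (((((hj.pow 2).mul (hk.pow 2)).add ((hl.pow 2).mul (hi.pow 2))).sub
      (((PolyFn.const 8).mul (hj.pow 2)).mul (hl.pow 2))).sub ((hi.pow 2).mul (hk.pow 2))).pow 2
  · have hi := PolyFn.proj i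
    have hj := PolyFn.proj j
    have hk := PolyFn.proj k
    have hl := PolyFn.proj l
    exact ((((PolyFn.const 36).mul (hi.pow 2)).mul (hj.pow 2)).mul (hk.pow 2)).mul (hl.pow 2)

theorem sfp_sys (m x y X2 Y2 U V a b p a' b' p' : ι) :
    SFP (fun v : ι → ℕ => Sys (v m) (v x) (v y) (v X2) (v Y2) (v U) (v V) (v a) (v b) (v p)
      (v a') (v b') (v p')) := by
  have hX : SFF (fun v : ι → ℕ => XX (v x) (v y)) := SFF.XX (SFF.proj _) (SFF.proj _)
  have hY : SFF (fun v : ι → ℕ => YY (v x) (v y)) := SFF.YY (SFF.proj _) (SFF.proj _)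
  simp only [sys_iff]
  refine SFP.and (SFP.and (SFP.and ?_ ?_) (SFP.and ?_ ?_)) (SFP.and (SFP.and (SFP.and ?_ ?_) ?_)
    (SFP.and (SFP.and (SFP.and ?_ ?_) (SFP.and ?_ ?_)) (SFP.and (SFP.and ?_ (SFP.and ?_
      (SFP.and ?_ (SFP.and ?_ ?_)))) (SFP.and ?_ ?_))))
  · sff
  · sff
  · sff
  · sff
  · exact (SFD.dvd hY (SFF.proj _)).1
  · exact (SFD.dvd (hX.add ((SFF.const 2).mul hY)) (SFF.proj _)).1
  · exact (SFD.dvd (SFF.proj _) (SFF.proj _)).1
  · sff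
  · exact SFP.coprime (SFF.proj _) (SFF.proj _)
  · sff
  · exact SFP.coprime (SFF.proj _) (SFF.proj _)
  · exact SFP.adj _ _ _ _
  · sff
  · sff
  · sff
  · sff
  · refine (SFD.modEq (hY.npow 3) (SFF.proj _) (?_)).1
    exact SFF.mul (SFF.add (SFF.mul (SFF.const 2) (SFF.proj _)) (SFF.const 289)) hY
  · sff

end

/-- the eleven unknowns of the graph of `xn` -/
theorem SF1_xn_of_ruler {A B P : ℕ → ℕ} (R : Ruler A B P) : SF1 (fun m => xn h2 m) := by
  have key : SFP (fun v : Option (Fin 1) → ℕ => ∃ w : Fin 11 → ℕ,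
      (fun u : Option (Fin 1) ⊕ Fin 11 → ℕ =>
        Sys (u (Sum.inl (some 0))) (u (Sum.inl none)) (u (Sum.inr 0)) (u (Sum.inr 1))
          (u (Sum.inr 2)) (u (Sum.inr 3)) (u (Sum.inr 4)) (u (Sum.inr 5)) (u (Sum.inr 6))
          (u (Sum.inr 7)) (u (Sum.inr 8)) (u (Sum.inr 9)) (u (Sum.inr 10))) (Sum.elim v w)) := by
    refine SFP.exBlock (q := fun u : Option (Fin 1) ⊕ Fin 11 → ℕ =>
        Sys (u (Sum.inl (some 0))) (u (Sum.inl none)) (u (Sum.inr 0)) (u (Sum.inr 1))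
          (u (Sum.inr 2)) (u (Sum.inr 3)) (u (Sum.inr 4)) (u (Sum.inr 5)) (u (Sum.inr 6))
          (u (Sum.inr 7)) (u (Sum.inr 8)) (u (Sum.inr 9)) (u (Sum.inr 10))) ?_ ?_
    · exact sfp_sys _ _ _ _ _ _ _ _ _ _ _ _ _
    · intro v w w' h h'
      simp only [Sum.elim_inl, Sum.elim_inr] at h h'
      have hy : w 0 = w' 0 := by
        have e1 := (h.sound R).2.1
        have e2 := (h'.sound R).2.1
        rw [e1, e2]
      rw [← hy] at h'
      obtain ⟨e1, e2, e3, e4, e5, e6, e7, e8, e9, e10⟩ := Sys.unique R h h'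
      ext i
      fin_cases i
      · exact hy
      · exact e1
      · exact e2
      · exact e3
      · exact e4
      · exact e5
      · exact e6
      · exact e7
      · exact e8
      · exact e9
      · exact e10
  refine SFP.congr key (fun v => ?_)
  simp only [Sum.elim_inl, Sum.elim_inr]
  constructor
  · intro h
    obtain ⟨X2, Y2, U, V, a, b, p, a', b', p', hs⟩ := Sys.complete R (v (some 0))
    refine ⟨![yn h2 (v (some 0)), X2, Y2, U, V, a, b, p, a', b', p'], ?_⟩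
    rw [h]
    exact hs
  · rintro ⟨w, hw⟩
    exact (hw.sound R).1

/-- the graph of `yn` -/
theorem SF1_yn_of_ruler {A B P : ℕ → ℕ} (R : Ruler A B P) : SF1 (fun m => yn h2 m) := by
  have key : SFP (fun v : Option (Fin 1) → ℕ => ∃ w : Fin 11 → ℕ,
      (fun u : Option (Fin 1) ⊕ Fin 11 → ℕ =>
        Sys (u (Sum.inl (some 0))) (u (Sum.inr 0)) (u (Sum.inl none)) (u (Sum.inr 1))
          (u (Sum.inr 2)) (u (Sum.inr 3)) (u (Sum.inr 4)) (u (Sum.inr 5)) (u (Sum.inr 6))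
          (u (Sum.inr 7)) (u (Sum.inr 8)) (u (Sum.inr 9)) (u (Sum.inr 10))) (Sum.elim v w)) := by
    refine SFP.exBlock (q := fun u : Option (Fin 1) ⊕ Fin 11 → ℕ =>
        Sys (u (Sum.inl (some 0))) (u (Sum.inr 0)) (u (Sum.inl none)) (u (Sum.inr 1))
          (u (Sum.inr 2)) (u (Sum.inr 3)) (u (Sum.inr 4)) (u (Sum.inr 5)) (u (Sum.inr 6))
          (u (Sum.inr 7)) (u (Sum.inr 8)) (u (Sum.inr 9)) (u (Sum.inr 10))) ?_ ?_
    · exact sfp_sys _ _ _ _ _ _ _ _ _ _ _ _ _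
    · intro v w w' h h'
      simp only [Sum.elim_inl, Sum.elim_inr] at h h'
      have hy : w 0 = w' 0 := by
        have e1 := (h.sound R).1
        have e2 := (h'.sound R).1
        rw [e1, e2]
      rw [← hy] at h'
      obtain ⟨e1, e2, e3, e4, e5, e6, e7, e8, e9, e10⟩ := Sys.unique R h h'
      ext i
      fin_cases i
      · exact hy
      · exact e1
      · exact e2
      · exact e3
      · exact e4
      · exact e5
      · exact e6
      · exact e7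
      · exact e8
      · exact e9
      · exact e10
  refine SFP.congr key (fun v => ?_)
  simp only [Sum.elim_inl, Sum.elim_inr]
  constructor
  · intro h
    obtain ⟨X2, Y2, U, V, a, b, p, a', b', p', hs⟩ := Sys.complete R (v (some 0))
    refine ⟨![xn h2 (v (some 0)), X2, Y2, U, V, a, b, p, a', b', p'], ?_⟩
    rw [h]
    exact hs
  · rintro ⟨w, hw⟩
    exact (hw.sound R).2.1

end Crest.Agent.R323
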