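import Mathlib.NumberTheory.PellMatiyasevic
import Mathlib.Tactic

namespace Crest.Agent.R323

open Pell

/-- the fixed parameter proof `1 < 2` -/
theorem h2 : 1 < 2 := by norm_num

/-! ### (1) the index certificate -/

theorem lcm_aux (n N : ℕ) (hn : 2 ≤ n) (hN : 1 ≤ N)
    (h0 : n ∣ N) (h1 : n + 1 ∣ N - 1) (h2' : n - 1 ∣ N - 1) :
    (n : ℤ) * (n ^ 2 - 1) ∣ 2 * ((N : ℤ) - n ^ 2) := by
  obtain ⟨m, rfl⟩ : ∃ m, n = m + 2 := ⟨n - 2, by omega⟩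
  have e0 : ((m : ℤ) + 2) ∣ (N : ℤ) := by exact_mod_cast h0
  have e1 : ((m : ℤ) + 3) ∣ (N : ℤ) - 1 := by
    have := Int.natCast_dvd_natCast.mpr h1
    push_cast [Nat.cast_sub hN] at this
    convert this using 1
    ring
  have e2 : ((m : ℤ) + 1) ∣ (N : ℤ) - 1 := by
    have := Int.natCast_dvd_natCast.mpr h2'
    rw [Nat.cast_sub hN] at this
    have e : m + 2 - 1 = m + 1 := by omega
    rw [e] at this
    push_cast at this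
    exact this
  -- now set D = N - n^2
  have f0 : ((m : ℤ) + 2) ∣ (N : ℤ) - (m + 2) ^ 2 := by
    apply dvd_sub e0
    exact Dvd.intro _ (by ring : ((m:ℤ) + 2) * (m + 2) = (m + 2) ^ 2)
  have f1 : ((m : ℤ) + 3) ∣ (N : ℤ) - (m + 2) ^ 2 := by
    have : (N : ℤ) - (m + 2) ^ 2 = (N - 1) - (m + 3) * (m + 1) := by ring
    rw [this]
    exact dvd_sub e1 (Dvd.intro _ rfl)
  have f2 : ((m : ℤ) + 1) ∣ (N : ℤ) - (m + 2) ^ 2 := by
    have : (N : ℤ) - (m + 2) ^ 2 = (N - 1) - (m + 1) * (m + 3) := by ring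
    rw [this]
    exact dvd_sub e2 (Dvd.intro _ rfl)
  obtain ⟨u, hu⟩ := f0
  obtain ⟨v, hv⟩ := f1
  obtain ⟨w, hw⟩ := f2
  -- D = (m+2) u = (m+3) v = (m+1) w
  -- 2 D = D * [ (m+1)(m+2) - 2 (m+1)(m+3) + (m+2)(m+3) ]
  push_cast
  refine ⟨v - 2 * u + w, ?_⟩
  set D : ℤ := (N : ℤ) - (m + 2) ^ 2 with hD
  have : 2 * D = ((m : ℤ) + 1) * (m + 2) * D - 2 * (m + 1) * (m + 3) * D + (m + 2) * (m + 3) * D := by
    ring
  rw [this]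
  have a1 : ((m : ℤ) + 1) * (m + 2) * D = (m + 1) * (m + 2) * ((m + 3) * v) := by rw [← hv]
  have a2 : 2 * ((m : ℤ) + 1) * (m + 3) * D = 2 * (m + 1) * (m + 3) * ((m + 2) * u) := by rw [← hu]
  have a3 : ((m : ℤ) + 2) * (m + 3) * D = (m + 2) * (m + 3) * ((m + 1) * w) := by rw [← hw]
  rw [a1, a2, a3]
  ring

theorem index_sq_aux (n N : ℕ) (hn : 2 ≤ n) (hN : 1 ≤ N)
    (h0 : n ∣ N) (h1 : n + 1 ∣ N - 1) (h2' : n - 1 ∣ N - 1)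
    (b1 : 2 * N < n * (n ^ 2 - 1)) (b2 : 2 * n ^ 2 < n * (n ^ 2 - 1)) : N = n ^ 2 := by
  have key := lcm_aux n N hn hN h0 h1 h2'
  have hn2 : 1 ≤ n ^ 2 := Nat.one_le_pow _ _ (by omega)
  have c1 : 2 * (N : ℤ) < n * (n ^ 2 - 1) := by
    have := Int.ofNat_lt.mpr b1
    push_cast [Nat.cast_sub hn2] at this
    exact this
  have c2 : 2 * (n : ℤ) ^ 2 < n * (n ^ 2 - 1) := by
    have := Int.ofNat_lt.mpr b2
    push_cast [Nat.cast_sub hn2] at this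
    exact this
  have : 2 * ((N : ℤ) - n ^ 2) = 0 := by
    apply Int.eq_zero_of_abs_lt_dvd key
    rw [abs_lt]
    constructor
    · have : (0 : ℤ) ≤ N := by positivity
      linarith
    · have : (0 : ℤ) ≤ (n : ℤ) ^ 2 := by positivity
      linarith
  have h3 : (N : ℤ) = n ^ 2 := by linarith
  exact_mod_cast h3

theorem index_sq (n N : ℕ) (h0 : yn h2 n ∣ yn h2 N) (h1 : yn h2 (n + 1) ∣ yn h2 (N - 1))
    (h2' : yn h2 (n - 1) ∣ yn h2 (N - 1)) (hn : 2 ≤ n) (hN : 1 ≤ N)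
    (b1 : 2 * N < n * (n ^ 2 - 1)) (b2 : 2 * n ^ 2 < n * (n ^ 2 - 1)) : N = n ^ 2 :=
  index_sq_aux n N hn hN ((y_dvd_iff h2 _ _).1 h0) ((y_dvd_iff h2 _ _).1 h1)
    ((y_dvd_iff h2 _ _).1 h2') b1 b2

/-- the converse (existence half): the three divisibilities hold for `N = n^2`. -/
theorem index_sq_conv (n : ℕ) (hn : 1 ≤ n) :
    yn h2 n ∣ yn h2 (n ^ 2) ∧ yn h2 (n + 1) ∣ yn h2 (n ^ 2 - 1) ∧
      yn h2 (n - 1) ∣ yn h2 (n ^ 2 - 1) := by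
  obtain ⟨m, rfl⟩ : ∃ m, n = m + 1 := ⟨n - 1, by omega⟩
  have e : (m + 1) ^ 2 - 1 = m * (m + 2) := by
    have : (m + 1) ^ 2 = m * (m + 2) + 1 := by ring
    omega
  refine ⟨(y_dvd_iff h2 _ _).2 ?_, (y_dvd_iff h2 _ _).2 ?_, (y_dvd_iff h2 _ _).2 ?_⟩
  · exact Dvd.intro _ (by ring : (m + 1) * (m + 1) = (m + 1) ^ 2)
  · rw [e]
    exact Dvd.intro _ (by ring : (m + 1 + 1) * m = m * (m + 2))
  · rw [e]
    exact Dvd.intro _ (by simp : (m + 1 - 1) * (m + 2) = m * (m + 2))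

/-! ### (2) growth -/

theorem xn_ge_two_pow (n : ℕ) : 2 ^ n ≤ xn h2 n := xn_ge_a_pow h2 n

theorem xn_le_four_pow (n : ℕ) : xn h2 n ≤ 4 ^ n := by
  suffices h : xn h2 n ≤ 4 ^ n ∧ xn h2 (n + 1) ≤ 4 * xn h2 n by exact h.1
  induction n with
  | zero => simp
  | succ k ih =>
    obtain ⟨ih1, ih2⟩ := ih
    refine ⟨?_, ?_⟩
    · calc xn h2 (k + 1) ≤ 4 * xn h2 k := ih2
        _ ≤ 4 * 4 ^ k := Nat.mul_le_mul_left _ ih1
        _ = 4 ^ (k + 1) := by ring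
    · have := xn_succ_succ h2 k
      show xn h2 (k + 2) ≤ 4 * xn h2 (k + 1)
      omega

theorem xn_bounds (n : ℕ) : 2 ^ n ≤ xn h2 n ∧ xn h2 n ≤ 4 ^ n :=
  ⟨xn_ge_two_pow n, xn_le_four_pow n⟩

/-! ### (3) reading -/

theorem xn_sq_modEq (n : ℕ) : xn h2 n ^ 2 ≡ 1 [MOD (yn h2 n) ^ 2] := by
  obtain ⟨D, h⟩ : ∃ D : ℤ, (xn h2 n : ℤ) * xn h2 n - D * yn h2 n * yn h2 n = 1 :=
    ⟨_, pell_eqz h2 n⟩
  rw [← Int.natCast_modEq_iff]
  rw [Int.modEq_iff_dvd]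
  push_cast
  have e : (xn h2 n : ℤ) ^ 2 = 1 + D * (yn h2 n) ^ 2 := by
    linarith
  rw [e]
  exact ⟨-D, by ring⟩

theorem reading_odd (n : ℕ) (hn : Odd n) :
    yn h2 (n * n) ≡ n * yn h2 n [MOD (yn h2 n) ^ 3] := by
  have h := (xy_modEq_yn h2 n n).2
  refine h.trans ?_
  obtain ⟨m, hm⟩ := hn
  have e : xn h2 n ^ (n - 1) ≡ 1 [MOD (yn h2 n) ^ 2] := by
    have : n - 1 = 2 * m := by omega
    rw [this, pow_mul]
    have := (xn_sq_modEq n).pow m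
    simpa using this
  have e' : xn h2 n ^ (n - 1) * yn h2 n ≡ 1 * yn h2 n [MOD (yn h2 n) ^ 2 * yn h2 n] :=
    Nat.ModEq.mul_right' _ e
  have e'' : n * (xn h2 n ^ (n - 1) * yn h2 n) ≡ n * (1 * yn h2 n) [MOD (yn h2 n) ^ 2 * yn h2 n] :=
    Nat.ModEq.mul_left _ e'
  have : (yn h2 n) ^ 2 * yn h2 n = (yn h2 n) ^ 3 := by ring
  rw [this] at e''
  simpa [mul_assoc] using e''

/-- the reading determines `m0`: if `yn (n*n) ≡ m0 * yn n` mod `(yn n)^3` and `m0 < (yn n)^2`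
and `n < (yn n)^2` then `m0 = n`. -/
theorem reading_unique (n m0 : ℕ) (hn : Odd n) (hm0 : m0 < (yn h2 n) ^ 2)
    (hn2 : n < (yn h2 n) ^ 2)
    (h : yn h2 (n * n) ≡ m0 * yn h2 n [MOD (yn h2 n) ^ 3]) : m0 = n := by
  have h1 := (h.symm.trans (reading_odd n hn))
  have hpos : 0 < yn h2 n := by
    rcases Nat.eq_zero_or_pos (yn h2 n) with h0 | h0
    · rw [h0] at hn2; simp at hn2
    · exact h0
  have e : (yn h2 n) ^ 3 = (yn h2 n) ^ 2 * yn h2 n := by ring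
  rw [e] at h1
  have h2'' := Nat.ModEq.mul_right_cancel' (Nat.pos_iff_ne_zero.mp hpos) h1
  exact Nat.ModEq.eq_of_lt_of_lt h2'' hm0 hn2

theorem lt_yn_sq (n : ℕ) (hn : 2 ≤ n) : n < (yn h2 n) ^ 2 := by
  have := yn_ge_n h2 n
  nlinarith

/-! ### (4) the ruler sequence -/

section Ruler

variable {p : ℕ → ℕ}

theorem ruler_pos (p0 : p 0 = 1) (p1 : p 1 = 3)
    (hp : ∀ k, 9 * p (k + 1) ^ 2 ≤ p (k + 2) * p k ∧ p (k + 2) * p k ≤ 15 * p (k + 1) ^ 2) :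
    ∀ k, 0 < p k ∧ 0 < p (k + 1) := by
  intro k
  induction k with
  | zero => rw [p0, zero_add, p1]; omega
  | succ k ih =>
    refine ⟨ih.2, ?_⟩
    have h := (hp k).1
    rcases Nat.eq_zero_or_pos (p (k + 2)) with h0 | h0
    · rw [h0] at h
      have : 0 < 9 * p (k + 1) ^ 2 := by have := ih.2; positivity
      omega
    · exact h0

theorem ruler_ratio (p0 : p 0 = 1) (p1 : p 1 = 3)
    (hp : ∀ k, 9 * p (k + 1) ^ 2 ≤ p (k + 2) * p k ∧ p (k + 2) * p k ≤ 15 * p (k + 1) ^ 2) :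
    ∀ k, 3 * 9 ^ k * p k ≤ p (k + 1) ∧ p (k + 1) ≤ 3 * 15 ^ k * p k := by
  intro k
  induction k with
  | zero => rw [p0, zero_add, p1]; simp
  | succ k ih =>
    obtain ⟨ih1, ih2⟩ := ih
    obtain ⟨h1, h2⟩ := hp k
    obtain ⟨q0, q1⟩ := ruler_pos p0 p1 hp k
    constructor
    · apply Nat.le_of_mul_le_mul_right _ q0
      calc 3 * 9 ^ (k + 1) * p (k + 1) * p k = 9 * p (k + 1) * (3 * 9 ^ k * p k) := by ring
        _ ≤ 9 * p (k + 1) * p (k + 1) := Nat.mul_le_mul_left _ ih1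
        _ = 9 * p (k + 1) ^ 2 := by ring
        _ ≤ p (k + 2) * p k := h1
    · apply Nat.le_of_mul_le_mul_right _ q0
      calc p (k + 2) * p k ≤ 15 * p (k + 1) ^ 2 := h2
        _ = 15 * p (k + 1) * p (k + 1) := by ring
        _ ≤ 15 * p (k + 1) * (3 * 15 ^ k * p k) := Nat.mul_le_mul_left _ ih2
        _ = 3 * 15 ^ (k + 1) * p (k + 1) * p k := by ring

theorem ruler_strictMono (p0 : p 0 = 1) (p1 : p 1 = 3)
    (hp : ∀ k, 9 * p (k + 1) ^ 2 ≤ p (k + 2) * p k ∧ p (k + 2) * p k ≤ 15 * p (k + 1) ^ 2) :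
    StrictMono p := by
  apply strictMono_nat_of_lt_succ
  intro k
  have h := (ruler_ratio p0 p1 hp k).1
  have q := (ruler_pos p0 p1 hp k).1
  have : 1 ≤ 9 ^ k := Nat.one_le_pow _ _ (by norm_num)
  nlinarith

theorem ruler_lower (p0 : p 0 = 1) (p1 : p 1 = 3)
    (hp : ∀ k, 9 * p (k + 1) ^ 2 ≤ p (k + 2) * p k ∧ p (k + 2) * p k ≤ 15 * p (k + 1) ^ 2) :
    ∀ k, 3 ^ (k ^ 2) ≤ p k := by
  intro k
  induction k with
  | zero => simp [p0]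
  | succ k ih =>
    calc 3 ^ ((k + 1) ^ 2) = 3 * 9 ^ k * 3 ^ (k ^ 2) := by
          have : (9 : ℕ) ^ k = 3 ^ (2 * k) := by rw [pow_mul]; norm_num
          rw [this]; ring
      _ ≤ 3 * 9 ^ k * p k := Nat.mul_le_mul_left _ ih
      _ ≤ p (k + 1) := (ruler_ratio p0 p1 hp k).1

theorem ruler_upper (p0 : p 0 = 1) (p1 : p 1 = 3)
    (hp : ∀ k, 9 * p (k + 1) ^ 2 ≤ p (k + 2) * p k ∧ p (k + 2) * p k ≤ 15 * p (k + 1) ^ 2) :
    ∀ k, p k ≤ 15 ^ (k ^ 2) := by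
  intro k
  induction k with
  | zero => simp [p0]
  | succ k ih =>
    calc p (k + 1) ≤ 3 * 15 ^ k * p k := (ruler_ratio p0 p1 hp k).2
      _ ≤ 3 * 15 ^ k * 15 ^ (k ^ 2) := Nat.mul_le_mul_left _ ih
      _ ≤ 15 * 15 ^ k * 15 ^ (k ^ 2) := by
          apply Nat.mul_le_mul_right
          apply Nat.mul_le_mul_right
          norm_num
      _ ≤ 15 * 15 ^ k * 15 ^ (k ^ 2) * 15 ^ k := by
          apply Nat.le_mul_of_pos_right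
          positivity
      _ = 15 ^ ((k + 1) ^ 2) := by ring

/-! ### (5) sizes -/

theorem size_a (p0 : p 0 = 1) (p1 : p 1 = 3)
    (hp : ∀ k, 9 * p (k + 1) ^ 2 ≤ p (k + 2) * p k ∧ p (k + 2) * p k ≤ 15 * p (k + 1) ^ 2)
    (n : ℕ) (hn : 289 ≤ n) (N k : ℕ) (h2N : xn h2 N ≤ p (k + 1))
    (h3 : p (k + 1) ≤ xn h2 n ^ 6 * p k) : 2 * N < n * (n ^ 2 - 1) := by
  have q := (ruler_pos p0 p1 hp k).1
  have r := (ruler_ratio p0 p1 hp k).1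
  have hX := xn_le_four_pow n
  -- 3 * 9^k ≤ X^6
  have e1 : 3 * 9 ^ k ≤ xn h2 n ^ 6 := by
    apply Nat.le_of_mul_le_mul_right _ q
    exact r.trans h3
  have e2 : xn h2 n ^ 6 ≤ 3 ^ (12 * n) := by
    calc xn h2 n ^ 6 ≤ (4 ^ n) ^ 6 := Nat.pow_le_pow_left hX 6
      _ = 2 ^ (12 * n) := by
          rw [← pow_mul]
          have : (4 : ℕ) = 2 ^ 2 := by norm_num
          rw [this, ← pow_mul]
          congr 1; ring
      _ ≤ 3 ^ (12 * n) := Nat.pow_le_pow_left (by norm_num) _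
  have e3 : 3 ^ (2 * k + 1) ≤ 3 ^ (12 * n) := by
    calc 3 ^ (2 * k + 1) = 3 * 9 ^ k := by
          rw [pow_succ, pow_mul]; norm_num; ring
      _ ≤ _ := e1.trans e2
  have e4 : 2 * k + 1 ≤ 12 * n := (Nat.pow_le_pow_iff_right (by norm_num)).1 e3
  have e5 : k + 1 ≤ 6 * n := by omega
  have e6 : 2 ^ N ≤ 2 ^ (4 * (6 * n) ^ 2) := by
    calc 2 ^ N ≤ xn h2 N := xn_ge_two_pow N
      _ ≤ p (k + 1) := h2N
      _ ≤ 15 ^ ((k + 1) ^ 2) := ruler_upper p0 p1 hp (k + 1)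
      _ ≤ 16 ^ ((k + 1) ^ 2) := Nat.pow_le_pow_left (by norm_num) _
      _ ≤ 16 ^ ((6 * n) ^ 2) := Nat.pow_le_pow_right (by norm_num) (Nat.pow_le_pow_left e5 2)
      _ = 2 ^ (4 * (6 * n) ^ 2) := by rw [pow_mul]; norm_num
  have e7 : N ≤ 4 * (6 * n) ^ 2 := (Nat.pow_le_pow_iff_right (by norm_num)).1 e6
  have hn2 : 1 ≤ n ^ 2 := Nat.one_le_pow _ _ (by omega)
  obtain ⟨m, hm⟩ : ∃ m, n ^ 2 = m + 1 := ⟨n ^ 2 - 1, by omega⟩
  have e8 : n ^ 2 - 1 = m := by omega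
  rw [e8]
  have : 4 * (6 * n) ^ 2 = 144 * n ^ 2 := by ring
  nlinarith

theorem two_sq_lt (n : ℕ) (hn : 4 ≤ n) : 2 * n ^ 2 < n * (n ^ 2 - 1) := by
  have hn2 : 1 ≤ n ^ 2 := Nat.one_le_pow _ _ (by omega)
  obtain ⟨m, hm⟩ : ∃ m, n ^ 2 = m + 1 := ⟨n ^ 2 - 1, by omega⟩
  have e8 : n ^ 2 - 1 = m := by omega
  rw [e8]
  nlinarith

theorem size_b (p0 : p 0 = 1) (p1 : p 1 = 3)
    (hp : ∀ k, 9 * p (k + 1) ^ 2 ≤ p (k + 2) * p k ∧ p (k + 2) * p k ≤ 15 * p (k + 1) ^ 2)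
    (n : ℕ) (hn : 3 ≤ n) :
    ∃ k, p k < xn h2 (n ^ 2) ∧ xn h2 (n ^ 2) ≤ p (k + 1) ∧ p (k + 1) ≤ xn h2 n ^ 6 * p k := by
  classical
  have hmono := ruler_strictMono p0 p1 hp
  have hex : ∃ j, xn h2 (n ^ 2) ≤ p j := ⟨xn h2 (n ^ 2), hmono.le_apply⟩
  set j := Nat.find hex with hj
  have hj1 : xn h2 (n ^ 2) ≤ p j := Nat.find_spec hex
  have hj0 : j ≠ 0 := by
    intro h0
    rw [h0, p0] at hj1
    have : n ^ 2 < xn h2 (n ^ 2) := n_lt_xn h2 _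
    have : 0 < n ^ 2 := by positivity
    omega
  obtain ⟨k, hk⟩ : ∃ k, j = k + 1 := ⟨j - 1, by omega⟩
  have hlt : p k < xn h2 (n ^ 2) := by
    have := Nat.find_min hex (m := k) (by omega)
    omega
  refine ⟨k, hlt, by rw [← hk]; exact hj1, ?_⟩
  refine ((ruler_ratio p0 p1 hp k).2).trans ?_
  apply Nat.mul_le_mul_right
  have g1 : 3 ^ (k ^ 2) < 4 ^ (n ^ 2) :=
    lt_of_le_of_lt (ruler_lower p0 p1 hp k) (lt_of_lt_of_le hlt (xn_le_four_pow _))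
  have g2 : 3 * k ≤ 4 * n := by
    by_contra hcon
    have hcon' : 4 * n ≤ 3 * k := by omega
    have h1 : (4 * n) ^ 2 ≤ (3 * k) ^ 2 := Nat.pow_le_pow_left hcon' 2
    have h2' : (3 : ℕ) ^ ((4 * n) ^ 2) ≤ 3 ^ ((3 * k) ^ 2) := Nat.pow_le_pow_right (by norm_num) h1
    have h3 : (3 : ℕ) ^ ((3 * k) ^ 2) = (3 ^ (k ^ 2)) ^ 9 := by
      rw [← pow_mul]; congr 1; ring
    have h4 : (3 : ℕ) ^ ((4 * n) ^ 2) = (3 ^ 16) ^ (n ^ 2) := by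
      rw [← pow_mul]; congr 1; ring
    have h5 : (3 ^ (k ^ 2)) ^ 9 < (4 ^ (n ^ 2)) ^ 9 := Nat.pow_lt_pow_left g1 (by norm_num)
    have h6 : ((4 : ℕ) ^ (n ^ 2)) ^ 9 = (4 ^ 9) ^ (n ^ 2) := by
      rw [← pow_mul, ← pow_mul]; congr 1; ring
    have h7 : ((4 : ℕ) ^ 9) ^ (n ^ 2) ≤ (3 ^ 16) ^ (n ^ 2) := Nat.pow_le_pow_left (by norm_num) _
    rw [h3, h4] at h2'
    rw [h6] at h5
    exact absurd (lt_of_le_of_lt h2' h5) (not_lt.mpr h7)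
  have g3 : (3 * 15 ^ k) ^ 3 ≤ (xn h2 n ^ 6) ^ 3 := by
    calc (3 * 15 ^ k) ^ 3 = 27 * 15 ^ (3 * k) := by
          rw [mul_pow, ← pow_mul, mul_comm k 3]; norm_num
      _ ≤ 27 * 15 ^ (4 * n) := Nat.mul_le_mul_left _ (Nat.pow_le_pow_right (by norm_num) g2)
      _ = 27 * 50625 ^ n := by rw [pow_mul]; norm_num
      _ ≤ 5 ^ n * 50625 ^ n := by
          apply Nat.mul_le_mul_right
          calc 27 ≤ 5 ^ 3 := by norm_num
            _ ≤ 5 ^ n := Nat.pow_le_pow_right (by norm_num) hn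
      _ = 253125 ^ n := by rw [← mul_pow]; norm_num
      _ ≤ 262144 ^ n := Nat.pow_le_pow_left (by norm_num) _
      _ = ((2 ^ n) ^ 6) ^ 3 := by
          rw [← pow_mul, ← pow_mul]
          have : (262144 : ℕ) = 2 ^ 18 := by norm_num
          rw [this, ← pow_mul]
          congr 1; ring
      _ ≤ (xn h2 n ^ 6) ^ 3 := by
          apply Nat.pow_le_pow_left
          apply Nat.pow_le_pow_left
          exact xn_ge_two_pow n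
  exact (Nat.pow_le_pow_iff_left (by norm_num)).1 g3

/-- uniqueness of the ruler index. -/
theorem ruler_index_unique (p0 : p 0 = 1) (p1 : p 1 = 3)
    (hp : ∀ k, 9 * p (k + 1) ^ 2 ≤ p (k + 2) * p k ∧ p (k + 2) * p k ≤ 15 * p (k + 1) ^ 2)
    {X k k' : ℕ} (h1 : p k < X) (h1' : X ≤ p (k + 1)) (h2 : p k' < X) (h2' : X ≤ p (k' + 1)) :
    k = k' := by
  have hmono := ruler_strictMono p0 p1 hp
  have a1 : k < k' + 1 := hmono.lt_iff_lt.1 (lt_of_lt_of_le h1 h2')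
  have a2 : k' < k + 1 := hmono.lt_iff_lt.1 (lt_of_lt_of_le h2 h1')
  omega

/-- the packaged size lemma. -/
theorem size_lemma (p0 : p 0 = 1) (p1 : p 1 = 3)
    (hp : ∀ k, 9 * p (k + 1) ^ 2 ≤ p (k + 2) * p k ∧ p (k + 2) * p k ≤ 15 * p (k + 1) ^ 2) :
    ∃ n0, Odd n0 ∧ ∀ n, n0 ≤ n →
      (∀ N k, p k < xn h2 N → xn h2 N ≤ p (k + 1) → p (k + 1) ≤ xn h2 n ^ 6 * p k →
        2 * N < n * (n ^ 2 - 1)) ∧
      (∃ k, p k < xn h2 (n ^ 2) ∧ xn h2 (n ^ 2) ≤ p (k + 1) ∧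
        p (k + 1) ≤ xn h2 n ^ 6 * p k) := by
  refine ⟨289, by decide, ?_⟩
  intro n hn
  refine ⟨fun N k _ h1 h3 => size_a p0 p1 hp n hn N k h1 h3, size_b p0 p1 hp n (by omega)⟩

/-- Everything combined: for odd `n ≥ 289`, the certificate
`(Y ∣ Y2, y_{n+1} ∣ y_{N-1}, y_{n-1} ∣ y_{N-1}, p k < x_N ≤ p (k+1) ≤ x_n^6 p k)`
forces `N = n^2`, is satisfiable, `k` is unique, and `m0 < Y^2`, `y_N ≡ m0 Y [MOD Y^3]`
forces `m0 = n`. -/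
theorem pell_cert (p0 : p 0 = 1) (p1 : p 1 = 3)
    (hp : ∀ k, 9 * p (k + 1) ^ 2 ≤ p (k + 2) * p k ∧ p (k + 2) * p k ≤ 15 * p (k + 1) ^ 2)
    (n : ℕ) (hn : 289 ≤ n) (N k : ℕ) (hN : 1 ≤ N)
    (h0 : yn h2 n ∣ yn h2 N) (h1 : yn h2 (n + 1) ∣ yn h2 (N - 1))
    (h2' : yn h2 (n - 1) ∣ yn h2 (N - 1))
    (h5 : xn h2 N ≤ p (k + 1)) (h6 : p (k + 1) ≤ xn h2 n ^ 6 * p k) : N = n ^ 2 :=
  index_sq n N h0 h1 h2' (by omega) hN (size_a p0 p1 hp n hn N k h5 h6)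
    (two_sq_lt n (by omega))

end Ruler

end Crest.Agent.R323
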