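import Crest.Agent.R323.SFFun

/-!
# Primitive recursive functions have single-fold Diophantine graphs
-/

set_option autoImplicit false

namespace Crest.Agent.R323

section Digits

/-- `i`-th digit of `c` in base `Q` -/
def dg (Q c i : ℕ) : ℕ := c / Q ^ i % Q

theorem dg_lt {Q : ℕ} (hQ : 1 ≤ Q) (c i : ℕ) : dg Q c i < Q := Nat.mod_lt _ hQ

/-- digits determine the number -/
theorem eq_of_dg {Q : ℕ} (hQ : 1 ≤ Q) : ∀ (N : ℕ) (c c' : ℕ), c < Q ^ N → c' < Q ^ N →
    (∀ i < N, dg Q c i = dg Q c' i) → c = c' := by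
  intro N
  induction N with
  | zero => intro c c' h h' _; simp at h h'; omega
  | succ N ih =>
    intro c c' h h' hd
    have h1 : c / Q = c' / Q := by
      apply ih
      · rw [pow_succ] at h; exact Nat.div_lt_of_lt_mul (by rwa [mul_comm] at h)
      · rw [pow_succ] at h'; exact Nat.div_lt_of_lt_mul (by rwa [mul_comm] at h')
      · intro i hi
        have := hd (i + 1) (by omega)
        simp only [dg] at this ⊢
        rw [Nat.div_div_eq_div_mul, Nat.div_div_eq_div_mul, ← pow_succ']
        exact this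
    have h0 : c % Q = c' % Q := by
      have := hd 0 (by omega)
      simpa [dg] using this
    rw [← Nat.div_add_mod c Q, ← Nat.div_add_mod c' Q, h1, h0]

/-- existence of a code for a sequence of digits -/
theorem exists_code_digits {Q : ℕ} : ∀ (N : ℕ) (a : ℕ → ℕ), (∀ i < N, a i < Q) →
    ∃ c < Q ^ N, ∀ i < N, dg Q c i = a i := by
  intro N
  induction N with
  | zero => intro a _; exact ⟨0, by simp, by simp⟩
  | succ N ih =>
    intro a ha
    obtain ⟨c, hc, hd⟩ := ih (fun i => a (i + 1)) (fun i hi => ha (i + 1) (by omega))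
    have ha0 := ha 0 (by omega)
    refine ⟨a 0 + Q * c, ?_, ?_⟩
    · have : Q * (c + 1) ≤ Q * Q ^ N := Nat.mul_le_mul_left _ hc
      rw [pow_succ']
      nlinarith
    · intro i hi
      rcases i with _ | i
      · simp [dg, Nat.add_mul_mod_self_left, Nat.mod_eq_of_lt ha0]
      · have : (a 0 + Q * c) / Q ^ (i + 1) = c / Q ^ i := by
          rw [pow_succ', ← Nat.div_div_eq_div_mul, Nat.add_mul_div_left _ _ (by omega),
            Nat.div_eq_of_lt ha0, zero_add]
        simp only [dg]
        rw [this]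
        exact hd i (by omega)

/-- canonical code: base, code and the least position of the largest digit -/
def CanCode (N Q c j : ℕ) : Prop :=
  1 ≤ Q ∧ c < Q ^ (N + 1) ∧ j < N + 1 ∧ dg Q c j = Q - 1 ∧ ∀ i < j, dg Q c i < Q - 1

theorem exists_canCode (N : ℕ) (a : ℕ → ℕ) :
    ∃ Q c j, CanCode N Q c j ∧ ∀ i < N + 1, dg Q c i = a i := by
  classical
  obtain ⟨m, hm, hmax⟩ : ∃ m ∈ Finset.range (N + 1), ∀ i ∈ Finset.range (N + 1), a i ≤ a m :=
    Finset.exists_max_image _ _ ⟨0, by simp⟩
  have hex : ∃ j, j < N + 1 ∧ a j = a m := ⟨m, by simpa using hm, rfl⟩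
  let j := Nat.find hex
  have hj := Nat.find_spec hex
  obtain ⟨c, hc, hd⟩ := exists_code_digits (Q := a m + 1) (N + 1) a (fun i hi => by
    have := hmax i (by simpa using hi)
    omega)
  refine ⟨a m + 1, c, j, ⟨by omega, hc, hj.1, ?_, ?_⟩, hd⟩
  · rw [hd j hj.1, Nat.add_sub_cancel]; exact hj.2
  · intro i hi
    have hiN : i < N + 1 := lt_trans hi hj.1
    rw [hd i hiN, Nat.add_sub_cancel]
    have h1 := Nat.find_min hex hi
    have h2 := hmax i (by simpa using hiN)
    rcases Nat.lt_or_ge (a i) (a m) with h | h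
    · exact h
    · exact absurd ⟨hiN, le_antisymm h2 h⟩ h1

theorem canCode_unique {N Q c j Q' c' j' : ℕ} (h : CanCode N Q c j) (h' : CanCode N Q' c' j')
    (hd : ∀ i < N + 1, dg Q c i = dg Q' c' i) : Q = Q' ∧ c = c' ∧ j = j' := by
  obtain ⟨h1, h2, h3, h4, h5⟩ := h
  obtain ⟨h1', h2', h3', h4', h5'⟩ := h'
  have e1 : Q = Q' := by
    have a1 := hd j h3
    have a2 := hd j' h3'
    have b1 := dg_lt h1' c' j
    have b2 := dg_lt h1 c j'
    omega
  subst e1
  refine ⟨rfl, eq_of_dg h1 (N + 1) c c' h2 h2' hd, ?_⟩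
  rcases lt_trichotomy j j' with hlt | heq | hgt
  · have := h5' j hlt
    have a1 := hd j h3
    omega
  · exact heq
  · have := h5 j' hgt
    have a1 := hd j' h3'
    omega

end Digits

section Graph

variable {ι : Type}

/-- the exponentiation hypothesis -/
def PowH : Prop := SF2 (fun a n => a ^ n)

/-- the bounded quantifier hypothesis -/
def BallH : Prop := ∀ (ι : Type) [Finite ι] (q : (Option ι → ℕ) → Prop), SFP q →
  SFP (fun v : Option ι → ℕ => ∀ i < v none, q (fun o => o.elim i (fun j => v (some j))))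

theorem SFF.dg (hp : PowH) {Q c i : (ι → ℕ) → ℕ} (hQ : SFF Q) (hc : SFF c) (hi : SFF i) :
    SFF (fun v => dg (Q v) (c v) (i v)) :=
  SFF.mod (SFF.div hc (SF2.comp hp hQ hi)) hQ

/-- bounded quantifier with an SFF bound -/
theorem SFP.ballComp [Finite ι] (hB : BallH) {q : (Option ι → ℕ) → Prop} (hq : SFP q) {b : (ι → ℕ) → ℕ} (hb : SFF b) :
    SFP (fun v : ι → ℕ => ∀ i < b v, q (fun o => o.elim i v)) := by
  have h1 : SFP (fun v : Option ι → ℕ => (v none = b (fun j => v (some j))) ∧
      ∀ i < v none, q (fun o => o.elim i (fun j => v (some j)))) :=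
    SFP.and hb (hB ι q hq)
  refine (SFP.ex (q := fun v y => y = b v ∧ ∀ i < y, q (fun o => o.elim i v)) h1 ?_).congr ?_
  · rintro v y y' ⟨h, -⟩ ⟨h', -⟩
    rw [h, h']
  · intro v
    constructor
    · intro h
      exact ⟨b v, rfl, h⟩
    · rintro ⟨y, hy, h⟩
      have hy' : y = b v := hy
      subst hy'
      exact h

/-- single-fold functions of vectors -/
def SFV {n : ℕ} (f : List.Vector ℕ n → ℕ) : Prop :=
  SFF (fun v : Fin n → ℕ => f (List.Vector.ofFn v))

theorem SFV.comp {n : ℕ} {f : List.Vector ℕ n → ℕ} (hf : SFV f) {fs : Fin n → (ι → ℕ) → ℕ}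
    (hfs : ∀ i, SFF (fs i)) : SFF (fun v => f (List.Vector.ofFn fun i => fs i v)) :=
  SFF.comp hf hfs

theorem SFV.prec (hp : PowH) (hB : BallH) {n : ℕ} {f : List.Vector ℕ n → ℕ} {g : List.Vector ℕ (n + 2) → ℕ}
    (hf : SFV f) (hg : SFV g) :
    SFV (fun v : List.Vector ℕ (n + 1) =>
      v.head.rec (f v.tail) fun y IH => g (y ::ᵥ IH ::ᵥ v.tail)) := by
  -- the recursively defined function
  let H : (Fin n → ℕ) → ℕ → ℕ := fun x N =>
    N.rec (f (List.Vector.ofFn x)) fun y IH => g (y ::ᵥ IH ::ᵥ List.Vector.ofFn x)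
  let env := Option (Fin (n + 1)) ⊕ Fin 3
  let q : (env → ℕ) → Prop := fun u =>
    CanCode (u (Sum.inl (some 0))) (u (Sum.inr 0)) (u (Sum.inr 1)) (u (Sum.inr 2)) ∧
    R323.dg (u (Sum.inr 0)) (u (Sum.inr 1)) 0 =
      f (List.Vector.ofFn fun i : Fin n => u (Sum.inl (some i.succ))) ∧
    (∀ i < u (Sum.inl (some 0)), R323.dg (u (Sum.inr 0)) (u (Sum.inr 1)) (i + 1) =
      g (i ::ᵥ R323.dg (u (Sum.inr 0)) (u (Sum.inr 1)) i ::ᵥ
        List.Vector.ofFn fun i : Fin n => u (Sum.inl (some i.succ)))) ∧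
    R323.dg (u (Sum.inr 0)) (u (Sum.inr 1)) (u (Sum.inl (some 0))) = u (Sum.inl none)
  have hq : SFP q := by
    refine SFP.and ?_ (SFP.and ?_ (SFP.and ?_ ?_))
    · refine SFP.and (SFP.le (SFF.const 1) (SFF.proj _)) (SFP.and
        (SFP.lt (SFF.proj _) (SF2.comp hp (SFF.proj _) (SFF.add (SFF.proj _) (SFF.const 1))))
        (SFP.and (SFP.lt (SFF.proj _) (SFF.add (SFF.proj _) (SFF.const 1)))
        (SFP.and (SFP.eq (SFF.dg hp (SFF.proj _) (SFF.proj _) (SFF.proj _))
          (SFF.tsub (SFF.proj _) (SFF.const 1))) ?_)))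
      exact SFP.ballComp (ι := env) hB
        (q := fun u => R323.dg (u (some (Sum.inr 0))) (u (some (Sum.inr 1))) (u none) <
          u (some (Sum.inr 0)) - 1)
        (SFP.lt (SFF.dg hp (SFF.proj _) (SFF.proj _) (SFF.proj _))
          (SFF.tsub (SFF.proj _) (SFF.const 1))) (SFF.proj _)
    · exact SFP.eq (SFF.dg hp (SFF.proj _) (SFF.proj _) (SFF.const 0))
        (SFV.comp hf (fs := fun i u => u (Sum.inl (some i.succ))) (fun i => SFF.proj _))
    · refine SFP.ballComp (ι := env) hB
        (q := fun u => R323.dg (u (some (Sum.inr 0))) (u (some (Sum.inr 1))) (u none + 1) =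
          g (u none ::ᵥ R323.dg (u (some (Sum.inr 0))) (u (some (Sum.inr 1))) (u none) ::ᵥ
            List.Vector.ofFn fun i : Fin n => u (some (Sum.inl (some i.succ))))) ?_ (SFF.proj _)
      refine SFP.eq (SFF.dg hp (SFF.proj _) (SFF.proj _) (SFF.add (SFF.proj _) (SFF.const 1))) ?_
      let fs : Fin (n + 2) → ((Option env → ℕ) → ℕ) := Fin.cons (fun u => u none)
        (Fin.cons (fun u => R323.dg (u (some (Sum.inr 0))) (u (some (Sum.inr 1))) (u none))
          (fun i u => u (some (Sum.inl (some i.succ)))))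
      have hfs : ∀ i, SFF (fs i) := by
        intro i
        refine Fin.cases ?_ (fun i => Fin.cases ?_ (fun i => ?_) i) i
        · exact SFF.proj _
        · exact SFF.dg hp (SFF.proj _) (SFF.proj _) (SFF.proj _)
        · exact SFF.proj _
      exact SFV.comp hg hfs
    · exact SFP.eq (SFF.dg hp (SFF.proj _) (SFF.proj _) (SFF.proj _)) (SFF.proj _)
  have key : ∀ u : env → ℕ, q u → ∀ i < u (Sum.inl (some 0)) + 1,
      R323.dg (u (Sum.inr 0)) (u (Sum.inr 1)) i =
        H (fun i : Fin n => u (Sum.inl (some i.succ))) i := by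
    intro u hu i
    obtain ⟨-, h0, hs, -⟩ := hu
    induction i with
    | zero => intro _; exact h0
    | succ i ih =>
      intro hi
      rw [hs i (by omega), ih (by omega)]
  refine (SFP.exBlock (κ := Fin 3) hq ?_).congr ?_
  · intro v y y' h h'
    have k1 := key _ h
    have k2 := key _ h'
    have := canCode_unique h.1 h'.1 (fun i hi => by
      rw [k1 i hi, k2 i hi]; rfl)
    obtain ⟨e0, e1, e2⟩ := this
    ext i
    fin_cases i
    · exact e0
    · exact e1
    · exact e2
  · intro v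
    change (v none = H (fun i : Fin n => v (some i.succ)) (v (some 0))) ↔ _
    constructor
    · intro hv
      obtain ⟨Q, c, j, hcc, hd⟩ := exists_canCode (v (some 0)) (H (fun i : Fin n => v (some i.succ)))
      refine ⟨![Q, c, j], hcc, hd 0 (by omega), ?_, ?_⟩
      · intro i hi
        change i < v (some 0) at hi
        change R323.dg Q c (i + 1) = g (i ::ᵥ R323.dg Q c i ::ᵥ _)
        rw [hd (i + 1) (by omega), hd i (by omega)]
        rfl
      · change R323.dg Q c (v (some 0)) = v none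
        rw [hd _ (by omega), hv]
    · rintro ⟨y, hy⟩
      have k := key _ hy (v (some 0)) (Nat.lt_succ_self _)
      have hz := hy.2.2.2
      change R323.dg (y 0) (y 1) (v (some 0)) = v none at hz
      change R323.dg (y 0) (y 1) (v (some 0)) = H (fun i : Fin n => v (some i.succ)) (v (some 0)) at k
      rw [← hz, k]

theorem sfv_of_primrec' (hp : PowH) (hB : BallH) {n : ℕ} {f : List.Vector ℕ n → ℕ} (hf : Nat.Primrec' f) : SFV f := by
  induction hf with
  | zero => exact SFF.const 0
  | succ =>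
    have : SFF (fun v : Fin 1 → ℕ => v 0 + 1) := SFF.add (SFF.proj 0) (SFF.const 1)
    exact this
  | get i =>
    refine (SFF.proj i).congr ?_
    intro v
    simp
  | @comp m n f g hf hg ihf ihg =>
    exact SFV.comp ihf ihg
  | @prec n f g hf hg ihf ihg => exact SFV.prec hp hB ihf ihg

end Graph

end Crest.Agent.R323
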