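import Mathlib

/-!
# Rational points of `y^2 = 1 + 8 x^4` with `y > 0`

Translation by the point `(1,3)` (`next`), its inverse (`prev`), duplication (`dbl`), negation.
-/

set_option autoImplicit false

namespace Crest.Agent.R323

/-- rational points with positive `y` on `y^2 = 1 + 8 x^4` -/
@[ext]
structure Pt where
  x : ℚ
  y : ℚ
  h : y ^ 2 = 1 + 8 * x ^ 4
  pos : 0 < y

namespace Pt

theorem ext_x {P Q : Pt} (hx : P.x = Q.x) : P = Q := by
  apply Pt.ext hx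
  have h1 := P.h
  have h2 := Q.h
  rw [hx, ← h2] at h1
  exact (pow_left_inj₀ P.pos.le Q.pos.le (by norm_num)).1 h1

end Pt

theorem sq_ne_two (z : ℚ) : z ^ 2 ≠ 2 := by
  intro h
  have h2 : Irrational (Real.sqrt 2) := irrational_sqrt_two
  apply h2
  refine ⟨|z|, ?_⟩
  have : (|z| * |z| : ℚ) = 2 := by rw [abs_mul_abs_self, ← sq, h]
  have h3 : ((|z| : ℚ) : ℝ) * ((|z| : ℚ) : ℝ) = 2 := by exact_mod_cast this
  rw [← h3, Real.sqrt_mul_self (by positivity)]

theorem one_sub_ne (x : ℚ) : 1 - 8 * x ^ 2 ≠ 0 := by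
  intro h
  apply sq_ne_two (4 * x)
  linear_combination (-2) * h

theorem one_sub_ne' (x : ℚ) : 1 - 8 * x ^ 4 ≠ 0 := by
  intro h
  apply sq_ne_two (4 * x ^ 2)
  linear_combination (-2) * h

namespace Pt

/-- negation -/
def neg (P : Pt) : Pt where
  x := -P.x
  y := P.y
  h := by rw [P.h]; ring
  pos := P.pos

theorem neg_neg (P : Pt) : P.neg.neg = P := by
  apply ext_x; simp [neg]

theorem num_pos (P : Pt) :
    0 < 3 * (1 + 8 * P.x ^ 2) * P.y + 16 * P.x * (1 + P.x ^ 2) ∧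
    0 < 3 * (1 + 8 * P.x ^ 2) * P.y - 16 * P.x * (1 + P.x ^ 2) := by
  obtain ⟨x, y, h, hy⟩ := P
  simp only
  have hprod : (3 * (1 + 8 * x ^ 2) * y + 16 * x * (1 + x ^ 2)) *
      (3 * (1 + 8 * x ^ 2) * y - 16 * x * (1 + x ^ 2)) =
      (1 - 8 * x ^ 2) ^ 2 * (9 * y ^ 2 + 32 * x ^ 2) := by
    linear_combination (288 * x ^ 2) * h
  have hpos : 0 < (1 - 8 * x ^ 2) ^ 2 * (9 * y ^ 2 + 32 * x ^ 2) := by
    have := one_sub_ne x
    positivity
  have hsum : 0 < 3 * (1 + 8 * x ^ 2) * y := by positivity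
  rw [← hprod] at hpos
  rcases pos_and_pos_or_neg_and_neg_of_mul_pos hpos with h1 | h1
  · exact h1
  · exfalso; linarith [h1.1, h1.2]

/-- translation by `(1,3)` -/
def next (P : Pt) : Pt where
  x := (3 * P.x + P.y) / (1 - 8 * P.x ^ 2)
  y := (3 * (1 + 8 * P.x ^ 2) * P.y + 16 * P.x * (1 + P.x ^ 2)) / (1 - 8 * P.x ^ 2) ^ 2
  h := by
    have h0 := one_sub_ne P.x
    have h := P.h
    field_simp
    linear_combination (512 * P.x ^ 4 + (-288) * P.x ^ 2 + (-96) * P.x * P.y + (-8) * P.y ^ 2 + 1) * h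
  pos := by
    have h0 := one_sub_ne P.x
    have := (num_pos P).1
    positivity

/-- translation by `-(1,3)` -/
def prev (P : Pt) : Pt where
  x := (3 * P.x - P.y) / (1 - 8 * P.x ^ 2)
  y := (3 * (1 + 8 * P.x ^ 2) * P.y - 16 * P.x * (1 + P.x ^ 2)) / (1 - 8 * P.x ^ 2) ^ 2
  h := by
    have h0 := one_sub_ne P.x
    have h := P.h
    field_simp
    linear_combination (512 * P.x ^ 4 + (-288) * P.x ^ 2 + 96 * P.x * P.y + (-8) * P.y ^ 2 + 1) * h
  pos := by
    have h0 := one_sub_ne P.x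
    have := (num_pos P).2
    positivity

/-- duplication -/
def dbl (P : Pt) : Pt where
  x := 2 * P.x * P.y / (1 - 8 * P.x ^ 4)
  y := (P.y ^ 4 + 32 * P.x ^ 4) / (1 - 8 * P.x ^ 4) ^ 2
  h := by
    have h0 := one_sub_ne' P.x
    have h := P.h
    generalize hd : 1 - 8 * P.x ^ 4 = d at h0 ⊢
    field_simp
    subst hd
    linear_combination (512 * P.x ^ 12 + 64 * P.x ^ 8 * P.y ^ 2 + (-320) * P.x ^ 8 + 8 * P.x ^ 4 * P.y ^ 4 +
      (-48) * P.x ^ 4 * P.y ^ 2 + (-40) * P.x ^ 4 + P.y ^ 6 + P.y ^ 4 + P.y ^ 2 + 1) * h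
  pos := by
    have h0 := one_sub_ne' P.x
    have := P.pos
    positivity

/-- neutral element -/
def O : Pt where
  x := 0
  y := 1
  h := by norm_num
  pos := by norm_num

theorem next_neg (P : Pt) : P.neg.next = P.prev.neg := by
  apply ext_x
  simp only [next, prev, neg]
  rw [show (-P.x) ^ 2 = P.x ^ 2 by ring]
  ring

theorem prev_neg (P : Pt) : P.neg.prev = P.next.neg := by
  apply ext_x
  simp only [next, prev, neg]
  rw [show (-P.x) ^ 2 = P.x ^ 2 by ring]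
  ring

theorem dbl_neg (P : Pt) : P.neg.dbl = P.dbl.neg := by
  apply ext_x
  simp only [dbl, neg]
  rw [show (-P.x) ^ 4 = P.x ^ 4 by ring]
  ring

theorem next_prev (P : Pt) : P.prev.next = P := by
  apply ext_x
  have h2 := one_sub_ne P.prev.x
  have h0 := one_sub_ne P.x
  have h := P.h
  have hx : P.prev.x = (3 * P.x - P.y) / (1 - 8 * P.x ^ 2) := rfl
  have hy : P.prev.y = (3 * (1 + 8 * P.x ^ 2) * P.y - 16 * P.x * (1 + P.x ^ 2)) / (1 - 8 * P.x ^ 2) ^ 2 := rfl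
  show (3 * P.prev.x + P.prev.y) / (1 - 8 * P.prev.x ^ 2) = P.x
  rw [div_eq_iff h2, hx, hy]
  generalize hd : 1 - 8 * P.x ^ 2 = d at h0 ⊢
  field_simp
  subst hd
  linear_combination (8 * P.x) * h

theorem prev_next (P : Pt) : P.next.prev = P := by
  have := next_prev P.neg
  rw [prev_neg, next_neg] at this
  have h2 := congrArg Pt.neg this
  rwa [neg_neg, neg_neg] at h2

/-- x-coordinate of `2 Q + (1,3)` -/
theorem x_next_dbl (P : Pt) :
    P.dbl.next.x = ((3 * P.x + P.y) ^ 2 - P.x ^ 2 * (1 - 8 * P.x ^ 2) ^ 2) /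
      ((1 - 8 * P.x ^ 2) ^ 2 - 8 * P.x ^ 2 * (3 * P.x + P.y) ^ 2) := by
  have h0 := one_sub_ne P.x
  have h0' := one_sub_ne' P.x
  have h := P.h
  have h2 := one_sub_ne P.dbl.x
  have hx : P.dbl.x = 2 * P.x * P.y / (1 - 8 * P.x ^ 4) := rfl
  have hy : P.dbl.y = (P.y ^ 4 + 32 * P.x ^ 4) / (1 - 8 * P.x ^ 4) ^ 2 := rfl
  have h3 : (1 - 8 * P.x ^ 2) ^ 2 - 8 * P.x ^ 2 * (3 * P.x + P.y) ^ 2 ≠ 0 := by
    have := one_sub_ne (P.x * ((3 * P.x + P.y) / (1 - 8 * P.x ^ 2)))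
    intro h4
    apply this
    generalize hd : 1 - 8 * P.x ^ 2 = d at h0 h4 ⊢
    field_simp
    linear_combination h4
  have h5 : (1 - 8 * P.x ^ 4) ^ 2 - 8 * (2 * P.x * P.y) ^ 2 ≠ 0 := by
    intro h4
    apply h2
    rw [hx, div_pow]
    generalize hd : 1 - 8 * P.x ^ 4 = d at h0' h4 ⊢
    field_simp
    linear_combination h4
  show (3 * P.dbl.x + P.dbl.y) / (1 - 8 * P.dbl.x ^ 2) = _
  rw [div_eq_div_iff h2 h3, hx, hy]
  generalize hd : 1 - 8 * P.x ^ 4 = d at h0' ⊢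
  field_simp
  subst hd
  linear_combination ((-512) * P.x ^ 10 + 128 * P.x ^ 8 + (-64) * P.x ^ 6 * P.y ^ 2 + 256 * P.x ^ 6 +
    (-8) * P.x ^ 4 * P.y ^ 2 + (-16) * P.x ^ 4 + (-48) * P.x ^ 3 * P.y ^ 3 + 96 * P.x ^ 3 * P.y +
    (-8) * P.x ^ 2 * P.y ^ 4 + 8 * P.x ^ 2 * P.y ^ 2 + 8 * P.x ^ 2 + P.y ^ 2) * h

/-- in terms of the two consecutive x-coordinates -/
theorem x_next_dbl' (P : Pt) :
    P.dbl.next.x = (P.next.x ^ 2 - P.x ^ 2) / (1 - 8 * P.x ^ 2 * P.next.x ^ 2) := by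
  rw [x_next_dbl]
  have h0 := one_sub_ne P.x
  have hx : P.next.x = (3 * P.x + P.y) / (1 - 8 * P.x ^ 2) := rfl
  have h3 : (1 - 8 * P.x ^ 2) ^ 2 - 8 * P.x ^ 2 * (3 * P.x + P.y) ^ 2 ≠ 0 := by
    have := one_sub_ne (P.x * ((3 * P.x + P.y) / (1 - 8 * P.x ^ 2)))
    intro h4
    apply this
    generalize hd : 1 - 8 * P.x ^ 2 = d at h0 h4 ⊢
    field_simp
    linear_combination h4
  have h4 : 1 - 8 * P.x ^ 2 * P.next.x ^ 2 ≠ 0 := by
    have := one_sub_ne (P.x * P.next.x)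
    intro h4
    apply this
    linear_combination h4
  rw [div_eq_div_iff h3 h4, hx]
  generalize hd : 1 - 8 * P.x ^ 2 = d at h0 ⊢
  field_simp

theorem dbl_next (P : Pt) : P.next.dbl = P.dbl.next.next := by
  have key : P.next.dbl.prev = P.dbl.next := by
    apply ext_x
    have h1 := x_next_dbl' P
    have h2 := x_next_dbl' P.next.neg
    rw [dbl_neg, next_neg, next_neg, prev_next] at h2
    rw [h1]
    have h3 : P.next.dbl.prev.neg.x = - P.next.dbl.prev.x := rfl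
    rw [h3] at h2
    have h5 : P.neg.x = -P.x := rfl
    have h6 : P.next.neg.x = -P.next.x := rfl
    rw [h5, h6] at h2
    have h7 : P.next.dbl.prev.x = -(((-P.x) ^ 2 - (-P.next.x) ^ 2) /
        (1 - 8 * (-P.next.x) ^ 2 * (-P.x) ^ 2)) := by
      rw [← h2]; ring
    rw [h7, ← neg_div]
    congr 1 <;> ring
  rw [← key, next_prev]

theorem dbl_prev (P : Pt) : P.prev.dbl = P.dbl.prev.prev := by
  have := dbl_next P.prev
  rw [next_prev] at this
  rw [this, prev_next, prev_next]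

theorem dbl_O : O.dbl = O := by
  apply ext_x; simp [dbl, O]

/-- `next` as a permutation -/
def nextEquiv : Equiv.Perm Pt where
  toFun := next
  invFun := prev
  left_inv := prev_next
  right_inv := next_prev

/-- the multiples of `(1,3)` -/
def pt (k : ℤ) : Pt := (nextEquiv ^ k) O

theorem pt_zero : pt 0 = O := by simp [pt]

theorem pt_add_one (k : ℤ) : pt (k + 1) = (pt k).next := by
  unfold pt
  rw [add_comm, zpow_add, zpow_one]
  rfl

theorem pt_sub_one (k : ℤ) : pt (k - 1) = (pt k).prev := by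
  have := pt_add_one (k - 1)
  rw [sub_add_cancel] at this
  rw [this, prev_next]

theorem neg_O : O.neg = O := by
  apply ext_x; simp [neg, O]

theorem pt_neg (k : ℤ) : pt (-k) = (pt k).neg := by
  induction k using Int.induction_on with
  | zero => simp [pt_zero, neg_O]
  | succ k ih =>
    rw [pt_add_one, neg_add, ← sub_eq_add_neg, pt_sub_one, ih, prev_neg]
  | pred k ih =>
    rw [pt_sub_one, neg_sub, sub_neg_eq_add, add_comm, pt_add_one, ← next_neg]
    congr 1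
    rw [← ih, _root_.neg_neg]

theorem pt_dbl (k : ℤ) : (pt k).dbl = pt (2 * k) := by
  induction k using Int.induction_on with
  | zero => simp [pt_zero, dbl_O]
  | succ k ih =>
    rw [pt_add_one, dbl_next, ih, mul_add, mul_one, show (2 * (k:ℤ) + 2) = 2 * k + 1 + 1 by ring,
      pt_add_one, pt_add_one]
  | pred k ih =>
    rw [pt_sub_one, dbl_prev, ih, mul_sub, mul_one, show (2 * (-(k:ℤ)) - 2) = 2 * (-k) - 1 - 1 by ring,
      pt_sub_one, pt_sub_one]

end Pt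

end Crest.Agent.R323
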