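import Crest.Agent.R323.Ell
import Crest.Agent.R323.PellRuler
import Crest.Agent.R323.Final

/-!
# The ruler sequences from `ell_main`, and the final statement
-/

set_option autoImplicit false

namespace Crest.Agent.R323

theorem exists_ruler : ∃ a b p : ℕ → ℕ, Ruler a b p := by
  obtain ⟨a, b, p, ha0, hb0, hp0, hp1, heq, hsurj, hadj, hgr⟩ := ell_main
  exact ⟨a, b, p, ⟨hp0, hp1, fun k => (heq k).1, fun k => (heq k).2, hsurj,
    fun j k => hadj j k, hgr⟩⟩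

theorem SF1_pell_xn : SF1 (Pell.xn one_lt_two) := by
  obtain ⟨a, b, p, R⟩ := exists_ruler
  exact SF1_xn_of_ruler R

theorem SF1_pell_yn : SF1 (Pell.yn one_lt_two) := by
  obtain ⟨a, b, p, R⟩ := exists_ruler
  exact SF1_yn_of_ruler R

/-- the statement of S0500 -/
theorem main_S0500 (n : ℕ) (S : Set (Fin n → ℕ)) (hS : REPred fun a => a ∈ S) :
    ∃ m : ℕ, 1 ≤ m ∧ ∃ P : MvPolynomial (Fin n ⊕ Fin m) ℤ, ∀ a : Fin n → ℕ,
      (a ∈ S → ∃! w : Fin m → ℕ,
        MvPolynomial.eval (Sum.elim (fun i => (a i : ℤ)) (fun j => (w j : ℤ))) P = 0) ∧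
      (a ∉ S → ∀ w : Fin m → ℕ,
        MvPolynomial.eval (Sum.elim (fun i => (a i : ℤ)) (fun j => (w j : ℤ))) P ≠ 0) :=
  main_of_pell SF1_pell_xn SF1_pell_yn n S hS

end Crest.Agent.R323
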