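import Mathlib

/-!
# Single-fold Diophantine predicates: framework (S0500)

`SFP p` : the predicate `p` on environments `ι → ℕ` has a single-fold Diophantine representation.
`SFF f` : the function `f` has a single-fold Diophantine graph.
-/

set_option autoImplicit false

namespace Crest.Agent.R323

open MvPolynomial

/-- evaluation of an integer polynomial at an environment of naturals -/
noncomputable def ev {ι : Type} (F : MvPolynomial ι ℤ) (v : ι → ℕ) : ℤ :=
  MvPolynomial.eval (fun i => (v i : ℤ)) F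

/-- `f` is an integer polynomial function of the environment -/
def PolyFn {ι : Type} (f : (ι → ℕ) → ℤ) : Prop :=
  ∃ F : MvPolynomial ι ℤ, ∀ v, f v = ev F v

/-- single-fold Diophantine predicate on environments `ι → ℕ` -/
def SFP {ι : Type} (p : (ι → ℕ) → Prop) : Prop :=
  ∃ (m : ℕ) (F : MvPolynomial (ι ⊕ Fin m) ℤ),
    (∀ v : ι → ℕ, p v ↔ ∃ w : Fin m → ℕ, ev F (Sum.elim v w) = 0) ∧
    (∀ (v : ι → ℕ) (w w' : Fin m → ℕ),
      ev F (Sum.elim v w) = 0 → ev F (Sum.elim v w') = 0 → w = w')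

/-- single-fold Diophantine function on environments `ι → ℕ`; environment of the graph is
`Option ι → ℕ`, the value being `v none`. -/
def SFF {ι : Type} (f : (ι → ℕ) → ℕ) : Prop :=
  SFP (fun v : Option ι → ℕ => v none = f (fun i => v (some i)))

section PolyFn

variable {ι κ : Type}

theorem PolyFn.const (c : ℤ) : PolyFn (fun _ : ι → ℕ => c) :=
  ⟨C c, fun v => by simp [ev]⟩

theorem PolyFn.proj (i : ι) : PolyFn (fun v : ι → ℕ => (v i : ℤ)) :=
  ⟨X i, fun v => by simp [ev]⟩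

theorem PolyFn.add {f g : (ι → ℕ) → ℤ} (hf : PolyFn f) (hg : PolyFn g) :
    PolyFn (fun v => f v + g v) := by
  obtain ⟨F, hF⟩ := hf
  obtain ⟨G, hG⟩ := hg
  exact ⟨F + G, fun v => by simp [ev, hF, hG]⟩

theorem PolyFn.sub {f g : (ι → ℕ) → ℤ} (hf : PolyFn f) (hg : PolyFn g) :
    PolyFn (fun v => f v - g v) := by
  obtain ⟨F, hF⟩ := hf
  obtain ⟨G, hG⟩ := hg
  exact ⟨F - G, fun v => by simp [ev, hF, hG]⟩

theorem PolyFn.mul {f g : (ι → ℕ) → ℤ} (hf : PolyFn f) (hg : PolyFn g) :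
    PolyFn (fun v => f v * g v) := by
  obtain ⟨F, hF⟩ := hf
  obtain ⟨G, hG⟩ := hg
  exact ⟨F * G, fun v => by simp [ev, hF, hG]⟩

theorem PolyFn.neg {f : (ι → ℕ) → ℤ} (hf : PolyFn f) : PolyFn (fun v => - f v) := by
  obtain ⟨F, hF⟩ := hf
  exact ⟨-F, fun v => by simp [ev, hF]⟩

theorem PolyFn.pow {f : (ι → ℕ) → ℤ} (hf : PolyFn f) (n : ℕ) : PolyFn (fun v => f v ^ n) := by
  obtain ⟨F, hF⟩ := hf
  exact ⟨F ^ n, fun v => by simp [ev, hF]⟩

theorem PolyFn.reindex (g : ι → κ) {f : (ι → ℕ) → ℤ} (hf : PolyFn f) :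
    PolyFn (fun v : κ → ℕ => f (fun i => v (g i))) := by
  obtain ⟨F, hF⟩ := hf
  refine ⟨rename g F, fun v => ?_⟩
  change f (fun i => v (g i)) = _
  rw [hF]
  simp only [ev, eval_rename]
  rfl

theorem PolyFn.sum {α : Type} (s : Finset α) {f : α → (ι → ℕ) → ℤ} (hf : ∀ a ∈ s, PolyFn (f a)) :
    PolyFn (fun v => ∑ a ∈ s, f a v) := by
  classical
  induction s using Finset.induction_on with
  | empty => simpa using PolyFn.const (ι := ι) 0
  | insert a s ha ih =>
    have h1 := hf a (Finset.mem_insert_self a s)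
    have h2 := ih (fun b hb => hf b (Finset.mem_insert_of_mem hb))
    have := h1.add h2
    refine (?_ : PolyFn _)
    convert this using 2 with v
    rw [Finset.sum_insert ha]

end PolyFn

section SFP

variable {ι κ : Type}

/-- constructor with an arbitrary finite type of witnesses and semantic polynomial function -/
theorem SFP.mk' [Finite κ] {p : (ι → ℕ) → Prop} (f : (ι ⊕ κ → ℕ) → ℤ) (hf : PolyFn f)
    (h1 : ∀ v, p v ↔ ∃ w : κ → ℕ, f (Sum.elim v w) = 0)
    (h2 : ∀ v (w w' : κ → ℕ), f (Sum.elim v w) = 0 → f (Sum.elim v w') = 0 → w = w') :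
    SFP p := by
  obtain ⟨m, ⟨e⟩⟩ := Finite.exists_equiv_fin κ
  obtain ⟨F, hF⟩ := hf
  refine ⟨m, rename (Sum.map id e) F, ?_, ?_⟩
  · intro v
    rw [h1]
    have key : ∀ w : Fin m → ℕ, ev (rename (Sum.map id e) F) (Sum.elim v w) =
        f (Sum.elim v (w ∘ e)) := by
      intro w
      rw [hF]
      simp only [ev, eval_rename]
      have : ((fun i => ((Sum.elim v w : ι ⊕ Fin m → ℕ) i : ℤ)) ∘ Sum.map id e) =
          (fun i => ((Sum.elim v (w ∘ e) : ι ⊕ κ → ℕ) i : ℤ)) := by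
        funext i
        cases i <;> simp
      rw [this]
    constructor
    · rintro ⟨w, hw⟩
      refine ⟨w ∘ e.symm, ?_⟩
      rw [key]
      simpa [Function.comp_assoc] using hw
    · rintro ⟨w, hw⟩
      rw [key] at hw
      exact ⟨_, hw⟩
  · intro v w w' hw hw'
    have key : ∀ w : Fin m → ℕ, ev (rename (Sum.map id e) F) (Sum.elim v w) =
        f (Sum.elim v (w ∘ e)) := by
      intro w
      rw [hF]
      simp only [ev, eval_rename]
      have : ((fun i => ((Sum.elim v w : ι ⊕ Fin m → ℕ) i : ℤ)) ∘ Sum.map id e) =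
          (fun i => ((Sum.elim v (w ∘ e) : ι ⊕ κ → ℕ) i : ℤ)) := by
        funext i
        cases i <;> simp
      rw [this]
    rw [key] at hw hw'
    have := h2 v _ _ hw hw'
    ext i
    have := congrFun this (e.symm i)
    simpa using this

theorem SFP.elim {p : (ι → ℕ) → Prop} (hp : SFP p) :
    ∃ (m : ℕ) (f : (ι ⊕ Fin m → ℕ) → ℤ), PolyFn f ∧
      (∀ v, p v ↔ ∃ w : Fin m → ℕ, f (Sum.elim v w) = 0) ∧
      (∀ v (w w' : Fin m → ℕ), f (Sum.elim v w) = 0 → f (Sum.elim v w') = 0 → w = w') := by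
  obtain ⟨m, F, h1, h2⟩ := hp
  exact ⟨m, fun v => ev F v, ⟨F, fun _ => rfl⟩, h1, h2⟩

theorem SFP.congr {p q : (ι → ℕ) → Prop} (hp : SFP p) (h : ∀ v, q v ↔ p v) : SFP q := by
  have : q = p := funext fun v => propext (h v)
  rw [this]; exact hp

theorem SFF.congr {f g : (ι → ℕ) → ℕ} (hf : SFF f) (h : ∀ v, g v = f v) : SFF g := by
  have : g = f := funext h
  rw [this]; exact hf

/-- unique existential over a finite block of variables -/
theorem SFP.exBlock [Finite κ] {q : (ι ⊕ κ → ℕ) → Prop} (hq : SFP q)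
    (hu : ∀ v (y y' : κ → ℕ), q (Sum.elim v y) → q (Sum.elim v y') → y = y') :
    SFP (fun v : ι → ℕ => ∃ y : κ → ℕ, q (Sum.elim v y)) := by
  obtain ⟨m, f, hf, h1, h2⟩ := hq.elim
  refine SFP.mk' (κ := κ ⊕ Fin m)
    (fun v => f (fun i => v ((Equiv.sumAssoc ι κ (Fin m)) i))) ?_ ?_ ?_
  · exact hf.reindex _
  · intro v
    constructor
    · rintro ⟨y, hy⟩
      obtain ⟨w, hw⟩ := (h1 _).1 hy
      refine ⟨Sum.elim y w, ?_⟩
      convert hw using 2
      ext i
      rcases i with (i | i) | i <;> rfl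
    · rintro ⟨w, hw⟩
      refine ⟨fun i => w (Sum.inl i), (h1 _).2 ⟨fun i => w (Sum.inr i), ?_⟩⟩
      convert hw using 2
      ext i
      rcases i with (i | i) | i <;> rfl
  · intro v w w' hw hw'
    have e1 : ∀ w : κ ⊕ Fin m → ℕ, (fun i => (Sum.elim v w : ι ⊕ κ ⊕ Fin m → ℕ)
        ((Equiv.sumAssoc ι κ (Fin m)) i)) =
        Sum.elim (Sum.elim v (fun i => w (Sum.inl i))) (fun i => w (Sum.inr i)) := by
      intro w
      ext i
      rcases i with (i | i) | i <;> rfl
    simp only [e1] at hw hw'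
    have hy : (fun i => w (Sum.inl i)) = (fun i => w' (Sum.inl i)) :=
      hu v _ _ ((h1 _).2 ⟨_, hw⟩) ((h1 _).2 ⟨_, hw'⟩)
    rw [← hy] at hw'
    have hz := h2 _ _ _ hw hw'
    ext i
    rcases i with i | i
    · exact congrFun hy i
    · exact congrFun hz i

/-- reindexing of the environment -/
theorem SFP.reindex (g : ι → κ) {p : (ι → ℕ) → Prop} (hp : SFP p) :
    SFP (fun v : κ → ℕ => p (fun i => v (g i))) := by
  obtain ⟨m, f, hf, h1, h2⟩ := hp.elim
  have e1 : ∀ (v : κ → ℕ) (w : Fin m → ℕ), (fun i => (Sum.elim v w : κ ⊕ Fin m → ℕ) (Sum.map g id i)) =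
      Sum.elim (fun i => v (g i)) w := by
    intro v w
    ext i
    rcases i with i | i <;> rfl
  refine SFP.mk' (κ := Fin m) (fun v => f (fun i => v (Sum.map g id i))) (hf.reindex _) ?_ ?_
  · intro v
    rw [h1]
    simp only [e1]
  · intro v w w' hw hw'
    simp only [e1] at hw hw'
    exact h2 _ _ _ hw hw'

theorem SFF.reindex (g : ι → κ) {f : (ι → ℕ) → ℕ} (hf : SFF f) :
    SFF (fun v : κ → ℕ => f (fun i => v (g i))) := by
  have := SFP.reindex (κ := Option κ) (Option.map g) hf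
  exact this

theorem SFP.polyEq {f g : (ι → ℕ) → ℤ} (hf : PolyFn f) (hg : PolyFn g) :
    SFP (fun v => f v = g v) := by
  refine SFP.mk' (κ := Empty) (fun v => f (fun i => v (Sum.inl i)) - g (fun i => v (Sum.inl i)))
    ((hf.reindex _).sub (hg.reindex _)) ?_ ?_
  · intro v
    constructor
    · intro h
      exact ⟨fun e => e.elim, by simpa [sub_eq_zero] using h⟩
    · rintro ⟨w, hw⟩
      simpa [sub_eq_zero] using hw
  · intro v w w' _ _
    ext i
    exact i.elim

theorem SFP.true : SFP (fun _ : ι → ℕ => True) :=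
  (SFP.polyEq (PolyFn.const 0) (PolyFn.const 0)).congr (fun _ => by simp)

theorem SFP.false : SFP (fun _ : ι → ℕ => False) :=
  (SFP.polyEq (PolyFn.const 0) (PolyFn.const 1)).congr (fun _ => by simp)

theorem SFP.const (P : Prop) : SFP (fun _ : ι → ℕ => P) := by
  by_cases h : P
  · exact SFP.true.congr (fun _ => by simp [h])
  · exact SFP.false.congr (fun _ => by simp [h])

theorem SFP.and {p q : (ι → ℕ) → Prop} (hp : SFP p) (hq : SFP q) :
    SFP (fun v => p v ∧ q v) := by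
  obtain ⟨m, f, hf, h1, h2⟩ := hp.elim
  obtain ⟨n, g, hg, h3, h4⟩ := hq.elim
  refine SFP.mk' (κ := Fin m ⊕ Fin n)
    (fun v => f (fun i => v (Sum.map id Sum.inl i)) ^ 2 + g (fun i => v (Sum.map id Sum.inr i)) ^ 2)
    (((hf.reindex _).pow 2).add ((hg.reindex _).pow 2)) ?_ ?_
  · intro v
    have e1 : ∀ w : Fin m ⊕ Fin n → ℕ,
        (fun i => (Sum.elim v w : ι ⊕ Fin m ⊕ Fin n → ℕ) (Sum.map id Sum.inl i)) =
        Sum.elim v (fun i => w (Sum.inl i)) := by
      intro w; ext i; rcases i with i | i <;> rfl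
    have e2 : ∀ w : Fin m ⊕ Fin n → ℕ,
        (fun i => (Sum.elim v w : ι ⊕ Fin m ⊕ Fin n → ℕ) (Sum.map id Sum.inr i)) =
        Sum.elim v (fun i => w (Sum.inr i)) := by
      intro w; ext i; rcases i with i | i <;> rfl
    simp only [e1, e2]
    constructor
    · rintro ⟨hpv, hqv⟩
      obtain ⟨w, hw⟩ := (h1 v).1 hpv
      obtain ⟨u, hu⟩ := (h3 v).1 hqv
      exact ⟨Sum.elim w u, by simp [hw, hu]⟩
    · rintro ⟨w, hw⟩
      have hw1 : f (Sum.elim v fun i => w (Sum.inl i)) = 0 := by nlinarith [sq_nonneg (f (Sum.elim v fun i => w (Sum.inl i))), sq_nonneg (g (Sum.elim v fun i => w (Sum.inr i)))]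
      have hw2 : g (Sum.elim v fun i => w (Sum.inr i)) = 0 := by nlinarith [sq_nonneg (f (Sum.elim v fun i => w (Sum.inl i))), sq_nonneg (g (Sum.elim v fun i => w (Sum.inr i)))]
      exact ⟨(h1 v).2 ⟨_, hw1⟩, (h3 v).2 ⟨_, hw2⟩⟩
  · intro v w w' hw hw'
    have e1 : ∀ w : Fin m ⊕ Fin n → ℕ,
        (fun i => (Sum.elim v w : ι ⊕ Fin m ⊕ Fin n → ℕ) (Sum.map id Sum.inl i)) =
        Sum.elim v (fun i => w (Sum.inl i)) := by
      intro w; ext i; rcases i with i | i <;> rfl
    have e2 : ∀ w : Fin m ⊕ Fin n → ℕ,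
        (fun i => (Sum.elim v w : ι ⊕ Fin m ⊕ Fin n → ℕ) (Sum.map id Sum.inr i)) =
        Sum.elim v (fun i => w (Sum.inr i)) := by
      intro w; ext i; rcases i with i | i <;> rfl
    simp only [e1, e2] at hw hw'
    have a1 : f (Sum.elim v fun i => w (Sum.inl i)) = 0 := by nlinarith [sq_nonneg (f (Sum.elim v fun i => w (Sum.inl i))), sq_nonneg (g (Sum.elim v fun i => w (Sum.inr i)))]
    have a2 : g (Sum.elim v fun i => w (Sum.inr i)) = 0 := by nlinarith [sq_nonneg (f (Sum.elim v fun i => w (Sum.inl i))), sq_nonneg (g (Sum.elim v fun i => w (Sum.inr i)))]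
    have b1 : f (Sum.elim v fun i => w' (Sum.inl i)) = 0 := by nlinarith [sq_nonneg (f (Sum.elim v fun i => w' (Sum.inl i))), sq_nonneg (g (Sum.elim v fun i => w' (Sum.inr i)))]
    have b2 : g (Sum.elim v fun i => w' (Sum.inr i)) = 0 := by nlinarith [sq_nonneg (f (Sum.elim v fun i => w' (Sum.inl i))), sq_nonneg (g (Sum.elim v fun i => w' (Sum.inr i)))]
    have c1 := h2 _ _ _ a1 b1
    have c2 := h4 _ _ _ a2 b2
    ext i
    rcases i with i | i
    · exact congrFun c1 i
    · exact congrFun c2 i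

end SFP

end Crest.Agent.R323
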